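import Mathlib

/-!
R113 / T8 : the Bessel selection lemma (BES), Abel summation and the far-block flux functions.
-/

set_option autoImplicit false

open Finset

namespace Crest.Agent.R113.Bes

/-- (BES): among the functions `φ b` with small pairwise inner products, one has small upper
correlation with `h ∈ [0,1]`. -/
theorem bes {ι β : Type*} [Fintype β] [Nonempty β] (S : Finset ι) (φ : β → ι → ℝ)
    (hφ : ∀ b, ∀ m ∈ S, |φ b m| ≤ 2) (δ : ℝ) (hδ0 : 0 ≤ δ)
    (hδ : ∀ b b', b ≠ b' → |∑ m ∈ S, φ b m * φ b' m| ≤ δ * (S.card : ℝ))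
    (h : ι → ℝ) (h0 : ∀ m ∈ S, 0 ≤ h m) (h1 : ∀ m ∈ S, h m ≤ 1) :
    ∃ b, ∑ m ∈ S, h m * φ b m ≤ (S.card : ℝ) * Real.sqrt (4 / (Fintype.card β : ℝ) + δ) := by
  classical
  set n : ℝ := (Fintype.card β : ℝ) with hn
  have hn1 : 1 ≤ n := by rw [hn]; exact_mod_cast Fintype.card_pos
  have hnpos : 0 < n := by linarith
  set q : ℝ := (S.card : ℝ) with hq
  have hq0 : 0 ≤ q := by rw [hq]; positivity
  by_contra hcon
  push Not at hcon
  have hsum : n * (q * Real.sqrt (4 / n + δ)) < ∑ b, ∑ m ∈ S, h m * φ b m := by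
    have : ∑ _b : β, (q * Real.sqrt (4 / n + δ)) < ∑ b, ∑ m ∈ S, h m * φ b m :=
      Finset.sum_lt_sum_of_nonempty Finset.univ_nonempty (fun b _ => hcon b)
    simpa [hn] using this
  have hswap : ∑ b, ∑ m ∈ S, h m * φ b m = ∑ m ∈ S, h m * ∑ b, φ b m := by
    rw [Finset.sum_comm]
    refine Finset.sum_congr rfl fun m _ => ?_
    rw [Finset.mul_sum]
  have hCS : (∑ m ∈ S, h m * ∑ b, φ b m) ^ 2 ≤ (∑ m ∈ S, h m ^ 2) * ∑ m ∈ S, (∑ b, φ b m) ^ 2 :=
    Finset.sum_mul_sq_le_sq_mul_sq S h (fun m => ∑ b, φ b m)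
  have hh : ∑ m ∈ S, h m ^ 2 ≤ q := by
    calc ∑ m ∈ S, h m ^ 2 ≤ ∑ _m ∈ S, (1 : ℝ) := by
          refine Finset.sum_le_sum fun m hm => ?_
          have := h0 m hm; have := h1 m hm
          nlinarith
      _ = q := by simp [hq]
  have h2 : ∑ m ∈ S, (∑ b, φ b m) ^ 2 = ∑ b, ∑ b', ∑ m ∈ S, φ b m * φ b' m := by
    calc ∑ m ∈ S, (∑ b, φ b m) ^ 2 = ∑ m ∈ S, ∑ b, ∑ b', φ b m * φ b' m := by
          refine Finset.sum_congr rfl fun m _ => ?_
          rw [sq, Finset.sum_mul_sum]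
      _ = ∑ b, ∑ m ∈ S, ∑ b', φ b m * φ b' m := Finset.sum_comm
      _ = ∑ b, ∑ b', ∑ m ∈ S, φ b m * φ b' m := by
          refine Finset.sum_congr rfl fun b _ => Finset.sum_comm
  have h3 : ∑ b, ∑ b', ∑ m ∈ S, φ b m * φ b' m ≤
      ∑ b : β, ∑ b' : β, (if b = b' then 4 * q else δ * q) := by
    refine Finset.sum_le_sum fun b _ => Finset.sum_le_sum fun b' _ => ?_
    split_ifs with hbb
    · subst hbb
      calc ∑ m ∈ S, φ b m * φ b m ≤ ∑ _m ∈ S, (4 : ℝ) := by
            refine Finset.sum_le_sum fun m hm => ?_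
            have := hφ b m hm
            rw [← sq, ← sq_abs]
            have h0' := abs_nonneg (φ b m)
            nlinarith
        _ = 4 * q := by simp [hq]; ring
    · exact (le_abs_self _).trans (hδ b b' hbb)
  have h4 : ∑ b : β, ∑ b' : β, (if b = b' then 4 * q else δ * q) =
      n * (4 * q) + (n ^ 2 - n) * (δ * q) := by
    have : ∀ b : β, ∑ b' : β, (if b = b' then 4 * q else δ * q) = 4 * q + (n - 1) * (δ * q) := by
      intro b
      have h5 : ∀ b' : β, (if b = b' then 4 * q else δ * q) =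
          δ * q + (if b = b' then (4 * q - δ * q) else 0) := by
        intro b'; split_ifs <;> ring
      simp only [h5, Finset.sum_add_distrib, Finset.sum_ite_eq, Finset.mem_univ, if_true,
        Finset.sum_const, Finset.card_univ, nsmul_eq_mul]
      rw [← hn]; ring
    simp only [this, Finset.sum_const, Finset.card_univ, nsmul_eq_mul]
    rw [← hn]; ring
  have h11 : ∑ m ∈ S, (∑ b, φ b m) ^ 2 ≤ (4 / n + δ) * (n ^ 2 * q) := by
    rw [h2]
    refine (h3.trans h4.le).trans ?_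
    have : (4 / n + δ) * (n ^ 2 * q) = n * (4 * q) + n ^ 2 * (δ * q) := by
      field_simp
    rw [this]
    have : 0 ≤ n * (δ * q) := by positivity
    nlinarith
  have h12 : 0 ≤ ∑ m ∈ S, (∑ b, φ b m) ^ 2 := Finset.sum_nonneg fun _ _ => sq_nonneg _
  have h13 : (∑ m ∈ S, h m * ∑ b, φ b m) ^ 2 ≤ q * ((4 / n + δ) * (n ^ 2 * q)) :=
    calc (∑ m ∈ S, h m * ∑ b, φ b m) ^ 2 ≤ (∑ m ∈ S, h m ^ 2) * ∑ m ∈ S, (∑ b, φ b m) ^ 2 := hCS
      _ ≤ q * ∑ m ∈ S, (∑ b, φ b m) ^ 2 := mul_le_mul_of_nonneg_right hh h12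
      _ ≤ q * ((4 / n + δ) * (n ^ 2 * q)) := mul_le_mul_of_nonneg_left h11 hq0
  have h14 : (n * (q * Real.sqrt (4 / n + δ))) ^ 2 = q * ((4 / n + δ) * (n ^ 2 * q)) := by
    rw [mul_pow, mul_pow, Real.sq_sqrt (by positivity)]
    ring
  rw [hswap] at hsum
  have h15 : 0 ≤ n * (q * Real.sqrt (4 / n + δ)) := by positivity
  have h16 : (n * (q * Real.sqrt (4 / n + δ))) ^ 2 < (∑ m ∈ S, h m * ∑ b, φ b m) ^ 2 :=
    pow_lt_pow_left₀ hsum h15 (by norm_num)
  linarith

/-- Abel summation bound. -/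
theorem abel (f g : ℕ → ℝ) (B : ℝ) (q : ℕ) (hf : ∀ j ≤ q, |∑ m ∈ range j, f m| ≤ B) :
    |∑ m ∈ range q, f m * g m| ≤ B * (|g (q - 1)| + ∑ m ∈ range (q - 1), |g (m + 1) - g m|) := by
  have hB : 0 ≤ B := (abs_nonneg _).trans (hf 0 (Nat.zero_le _))
  have key := Finset.sum_range_by_parts g f q
  have : ∑ m ∈ range q, f m * g m = ∑ m ∈ range q, g m • f m := by
    refine Finset.sum_congr rfl fun m _ => ?_
    rw [smul_eq_mul, mul_comm]
  rw [this, key]
  calc |g (q - 1) • ∑ i ∈ range q, f i -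
        ∑ i ∈ range (q - 1), (g (i + 1) - g i) • ∑ i ∈ range (i + 1), f i|
      ≤ |g (q - 1) • ∑ i ∈ range q, f i| +
        |∑ i ∈ range (q - 1), (g (i + 1) - g i) • ∑ i ∈ range (i + 1), f i| := abs_sub _ _
    _ ≤ |g (q - 1)| * B + ∑ i ∈ range (q - 1), |g (i + 1) - g i| * B := by
        refine add_le_add ?_ ?_
        · rw [smul_eq_mul, abs_mul]
          exact mul_le_mul_of_nonneg_left (hf q le_rfl) (abs_nonneg _)
        · refine (Finset.abs_sum_le_sum_abs _ _).trans (Finset.sum_le_sum fun i hi => ?_)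
          rw [smul_eq_mul, abs_mul]
          have hi' := Finset.mem_range.1 hi
          exact mul_le_mul_of_nonneg_left (hf (i + 1) (by omega)) (abs_nonneg _)
    _ = B * (|g (q - 1)| + ∑ m ∈ range (q - 1), |g (m + 1) - g m|) := by
        rw [← Finset.sum_mul]; ring

/-- The (averaged) far flux function of a `{0,1}`-word `ε` on the orbit:
`φ(m) = (1/r) ∑_{k=1}^r (2 ε(m) - ε(m+kM) - ε(m-kM))`. -/
noncomputable def farPhi (r M : ℕ) (ε : ℤ → ℝ) (m : ℤ) : ℝ :=
  (1 / (r : ℝ)) * ∑ k ∈ Finset.Icc 1 r, (2 * ε m - ε (m + k * M) - ε (m - k * M))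

theorem farPhi_abs_le (r M : ℕ) (ε : ℤ → ℝ) (h0 : ∀ m, 0 ≤ ε m) (h1 : ∀ m, ε m ≤ 1) (m : ℤ) :
    |farPhi r M ε m| ≤ 2 := by
  unfold farPhi
  rcases Nat.eq_zero_or_pos r with hr | hr
  · subst hr; simp
  have hr' : (0 : ℝ) < r := by exact_mod_cast hr
  rw [abs_mul, abs_of_pos (by positivity : (0 : ℝ) < 1 / (r : ℝ))]
  have : |∑ k ∈ Finset.Icc 1 r, (2 * ε m - ε (m + k * M) - ε (m - k * M))| ≤ r * 2 := by
    calc |∑ k ∈ Finset.Icc 1 r, (2 * ε m - ε (m + k * M) - ε (m - k * M))|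
        ≤ ∑ k ∈ Finset.Icc 1 r, |2 * ε m - ε (m + k * M) - ε (m - k * M)| :=
          Finset.abs_sum_le_sum_abs _ _
      _ ≤ ∑ _k ∈ Finset.Icc 1 r, (2 : ℝ) := by
          refine Finset.sum_le_sum fun k _ => ?_
          rw [abs_le]
          have a1 := h0 m; have a2 := h1 m
          have b1 := h0 (m + k * M); have b2 := h1 (m + k * M)
          have c1 := h0 (m - k * M); have c2 := h1 (m - k * M)
          constructor <;> linarith
      _ = r * 2 := by simp
  calc 1 / (r : ℝ) * |∑ k ∈ Finset.Icc 1 r, (2 * ε m - ε (m + k * M) - ε (m - k * M))|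
      ≤ 1 / (r : ℝ) * (r * 2) := mul_le_mul_of_nonneg_left this (by positivity)
    _ = 2 := by field_simp

/-- shift of an interval sum changes it by at most the shift. -/
theorem shift_sum_le (ε : ℤ → ℝ) (h0 : ∀ m, 0 ≤ ε m) (h1 : ∀ m, ε m ≤ 1) (a : ℤ) (j s : ℕ) :
    |∑ m ∈ range j, ε (a + m) - ∑ m ∈ range j, ε (a + m + s)| ≤ s := by
  have e1 : ∑ m ∈ range (j + s), ε (a + m) =
      ∑ m ∈ range j, ε (a + m) + ∑ m ∈ range s, ε (a + (j + m : ℕ)) := by
    rw [Finset.sum_range_add]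
  have e2 : ∑ m ∈ range (s + j), ε (a + m) =
      ∑ m ∈ range s, ε (a + m) + ∑ m ∈ range j, ε (a + (s + m : ℕ)) := by
    rw [Finset.sum_range_add]
  have e3 : ∑ m ∈ range j, ε (a + m + s) = ∑ m ∈ range j, ε (a + (s + m : ℕ)) := by
    refine Finset.sum_congr rfl fun m _ => ?_
    congr 1
    push_cast
    ring
  have e4 : ∑ m ∈ range j, ε (a + m) - ∑ m ∈ range j, ε (a + m + s) =
      ∑ m ∈ range s, ε (a + m) - ∑ m ∈ range s, ε (a + (j + m : ℕ)) := by
    rw [e3]
    have := e1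
    rw [add_comm j s, e2] at this
    linarith
  rw [e4]
  have b1 : 0 ≤ ∑ m ∈ range s, ε (a + m) := Finset.sum_nonneg fun _ _ => h0 _
  have b2 : ∑ m ∈ range s, ε (a + m) ≤ s := by
    calc ∑ m ∈ range s, ε (a + m) ≤ ∑ _m ∈ range s, (1 : ℝ) := Finset.sum_le_sum fun _ _ => h1 _
      _ = s := by simp
  have b3 : 0 ≤ ∑ m ∈ range s, ε (a + (j + m : ℕ)) := Finset.sum_nonneg fun _ _ => h0 _
  have b4 : ∑ m ∈ range s, ε (a + (j + m : ℕ)) ≤ s := by
    calc ∑ m ∈ range s, ε (a + (j + m : ℕ)) ≤ ∑ _m ∈ range s, (1 : ℝ) :=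
          Finset.sum_le_sum fun _ _ => h1 _
      _ = s := by simp
  rw [abs_le]; constructor <;> linarith

/-- partial sums of `farPhi` over intervals are at most `2 r M`. -/
theorem farPhi_partial (r M : ℕ) (ε : ℤ → ℝ) (h0 : ∀ m, 0 ≤ ε m) (h1 : ∀ m, ε m ≤ 1)
    (a : ℤ) (j : ℕ) : |∑ m ∈ range j, farPhi r M ε (a + m)| ≤ 2 * r * M := by
  rcases Nat.eq_zero_or_pos r with hr | hr
  · subst hr; simp [farPhi]
  have hr' : (0 : ℝ) < r := by exact_mod_cast hr
  unfold farPhi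
  rw [← Finset.mul_sum, Finset.sum_comm, abs_mul, abs_of_pos (by positivity : (0 : ℝ) < 1 / (r : ℝ))]
  have hk : ∀ k ∈ Finset.Icc 1 r, |∑ m ∈ range j, (2 * ε (a + m) - ε (a + m + k * M) -
      ε (a + m - k * M))| ≤ 2 * (r * M) := by
    intro k hk
    have hk' : (k : ℝ) ≤ r := by exact_mod_cast (Finset.mem_Icc.1 hk).2
    have s1 := shift_sum_le ε h0 h1 a j (k * M)
    have s2 := shift_sum_le ε h0 h1 (a - k * M) j (k * M)
    have e : ∑ m ∈ range j, (2 * ε (a + m) - ε (a + m + k * M) - ε (a + m - k * M)) =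
        (∑ m ∈ range j, ε (a + m) - ∑ m ∈ range j, ε (a + m + (k * M : ℕ))) -
        (∑ m ∈ range j, ε (a - k * M + m) - ∑ m ∈ range j, ε (a - k * M + m + (k * M : ℕ))) := by
      rw [← Finset.sum_sub_distrib, ← Finset.sum_sub_distrib, ← Finset.sum_sub_distrib]
      refine Finset.sum_congr rfl fun m _ => ?_
      have x1 : a - k * M + m = a + m - k * M := by ring
      have x2 : a - k * M + m + (k * M : ℕ) = a + m := by push_cast; ring
      rw [x2, x1]
      push_cast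
      ring
    rw [e]
    have hkM : ((k * M : ℕ) : ℝ) ≤ r * M := by
      push_cast
      exact mul_le_mul_of_nonneg_right hk' (by positivity)
    calc _ ≤ |∑ m ∈ range j, ε (a + m) - ∑ m ∈ range j, ε (a + m + (k * M : ℕ))| +
          |∑ m ∈ range j, ε (a - k * M + m) - ∑ m ∈ range j, ε (a - k * M + m + (k * M : ℕ))| :=
          abs_sub _ _
      _ ≤ 2 * (r * M) := by linarith
  calc 1 / (r : ℝ) * |∑ k ∈ Finset.Icc 1 r, ∑ m ∈ range j,
        (2 * ε (a + m) - ε (a + m + k * M) - ε (a + m - k * M))|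
      ≤ 1 / (r : ℝ) * ∑ k ∈ Finset.Icc 1 r, 2 * (r * M : ℝ) := by
        refine mul_le_mul_of_nonneg_left ?_ (by positivity)
        exact (Finset.abs_sum_le_sum_abs _ _).trans (Finset.sum_le_sum hk)
    _ = 2 * r * M := by
        rw [Finset.sum_const, Nat.card_Icc, nsmul_eq_mul]
        simp only [Nat.add_sub_cancel]
        field_simp

/-- total variation of `farPhi`. -/
theorem farPhi_tv (r M : ℕ) (ε : ℤ → ℝ) (a : ℤ) (j : ℕ) (V : ℝ)
    (hV : ∑ m ∈ range (j + 2 * (r * M)), |ε (a - r * M + m + 1) - ε (a - r * M + m)| ≤ V) :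
    ∑ m ∈ range j, |farPhi r M ε (a + m + 1) - farPhi r M ε (a + m)| ≤ 4 * V := by
  rcases Nat.eq_zero_or_pos r with hr | hr
  · subst hr
    have hV0 : 0 ≤ V := (Finset.sum_nonneg fun _ _ => abs_nonneg _).trans hV
    simp [farPhi]; linarith
  have hr' : (0 : ℝ) < r := by exact_mod_cast hr
  -- window bound: any shift by s ∈ [-rM, rM]
  have hw : ∀ s : ℕ, s ≤ 2 * (r * M) →
      ∑ m ∈ range j, |ε (a - r * M + s + m + 1) - ε (a - r * M + s + m)| ≤ V := by
    intro s hs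
    refine le_trans ?_ hV
    have : ∑ m ∈ range j, |ε (a - r * M + s + m + 1) - ε (a - r * M + s + m)| =
        ∑ m ∈ Finset.Ico s (s + j), |ε (a - r * M + m + 1) - ε (a - r * M + m)| := by
      rw [Finset.sum_Ico_eq_sum_range]
      simp only [Nat.add_sub_cancel_left]
      refine Finset.sum_congr rfl fun m _ => ?_
      have : a - r * M + s + (m : ℤ) = a - r * M + ((s + m : ℕ) : ℤ) := by push_cast; ring
      rw [this]
    rw [this]
    refine Finset.sum_le_sum_of_subset_of_nonneg ?_ (fun _ _ _ => abs_nonneg _)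
    intro m hm
    have := Finset.mem_Ico.1 hm
    exact Finset.mem_range.2 (by omega)
  have hpt : ∀ m : ℕ, |farPhi r M ε (a + m + 1) - farPhi r M ε (a + m)| ≤
      (1 / (r : ℝ)) * ∑ k ∈ Finset.Icc 1 r,
        (2 * |ε (a + m + 1) - ε (a + m)| + |ε (a + m + k * M + 1) - ε (a + m + k * M)| +
          |ε (a + m - k * M + 1) - ε (a + m - k * M)|) := by
    intro m
    unfold farPhi
    rw [← mul_sub, ← Finset.sum_sub_distrib, abs_mul,
      abs_of_pos (by positivity : (0 : ℝ) < 1 / (r : ℝ))]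
    refine mul_le_mul_of_nonneg_left ?_ (by positivity)
    refine (Finset.abs_sum_le_sum_abs _ _).trans (Finset.sum_le_sum fun k _ => ?_)
    have x1 : a + m + 1 + k * M = a + m + k * M + 1 := by ring
    have x2 : a + m + 1 - k * M = a + m - k * M + 1 := by ring
    rw [x1, x2]
    have e : 2 * ε (a + m + 1) - ε (a + m + k * M + 1) - ε (a + m - k * M + 1) -
        (2 * ε (a + m) - ε (a + m + k * M) - ε (a + m - k * M)) =
        2 * (ε (a + m + 1) - ε (a + m)) - (ε (a + m + k * M + 1) - ε (a + m + k * M)) -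
        (ε (a + m - k * M + 1) - ε (a + m - k * M)) := by ring
    rw [e]
    refine (abs_sub _ _).trans (add_le_add ((abs_sub _ _).trans (add_le_add ?_ le_rfl)) le_rfl)
    rw [abs_mul, abs_two]
  calc ∑ m ∈ range j, |farPhi r M ε (a + m + 1) - farPhi r M ε (a + m)|
      ≤ ∑ m ∈ range j, (1 / (r : ℝ)) * ∑ k ∈ Finset.Icc 1 r,
        (2 * |ε (a + m + 1) - ε (a + m)| + |ε (a + m + k * M + 1) - ε (a + m + k * M)| +
          |ε (a + m - k * M + 1) - ε (a + m - k * M)|) := Finset.sum_le_sum fun m _ => hpt m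
    _ = (1 / (r : ℝ)) * ∑ k ∈ Finset.Icc 1 r, ∑ m ∈ range j,
        (2 * |ε (a + m + 1) - ε (a + m)| + |ε (a + m + k * M + 1) - ε (a + m + k * M)| +
          |ε (a + m - k * M + 1) - ε (a + m - k * M)|) := by
        rw [← Finset.mul_sum, Finset.sum_comm]
    _ ≤ (1 / (r : ℝ)) * ∑ _k ∈ Finset.Icc 1 r, 4 * V := by
        refine mul_le_mul_of_nonneg_left (Finset.sum_le_sum fun k hk => ?_) (by positivity)
        have hk1 := (Finset.mem_Icc.1 hk).2
        have hkM : k * M ≤ r * M := Nat.mul_le_mul_right M hk1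
        simp only [Finset.sum_add_distrib, ← Finset.mul_sum]
        have w0 := hw (r * M) (by omega)
        have w1 := hw (r * M + k * M) (by omega)
        have w2 := hw (r * M - k * M) (by omega)
        have y0 : ∀ m : ℕ, a - r * M + ((r * M : ℕ) : ℤ) + m = a + m := by
          intro m; push_cast; ring
        have y1 : ∀ m : ℕ, a - r * M + ((r * M + k * M : ℕ) : ℤ) + m = a + m + k * M := by
          intro m; push_cast; ring
        have y2 : ∀ m : ℕ, a - r * M + ((r * M - k * M : ℕ) : ℤ) + m = a + m - k * M := by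
          intro m
          rw [Nat.cast_sub hkM]; push_cast; ring
        simp only [y0] at w0
        simp only [y1] at w1
        simp only [y2] at w2
        linarith
    _ = 4 * V := by
        rw [Finset.sum_const, Nat.card_Icc, nsmul_eq_mul]
        simp only [Nat.add_sub_cancel]
        field_simp

/-- Inner product of two far flux functions of different blocks. -/
theorem farPhi_inner (r M r' M' : ℕ) (ε ε' : ℤ → ℝ) (h0 : ∀ m, 0 ≤ ε m) (h1 : ∀ m, ε m ≤ 1)
    (h0' : ∀ m, 0 ≤ ε' m) (h1' : ∀ m, ε' m ≤ 1) (a : ℤ) (q : ℕ) (V : ℝ)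
    (hV : ∑ m ∈ range (q + 2 * (r' * M')), |ε' (a - r' * M' + m + 1) - ε' (a - r' * M' + m)| ≤ V) :
    |∑ m ∈ range q, farPhi r M ε (a + m) * farPhi r' M' ε' (a + m)| ≤
      2 * r * M * (2 + 4 * V) := by
  have hB : (0 : ℝ) ≤ 2 * r * M := by positivity
  have key := abel (fun m => farPhi r M ε (a + m)) (fun m => farPhi r' M' ε' (a + m))
    (2 * r * M) q (fun j _ => farPhi_partial r M ε h0 h1 a j)
  refine key.trans (mul_le_mul_of_nonneg_left (add_le_add ?_ ?_) hB)
  · exact farPhi_abs_le r' M' ε' h0' h1' _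
  · have htv := farPhi_tv r' M' ε' a q V hV
    refine le_trans ?_ htv
    have : ∀ m : ℕ, |farPhi r' M' ε' (a + ((m + 1 : ℕ) : ℤ)) - farPhi r' M' ε' (a + m)| =
        |farPhi r' M' ε' (a + m + 1) - farPhi r' M' ε' (a + m)| := by
      intro m
      have : a + ((m + 1 : ℕ) : ℤ) = a + m + 1 := by push_cast; ring
      rw [this]
    simp only [this]
    exact Finset.sum_le_sum_of_subset_of_nonneg
      (Finset.range_subset_range.2 (Nat.sub_le q 1)) (fun _ _ _ => abs_nonneg _)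

end Crest.Agent.R113.Bes
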