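import Mathlib

/-! # T08: Bessel selection and Abel summation — blueprint 6835 (BES) -/

set_option autoImplicit false

namespace Crest.Agent.R113

open scoped BigOperators

/-- Among nearly orthogonal bounded functions, one has small (signed) correlation with `h`. -/
theorem bessel_select {q : ℕ} {κ : Type*} (C : Finset κ) (hC : C.Nonempty)
    (φ : κ → Fin q → ℝ) (h : Fin q → ℝ) (δ : ℝ) (hδ : 0 ≤ δ)
    (hφ : ∀ b ∈ C, ∀ i, |φ b i| ≤ 2)
    (horth : ∀ b ∈ C, ∀ b' ∈ C, b ≠ b' → |∑ i, φ b i * φ b' i| ≤ δ * q)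
    (h0 : ∀ i, 0 ≤ h i) (h1 : ∀ i, h i ≤ 1) :
    ∃ b ∈ C, ∑ i, h i * φ b i ≤ q * Real.sqrt (4 / C.card + δ) := by
  classical
  set n : ℝ := (C.card : ℝ) with hn
  have hn1 : 1 ≤ n := by rw [hn]; exact_mod_cast Finset.card_pos.2 hC
  have hnpos : 0 < n := by linarith
  have hq0 : (0 : ℝ) ≤ q := by positivity
  by_contra hcon
  push Not at hcon
  have hsum : n * ((q : ℝ) * Real.sqrt (4 / n + δ)) < ∑ b ∈ C, ∑ m, h m * φ b m := by
    have : ∑ _b ∈ C, ((q : ℝ) * Real.sqrt (4 / n + δ)) < ∑ b ∈ C, ∑ m, h m * φ b m :=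
      Finset.sum_lt_sum_of_nonempty hC (fun b hb => hcon b hb)
    simpa [hn] using this
  have hswap : ∑ b ∈ C, ∑ m, h m * φ b m = ∑ m, h m * ∑ b ∈ C, φ b m := by
    rw [Finset.sum_comm]
    refine Finset.sum_congr rfl fun m _ => ?_
    rw [Finset.mul_sum]
  have hCS : (∑ m, h m * ∑ b ∈ C, φ b m) ^ 2 ≤ (∑ m, h m ^ 2) * ∑ m, (∑ b ∈ C, φ b m) ^ 2 :=
    Finset.sum_mul_sq_le_sq_mul_sq Finset.univ h (fun m => ∑ b ∈ C, φ b m)
  have hh : ∑ m, h m ^ 2 ≤ (q : ℝ) := by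
    calc ∑ m, h m ^ 2 ≤ ∑ _m : Fin q, (1 : ℝ) := by
          refine Finset.sum_le_sum fun m _ => ?_
          have := h0 m; have := h1 m
          nlinarith
      _ = q := by simp
  have h2 : ∑ m, (∑ b ∈ C, φ b m) ^ 2 = ∑ b ∈ C, ∑ b' ∈ C, ∑ m, φ b m * φ b' m := by
    calc ∑ m, (∑ b ∈ C, φ b m) ^ 2 = ∑ m, ∑ b ∈ C, ∑ b' ∈ C, φ b m * φ b' m := by
          refine Finset.sum_congr rfl fun m _ => ?_
          rw [sq, Finset.sum_mul_sum]
      _ = ∑ b ∈ C, ∑ m, ∑ b' ∈ C, φ b m * φ b' m := Finset.sum_comm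
      _ = ∑ b ∈ C, ∑ b' ∈ C, ∑ m, φ b m * φ b' m := by
          refine Finset.sum_congr rfl fun b _ => Finset.sum_comm
  have h3 : ∑ b ∈ C, ∑ b' ∈ C, ∑ m, φ b m * φ b' m ≤
      ∑ b ∈ C, ∑ b' ∈ C, (if b = b' then 4 * (q : ℝ) else δ * q) := by
    refine Finset.sum_le_sum fun b hb => Finset.sum_le_sum fun b' hb' => ?_
    split_ifs with hbb
    · subst hbb
      calc ∑ m, φ b m * φ b m ≤ ∑ _m : Fin q, (4 : ℝ) := by
            refine Finset.sum_le_sum fun m _ => ?_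
            have := hφ b hb m
            rw [← sq, ← sq_abs]
            have h0' := abs_nonneg (φ b m)
            nlinarith
        _ = 4 * q := by simp; ring
    · exact (le_abs_self _).trans (horth b hb b' hb' hbb)
  have h4 : ∑ b ∈ C, ∑ b' ∈ C, (if b = b' then 4 * (q : ℝ) else δ * q) =
      n * (4 * q) + (n ^ 2 - n) * (δ * q) := by
    have : ∀ b ∈ C, ∑ b' ∈ C, (if b = b' then 4 * (q : ℝ) else δ * q) =
        4 * q + (n - 1) * (δ * q) := by
      intro b hb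
      have h5 : ∀ b' : κ, (if b = b' then 4 * (q : ℝ) else δ * q) =
          δ * q + (if b = b' then (4 * (q : ℝ) - δ * q) else 0) := by
        intro b'; split_ifs <;> ring
      simp only [h5, Finset.sum_add_distrib, Finset.sum_ite_eq, hb, if_true,
        Finset.sum_const, nsmul_eq_mul]
      rw [← hn]; ring
    rw [Finset.sum_congr rfl this]
    simp only [Finset.sum_const, nsmul_eq_mul]
    rw [← hn]; ring
  have h11 : ∑ m, (∑ b ∈ C, φ b m) ^ 2 ≤ (4 / n + δ) * (n ^ 2 * q) := by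
    rw [h2]
    refine (h3.trans h4.le).trans ?_
    have : (4 / n + δ) * (n ^ 2 * q) = n * (4 * q) + n ^ 2 * (δ * q) := by
      field_simp
    rw [this]
    have : 0 ≤ n * (δ * q) := by positivity
    nlinarith
  have h12 : 0 ≤ ∑ m, (∑ b ∈ C, φ b m) ^ 2 := Finset.sum_nonneg fun _ _ => sq_nonneg _
  have h13 : (∑ m, h m * ∑ b ∈ C, φ b m) ^ 2 ≤ q * ((4 / n + δ) * (n ^ 2 * q)) :=
    calc (∑ m, h m * ∑ b ∈ C, φ b m) ^ 2 ≤ (∑ m, h m ^ 2) * ∑ m, (∑ b ∈ C, φ b m) ^ 2 := hCS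
      _ ≤ q * ∑ m, (∑ b ∈ C, φ b m) ^ 2 := mul_le_mul_of_nonneg_right hh h12
      _ ≤ q * ((4 / n + δ) * (n ^ 2 * q)) := mul_le_mul_of_nonneg_left h11 hq0
  have h14 : (n * ((q : ℝ) * Real.sqrt (4 / n + δ))) ^ 2 = q * ((4 / n + δ) * (n ^ 2 * q)) := by
    rw [mul_pow, mul_pow, Real.sq_sqrt (by positivity)]
    ring
  rw [hswap] at hsum
  have h15 : 0 ≤ n * ((q : ℝ) * Real.sqrt (4 / n + δ)) := by positivity
  have h16 : (n * ((q : ℝ) * Real.sqrt (4 / n + δ))) ^ 2 < (∑ m, h m * ∑ b ∈ C, φ b m) ^ 2 :=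
    pow_lt_pow_left₀ hsum h15 (by norm_num)
  linarith

/-- Abel summation bound: if all interval sums of `f` are at most `S` in absolute value then
`|∑ f(m) g(m)| ≤ S (sup|g| + total variation of g)`. -/
theorem abel_bound (q : ℕ) (f g : ℕ → ℝ) (S G : ℝ) (hS : 0 ≤ S) (hG : 0 ≤ G)
    (hf : ∀ n ≤ q, |∑ m ∈ Finset.range n, f m| ≤ S) (hg : ∀ m < q, |g m| ≤ G) :
    |∑ m ∈ Finset.range q, f m * g m| ≤
      S * (G + ∑ m ∈ Finset.range (q - 1), |g (m + 1) - g m|) := by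
  rcases Nat.eq_zero_or_pos q with hq | hq
  · subst hq
    simpa using mul_nonneg hS hG
  have key := Finset.sum_range_by_parts g f q
  have : ∑ m ∈ Finset.range q, f m * g m = ∑ m ∈ Finset.range q, g m • f m := by
    refine Finset.sum_congr rfl fun m _ => ?_
    rw [smul_eq_mul, mul_comm]
  rw [this, key]
  calc |g (q - 1) • ∑ i ∈ Finset.range q, f i -
        ∑ i ∈ Finset.range (q - 1), (g (i + 1) - g i) • ∑ i ∈ Finset.range (i + 1), f i|
      ≤ |g (q - 1) • ∑ i ∈ Finset.range q, f i| +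
        |∑ i ∈ Finset.range (q - 1), (g (i + 1) - g i) • ∑ i ∈ Finset.range (i + 1), f i| :=
        abs_sub _ _
    _ ≤ G * S + ∑ i ∈ Finset.range (q - 1), |g (i + 1) - g i| * S := by
        refine add_le_add ?_ ?_
        · rw [smul_eq_mul, abs_mul]
          exact mul_le_mul (hg _ (by omega)) (hf q le_rfl) (abs_nonneg _)
            ((abs_nonneg _).trans (hg (q - 1) (by omega)))
        · refine (Finset.abs_sum_le_sum_abs _ _).trans (Finset.sum_le_sum fun i hi => ?_)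
          rw [smul_eq_mul, abs_mul]
          have hi' := Finset.mem_range.1 hi
          exact mul_le_mul_of_nonneg_left (hf (i + 1) (by omega)) (abs_nonneg _)
    _ = S * (G + ∑ m ∈ Finset.range (q - 1), |g (m + 1) - g m|) := by
        rw [← Finset.sum_mul]; ring

end Crest.Agent.R113
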