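import Crest.Agent.R113.Basic

/-! # T01: two-valued scaling (CS decomposition) and monotone scaling

Proof (CS): let `v_k` be an orthonormal eigenbasis of the compression of `1_A` to `X`
(eigenvalues `l_k`). The vectors `1_A v_k` are mutually orthogonal, so are the `1_{Aᶜ} v_k`, hence
`v'_k = (e^{-s} 1_A v_k + 1_{Aᶜ} v_k)/norm` is an orthonormal basis of the scaled space and
`l'_k = e^{-2s} l_k/(e^{-2s} l_k + 1 - l_k) ≤ l_k`. On `A`: `‖v'_k(i)‖² = (l'_k/l_k)‖v_k(i)‖²`, off `A`:
`‖v'_k(i)‖² = ((1-l'_k)/(1-l_k))‖v_k(i)‖²`. `‖P'-P‖² = ∑ 2(1-|⟨v_k,v'_k⟩|²)` and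
`1-|⟨v_k,v'_k⟩|² = sin²(φ'-φ) ≤ sin(φ'-φ) sin(φ'+φ) = l_k - l'_k`.
`l - l' = (1-e^{-2s}) l(1-l)/(1-(1-e^{-2s})l) ≥ (1-e^{-2s}) l(1-l)`, `cut X A = ∑ l_k(1-l_k)`. -/

set_option autoImplicit false
set_option linter.unusedSectionVars false

namespace Crest.Agent.R113

open scoped BigOperators

variable {ι : Type*} [Fintype ι] [DecidableEq ι]

theorem inner_mulD_left (d : ι → ℝ) (v w : EuclideanSpace ℂ ι) :
    inner ℂ (mulD d v) w = inner ℂ v (mulD d w) := by
  rw [PiLp.inner_apply, PiLp.inner_apply]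
  refine Finset.sum_congr rfl fun i _ => ?_
  simp only [mulD_apply, RCLike.inner_apply, map_mul, Complex.conj_ofReal]
  ring

theorem mulD_mulD (d e : ι → ℝ) (v : EuclideanSpace ℂ ι) :
    mulD d (mulD e v) = mulD (fun i => d i * e i) v := by
  ext i
  simp only [mulD_apply, Complex.ofReal_mul]
  ring

theorem norm_mulD_sq (d : ι → ℝ) (v : EuclideanSpace ℂ ι) :
    ‖mulD d v‖ ^ 2 = ∑ i, d i ^ 2 * ‖v i‖ ^ 2 := by
  rw [EuclideanSpace.norm_sq_eq]
  refine Finset.sum_congr rfl fun i _ => ?_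
  rw [mulD_apply, norm_mul, mul_pow, Complex.norm_real, Real.norm_eq_abs, sq_abs]

/-- indicator function -/
def indF (A : Finset ι) (i : ι) : ℝ := if i ∈ A then 1 else 0

theorem indF_eqna (A : Finset ι) (i : ι) : indF A i = if i ∈ A then 1 else 0 := by
  rw [indF.eq_1]

/-- eigenbasis of the compression of `1_A` to `X` -/
theorem exists_eigbasis (X : Submodule ℂ (EuclideanSpace ℂ ι)) (A : Finset ι) :
    ∃ b : OrthonormalBasis (Fin (Module.finrank ℂ X)) ℂ X, ∀ j k, j ≠ k →
      inner ℂ (b j : EuclideanSpace ℂ ι) (mulD (indF A) (b k : EuclideanSpace ℂ ι)) = 0 := by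
  let T : X →ₗ[ℂ] X :=
    (X.orthogonalProjectionOnto : EuclideanSpace ℂ ι →L[ℂ] X).toLinearMap ∘ₗ
      mulD (indF A) ∘ₗ X.subtype
  have hTr : ∀ x y : X, inner ℂ x (T y) =
      inner ℂ (x : EuclideanSpace ℂ ι) (mulD (indF A) (y : EuclideanSpace ℂ ι)) := by
    intro x y
    exact Submodule.inner_orthogonalProjectionOnto_eq_of_mem_left x _
  have hT : LinearMap.IsSymmetric (𝕜 := ℂ) (E := ↥X) T := by
    intro x y
    rw [hTr x y, ← inner_mulD_left]
    exact Submodule.inner_orthogonalProjectionOnto_eq_of_mem_right y _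
  refine ⟨hT.eigenvectorBasis rfl, fun j k hjk => ?_⟩
  rw [← hTr, hT.apply_eigenvectorBasis rfl k, inner_smul_right]
  have := (hT.eigenvectorBasis rfl).orthonormal.2 hjk
  rw [this, mul_zero]

/-- mass on `A` -/
noncomputable def lam (A : Finset ι) (v : EuclideanSpace ℂ ι) : ℝ := ∑ i ∈ A, ‖v i‖ ^ 2

theorem lam_eqna (A : Finset ι) (v : EuclideanSpace ℂ ι) : lam A v = ∑ i ∈ A, ‖v i‖ ^ 2 := by
  rw [lam.eq_1]

theorem lam_nonneg (A : Finset ι) (v : EuclideanSpace ℂ ι) : 0 ≤ lam A v :=
  Finset.sum_nonneg fun _ _ => sq_nonneg _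

theorem lam_add_compl (A : Finset ι) (v : EuclideanSpace ℂ ι) :
    lam A v + lam Aᶜ v = ‖v‖ ^ 2 := by
  rw [EuclideanSpace.norm_sq_eq, lam, lam, Finset.sum_add_sum_compl]

theorem lam_le (A : Finset ι) (v : EuclideanSpace ℂ ι) : lam A v ≤ ‖v‖ ^ 2 := by
  have := lam_add_compl A v
  have := lam_nonneg Aᶜ v
  linarith

/-- squared norm of the scaled unit vector -/
noncomputable def nrmS (A : Finset ι) (s : ℝ) (v : EuclideanSpace ℂ ι) : ℝ :=
  Real.exp (-2 * s) * lam A v + (1 - lam A v)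

theorem exp_sq (s : ℝ) : Real.exp (-s) ^ 2 = Real.exp (-2 * s) := by
  rw [← Real.exp_nat_mul]
  congr 1
  push_cast
  ring

theorem sum_indicator_split (A : Finset ι) (a b : ℝ) (f : ι → ℝ) :
    ∑ i, (if i ∈ A then a else b) * f i = a * ∑ i ∈ A, f i + b * ∑ i ∈ Aᶜ, f i := by
  rw [← Finset.sum_add_sum_compl A, Finset.mul_sum, Finset.mul_sum]
  congr 1
  · exact Finset.sum_congr rfl fun i hi => by rw [if_pos hi]
  · exact Finset.sum_congr rfl fun i hi => by rw [if_neg (Finset.mem_compl.mp hi)]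

theorem norm_scal_sq (A : Finset ι) (s : ℝ) (v : EuclideanSpace ℂ ι) (hv : ‖v‖ = 1) :
    ‖scal A s v‖ ^ 2 = nrmS A s v := by
  rw [scal_eqna, norm_mulD_sq]
  have e : ∀ i, (if i ∈ A then Real.exp (-s) else 1) ^ 2 * ‖v i‖ ^ 2 =
      (if i ∈ A then Real.exp (-2 * s) else 1) * ‖v i‖ ^ 2 := by
    intro i
    split_ifs
    · rw [exp_sq]
    · rw [one_pow]
  simp only [e]
  rw [sum_indicator_split]
  have h := lam_add_compl A v
  rw [hv, one_pow] at h
  have h2 : ∑ i ∈ Aᶜ, ‖v i‖ ^ 2 = 1 - lam A v := by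
    rw [← h, lam_eqna, lam_eqna]; ring
  rw [h2, nrmS, lam_eqna]
  ring

theorem nrmS_pos {A : Finset ι} {s : ℝ} (hs : 0 ≤ s) {v : EuclideanSpace ℂ ι} (hv : ‖v‖ = 1) :
    Real.exp (-2 * s) ≤ nrmS A s v ∧ nrmS A s v ≤ 1 ∧ 0 < nrmS A s v := by
  have h1 := lam_nonneg A v
  have h2 := lam_le A v
  rw [hv, one_pow] at h2
  have h3 : Real.exp (-2 * s) ≤ 1 := Real.exp_le_one_iff.mpr (by linarith)
  have h4 := Real.exp_pos (-2 * s)
  unfold nrmS
  refine ⟨by nlinarith, by nlinarith, by nlinarith⟩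

theorem inner_scal (A : Finset ι) (s : ℝ) (v w : EuclideanSpace ℂ ι) :
    inner ℂ (scal A s v) (scal A s w) = inner ℂ v w -
      ((1 - Real.exp (-2 * s) : ℝ) : ℂ) * inner ℂ v (mulD (indF A) w) := by
  rw [scal_eqna, inner_mulD_left, mulD_mulD]
  rw [PiLp.inner_apply, PiLp.inner_apply, PiLp.inner_apply, Finset.mul_sum,
    ← Finset.sum_sub_distrib]
  refine Finset.sum_congr rfl fun i _ => ?_
  simp only [mulD_apply, RCLike.inner_apply, indF]
  split_ifs
  · rw [← sq, exp_sq]
    push_cast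
    ring
  · push_cast
    ring

/-- the pair of bases of `X` and of the scaled space -/
theorem exists_pair (X : Submodule ℂ (EuclideanSpace ℂ ι)) (A : Finset ι) {s : ℝ} (hs : 0 ≤ s) :
    ∃ (b : OrthonormalBasis (Fin (Module.finrank ℂ X)) ℂ X)
      (b' : OrthonormalBasis (Fin (Module.finrank ℂ X)) ℂ (X.map (scal A s))),
      (∀ j k, j ≠ k →
        inner ℂ (b j : EuclideanSpace ℂ ι) (mulD (indF A) (b k : EuclideanSpace ℂ ι)) = 0) ∧
      ∀ k, (b' k : EuclideanSpace ℂ ι) =
        (((Real.sqrt (nrmS A s (b k : EuclideanSpace ℂ ι)))⁻¹ : ℝ) : ℂ) •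
          scal A s (b k : EuclideanSpace ℂ ι) := by
  obtain ⟨b, hb⟩ := exists_eigbasis X A
  have hnb : ∀ k, ‖(b k : EuclideanSpace ℂ ι)‖ = 1 := fun k => by
    rw [Submodule.norm_coe]; exact b.orthonormal.1 k
  have hin : ∀ j k, j ≠ k →
      inner ℂ (b j : EuclideanSpace ℂ ι) (b k : EuclideanSpace ℂ ι) = 0 := fun j k hjk => by
    rw [← Submodule.coe_inner]; exact b.orthonormal.2 hjk
  set N : Fin (Module.finrank ℂ X) → ℝ := fun k => nrmS A s (b k : EuclideanSpace ℂ ι) with hN
  have hNp : ∀ k, 0 < N k := fun k => (nrmS_pos hs (hnb k)).2.2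
  let v : Fin (Module.finrank ℂ X) → X.map (scal A s) := fun k =>
    ⟨(((Real.sqrt (N k))⁻¹ : ℝ) : ℂ) • scal A s (b k : EuclideanSpace ℂ ι),
      Submodule.smul_mem _ _ (Submodule.mem_map_of_mem (b k).2)⟩
  have hv : Orthonormal ℂ v := by
    rw [orthonormal_iff_ite]
    intro j k
    rw [Submodule.coe_inner]
    simp only [v]
    rw [inner_smul_left, inner_smul_right]
    split_ifs with h
    · subst h
      rw [inner_self_eq_norm_sq_to_K, Complex.conj_ofReal]
      have e := norm_scal_sq A s (b j : EuclideanSpace ℂ ι) (hnb j)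
      have e2 : ((‖scal A s (b j : EuclideanSpace ℂ ι)‖ : ℝ) : ℂ) ^ 2 = ((N j : ℝ) : ℂ) := by
        rw [← Complex.ofReal_pow, e]
      have e3 : ((‖scal A s (b j : EuclideanSpace ℂ ι)‖ : ℝ) : ℂ) ^ 2 =
        (RCLike.ofReal ‖scal A s (b j : EuclideanSpace ℂ ι)‖ : ℂ) ^ 2 := rfl
      rw [← e3, e2, ← Complex.ofReal_mul, ← Complex.ofReal_mul, ← Complex.ofReal_one]
      congr 1
      have h1 : Real.sqrt (N j) * Real.sqrt (N j) = N j := Real.mul_self_sqrt (hNp j).le
      have h2 : Real.sqrt (N j) ≠ 0 := (Real.sqrt_pos.mpr (hNp j)).ne'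
      field_simp
      rw [sq, h1]
    · rw [inner_scal, hin j k h, hb j k h]
      simp
  have hsp : ⊤ ≤ Submodule.span ℂ (Set.range v) := by
    rintro ⟨y, hy⟩ -
    obtain ⟨x, hx, rfl⟩ := Submodule.mem_map.mp hy
    have hsum : (⟨x, hx⟩ : X) = ∑ k, b.repr ⟨x, hx⟩ k • b k := (b.sum_repr _).symm
    have hx' : scal A s x = ∑ k, (b.repr ⟨x, hx⟩ k * ((Real.sqrt (N k) : ℝ) : ℂ)) •
        (v k : EuclideanSpace ℂ ι) := by
      have h1 : x = ∑ k, b.repr ⟨x, hx⟩ k • (b k : EuclideanSpace ℂ ι) := by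
        have := congrArg (Subtype.val) hsum
        simpa using this
      conv_lhs => rw [h1]
      rw [map_sum]
      refine Finset.sum_congr rfl fun k _ => ?_
      rw [map_smul]
      simp only [v]
      rw [smul_smul, mul_assoc, ← Complex.ofReal_mul,
        mul_inv_cancel₀ (Real.sqrt_pos.mpr (hNp k)).ne', Complex.ofReal_one, mul_one]
    have h2 : (⟨scal A s x, hy⟩ : X.map (scal A s)) =
        ∑ k, (b.repr ⟨x, hx⟩ k * ((Real.sqrt (N k) : ℝ) : ℂ)) • v k := by
      apply Subtype.ext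
      rw [Submodule.coe_sum]
      simpa using hx'
    rw [h2]
    exact Submodule.sum_mem _ fun k _ => Submodule.smul_mem _ _
      (Submodule.subset_span (Set.mem_range_self k))
  refine ⟨b, OrthonormalBasis.mk hv hsp, hb, fun k => ?_⟩
  rw [OrthonormalBasis.coe_mk]

/-- diagonal entries in a basis -/
theorem dg_eq_sum (X : Submodule ℂ (EuclideanSpace ℂ ι)) {κ : Type*} [Fintype κ]
    (b : OrthonormalBasis κ ℂ X) (i : ι) : dg X i = ∑ k, ‖(b k : EuclideanSpace ℂ ι) i‖ ^ 2 := by
  have h := sum_dg_mul_eq X b (fun j => if j = i then 1 else 0)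
  simpa using h

theorem trOn_eq_sum (X : Submodule ℂ (EuclideanSpace ℂ ι)) {κ : Type*} [Fintype κ]
    (b : OrthonormalBasis κ ℂ X) (A : Finset ι) :
    trOn X A = ∑ k, lam A (b k : EuclideanSpace ℂ ι) := by
  rw [trOn_eqna]
  simp only [dg_eq_sum X b, lam_eqna]
  rw [Finset.sum_comm]

theorem norm_b'_sq {A : Finset ι} {s : ℝ} {v v' : EuclideanSpace ℂ ι} (hs : 0 ≤ s) (hv : ‖v‖ = 1)
    (h : v' = (((Real.sqrt (nrmS A s v))⁻¹ : ℝ) : ℂ) • scal A s v) (i : ι) :
    ‖v' i‖ ^ 2 = (if i ∈ A then Real.exp (-2 * s) else 1) / nrmS A s v * ‖v i‖ ^ 2 := by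
  have hp := (nrmS_pos (A := A) hs hv).2.2
  rw [h, scal_eqna, PiLp.smul_apply, smul_eq_mul, mulD_apply, norm_mul, norm_mul, mul_pow, mul_pow,
    Complex.norm_real, Complex.norm_real, Real.norm_eq_abs, Real.norm_eq_abs, sq_abs, sq_abs,
    inv_pow, Real.sq_sqrt hp.le]
  split_ifs
  · rw [exp_sq]; ring
  · ring

theorem cs_on (X : Submodule ℂ (EuclideanSpace ℂ ι)) (A : Finset ι) {s : ℝ} (hs : 0 ≤ s)
    {i : ι} (hi : i ∈ A) : dg (X.map (scal A s)) i ≤ dg X i := by
  obtain ⟨b, b', hb, hb'⟩ := exists_pair X A hs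
  rw [dg_eq_sum _ b', dg_eq_sum _ b]
  refine Finset.sum_le_sum fun k _ => ?_
  have hnb : ‖(b k : EuclideanSpace ℂ ι)‖ = 1 := by
    rw [Submodule.norm_coe]; exact b.orthonormal.1 k
  rw [norm_b'_sq hs hnb (hb' k), if_pos hi]
  obtain ⟨h1, h2, h3⟩ := nrmS_pos (A := A) hs hnb
  have : Real.exp (-2 * s) / nrmS A s (b k : EuclideanSpace ℂ ι) ≤ 1 := by
    rw [div_le_one h3]; exact h1
  exact mul_le_of_le_one_left (sq_nonneg _) this

theorem cs_off (X : Submodule ℂ (EuclideanSpace ℂ ι)) (A : Finset ι) {s : ℝ} (hs : 0 ≤ s)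
    {i : ι} (hi : i ∉ A) : dg X i ≤ dg (X.map (scal A s)) i := by
  obtain ⟨b, b', hb, hb'⟩ := exists_pair X A hs
  rw [dg_eq_sum _ b', dg_eq_sum _ b]
  refine Finset.sum_le_sum fun k _ => ?_
  have hnb : ‖(b k : EuclideanSpace ℂ ι)‖ = 1 := by
    rw [Submodule.norm_coe]; exact b.orthonormal.1 k
  rw [norm_b'_sq hs hnb (hb' k), if_neg hi]
  obtain ⟨h1, h2, h3⟩ := nrmS_pos (A := A) hs hnb
  have : 1 ≤ 1 / nrmS A s (b k : EuclideanSpace ℂ ι) := by
    rw [le_div_iff₀ h3]; linarith
  exact le_mul_of_one_le_left (sq_nonneg _) this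

theorem lam_b' {A : Finset ι} {s : ℝ} {v v' : EuclideanSpace ℂ ι} (hs : 0 ≤ s) (hv : ‖v‖ = 1)
    (h : v' = (((Real.sqrt (nrmS A s v))⁻¹ : ℝ) : ℂ) • scal A s v) :
    lam A v' = Real.exp (-2 * s) * lam A v / nrmS A s v := by
  rw [lam_eqna, lam_eqna, Finset.mul_sum, Finset.sum_div]
  refine Finset.sum_congr rfl fun i hi => ?_
  rw [norm_b'_sq hs hv h, if_pos hi]
  ring

/-- `l - l' = l (1-l) (1-x²)/N` -/
theorem moved_eq {A : Finset ι} {s : ℝ} {v v' : EuclideanSpace ℂ ι} (hs : 0 ≤ s) (hv : ‖v‖ = 1)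
    (h : v' = (((Real.sqrt (nrmS A s v))⁻¹ : ℝ) : ℂ) • scal A s v) :
    lam A v - lam A v' =
      lam A v * (1 - lam A v) * (1 - Real.exp (-2 * s)) / nrmS A s v := by
  rw [lam_b' hs hv h]
  have hp := (nrmS_pos (A := A) hs hv).2.2
  rw [eq_div_iff hp.ne', sub_mul, div_mul_cancel₀ _ hp.ne']
  unfold nrmS
  ring

theorem inner_b_b' {A : Finset ι} {s : ℝ} {v v' : EuclideanSpace ℂ ι} (hv : ‖v‖ = 1)
    (h : v' = (((Real.sqrt (nrmS A s v))⁻¹ : ℝ) : ℂ) • scal A s v) :
    inner ℂ v v' = (((Real.sqrt (nrmS A s v))⁻¹ *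
      (Real.exp (-s) * lam A v + (1 - lam A v)) : ℝ) : ℂ) := by
  rw [h, inner_smul_right, Complex.ofReal_mul]
  congr 1
  rw [scal_eqna, PiLp.inner_apply]
  have e : ∀ i, inner ℂ (v i) ((mulD (fun i => if i ∈ A then Real.exp (-s) else 1) v) i) =
      (((if i ∈ A then Real.exp (-s) else 1) * ‖v i‖ ^ 2 : ℝ) : ℂ) := by
    intro i
    rw [mulD_apply, RCLike.inner_apply, mul_assoc, Complex.mul_conj, Complex.normSq_eq_norm_sq,
      Complex.ofReal_mul]
  simp only [e]
  rw [← Complex.ofReal_sum, sum_indicator_split]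
  congr 1
  have h := lam_add_compl A v
  rw [hv, one_pow] at h
  rw [← lam_eqna, ← lam_eqna]
  linarith

theorem cs_hsd (X : Submodule ℂ (EuclideanSpace ℂ ι)) (A : Finset ι) {s : ℝ} (hs : 0 ≤ s) :
    hsd (X.map (scal A s)) X ≤ 2 * (trOn X A - trOn (X.map (scal A s)) A) := by
  obtain ⟨b, b', hb, hb'⟩ := exists_pair X A hs
  have hnb : ∀ k, ‖(b k : EuclideanSpace ℂ ι)‖ = 1 := fun k => by
    rw [Submodule.norm_coe]; exact b.orthonormal.1 k
  have hfin : Module.finrank ℂ (X.map (scal A s)) = Module.finrank ℂ X := by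
    have := Module.finrank_eq_card_basis b'.toBasis
    simpa using this
  rw [hsd_eq _ _ b', trOn_eq_sum X b, trOn_eq_sum _ b', hfin, ← Finset.sum_sub_distrib]
  have key : ∀ k, 1 - ‖X.starProjection (b' k : EuclideanSpace ℂ ι)‖ ^ 2 ≤
      lam A (b k : EuclideanSpace ℂ ι) - lam A (b' k : EuclideanSpace ℂ ι) := by
    intro k
    have hle : ‖inner ℂ (b k : EuclideanSpace ℂ ι) (b' k : EuclideanSpace ℂ ι)‖ ≤
        ‖X.starProjection (b' k : EuclideanSpace ℂ ι)‖ := by
      have e : inner ℂ (b k : EuclideanSpace ℂ ι) (b' k : EuclideanSpace ℂ ι) =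
          inner ℂ (b k : EuclideanSpace ℂ ι) (X.starProjection (b' k : EuclideanSpace ℂ ι)) := by
        rw [← Submodule.inner_starProjection_left_eq_right,
          Submodule.starProjection_eq_self_iff.mpr (b k).2]
      rw [e]
      refine (norm_inner_le_norm _ _).trans ?_
      rw [hnb k, one_mul]
    have hsq : ‖inner ℂ (b k : EuclideanSpace ℂ ι) (b' k : EuclideanSpace ℂ ι)‖ ^ 2 ≤
        ‖X.starProjection (b' k : EuclideanSpace ℂ ι)‖ ^ 2 :=
      pow_le_pow_left₀ (norm_nonneg _) hle 2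
    rw [inner_b_b' (hnb k) (hb' k), Complex.norm_real, Real.norm_eq_abs, sq_abs, mul_pow,
      inv_pow] at hsq
    obtain ⟨h1, h2, h3⟩ := nrmS_pos (A := A) hs (hnb k)
    rw [Real.sq_sqrt h3.le] at hsq
    rw [moved_eq hs (hnb k) (hb' k)]
    set l := lam A (b k : EuclideanSpace ℂ ι) with hl
    set x := Real.exp (-s) with hx
    have hx0 : 0 < x := Real.exp_pos _
    have hx1 : x ≤ 1 := Real.exp_le_one_iff.mpr (by linarith)
    have hxx : Real.exp (-2 * s) = x ^ 2 := (exp_sq s).symm
    have hl0 : 0 ≤ l := lam_nonneg _ _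
    have hl1 : l ≤ 1 := by
      have := lam_le A (b k : EuclideanSpace ℂ ι)
      rw [hnb k, one_pow] at this
      exact this
    have hN : nrmS A s (b k : EuclideanSpace ℂ ι) = x ^ 2 * l + (1 - l) := by
      unfold nrmS; rw [hxx]
    rw [hxx]
    set N := nrmS A s (b k : EuclideanSpace ℂ ι) with hNdef
    have h4 : 1 - N⁻¹ * (x * l + (1 - l)) ^ 2 ≤ l * (1 - l) * (1 - x ^ 2) / N := by
      rw [le_div_iff₀ h3, sub_mul, mul_right_comm, inv_mul_cancel₀ h3.ne', one_mul, one_mul, hN]
      have : 0 ≤ l * (1 - l) := mul_nonneg hl0 (by linarith)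
      nlinarith [mul_nonneg this (mul_nonneg hx0.le (show (0 : ℝ) ≤ 1 - x by linarith))]
    linarith
  have hsum := Finset.sum_le_sum fun k (_ : k ∈ Finset.univ) => key k
  rw [Finset.sum_sub_distrib, Finset.sum_const, Finset.card_univ, Fintype.card_fin,
    nsmul_eq_mul, mul_one] at hsum
  linarith

theorem cs_cut (X : Submodule ℂ (EuclideanSpace ℂ ι)) (A : Finset ι) {s : ℝ} (hs : 0 ≤ s) :
    (1 - Real.exp (-2 * s)) * cut X A ≤ trOn X A - trOn (X.map (scal A s)) A := by
  obtain ⟨b, b', hb, hb'⟩ := exists_pair X A hs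
  have hnb : ∀ k, ‖(b k : EuclideanSpace ℂ ι)‖ = 1 := fun k => by
    rw [Submodule.norm_coe]; exact b.orthonormal.1 k
  rw [cut_eq_sum_basis X b A, trOn_eq_sum X b, trOn_eq_sum _ b', ← Finset.sum_sub_distrib,
    Finset.mul_sum]
  refine Finset.sum_le_sum fun k _ => ?_
  rw [moved_eq hs (hnb k) (hb' k)]
  set v := (b k : EuclideanSpace ℂ ι) with hv
  have hr : restr (A : Set ι) v = mulD (indF A) v := by
    ext i
    rw [restr_apply, mulD_apply, indF_eqna]
    by_cases hi : i ∈ A <;> simp [hi]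
  rw [hr]
  obtain ⟨h1, h2, h3⟩ := nrmS_pos (A := A) hs (hnb k)
  have hl0 : 0 ≤ lam A v := lam_nonneg _ _
  have hl1 : lam A v ≤ 1 := by
    have := lam_le A v
    rw [hnb k, one_pow] at this
    exact this
  have hex : 0 ≤ 1 - Real.exp (-2 * s) := by
    have : Real.exp (-2 * s) ≤ 1 := Real.exp_le_one_iff.mpr (by linarith)
    linarith
  -- `‖y - P y‖² = ‖y‖² - ‖P y‖² ≤ l - l²`
  have hy : ‖mulD (indF A) v‖ ^ 2 = lam A v := by
    rw [norm_mulD_sq, lam_eqna]
    have : ∀ i, indF A i ^ 2 * ‖v i‖ ^ 2 = if i ∈ A then ‖v i‖ ^ 2 else 0 := by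
      intro i; rw [indF_eqna]; split_ifs <;> simp
    simp only [this]
    rw [← Finset.sum_filter]
    congr 1
    ext i; simp
  have hinner : inner ℂ v (mulD (indF A) v) = ((lam A v : ℝ) : ℂ) := by
    rw [PiLp.inner_apply, lam_eqna, Complex.ofReal_sum]
    have : ∀ i, inner ℂ (v i) (mulD (indF A) v i) =
        if i ∈ A then ((‖v i‖ ^ 2 : ℝ) : ℂ) else 0 := by
      intro i
      rw [mulD_apply, indF_eqna, RCLike.inner_apply]
      split_ifs
      · rw [Complex.ofReal_one, one_mul, Complex.mul_conj, Complex.normSq_eq_norm_sq]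
      · simp
    simp only [this]
    rw [← Finset.sum_filter]
    congr 1
    ext i; simp
  have hPy : lam A v ≤ ‖X.starProjection (mulD (indF A) v)‖ := by
    have e : inner ℂ v (mulD (indF A) v) =
        inner ℂ v (X.starProjection (mulD (indF A) v)) := by
      rw [← Submodule.inner_starProjection_left_eq_right,
        Submodule.starProjection_eq_self_iff.mpr (b k).2]
    have h5 := norm_inner_le_norm (𝕜 := ℂ) v (X.starProjection (mulD (indF A) v))
    rw [← e, hinner, Complex.norm_real, Real.norm_eq_abs, abs_of_nonneg hl0, hnb k, one_mul] at h5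
    exact h5
  have hpyth := Submodule.norm_sq_eq_add_norm_sq_starProjection (𝕜 := ℂ) (mulD (indF A) v) X
  have horth : ‖mulD (indF A) v - X.starProjection (mulD (indF A) v)‖ =
      ‖Xᗮ.starProjection (mulD (indF A) v)‖ := by
    rw [Submodule.starProjection_orthogonal_val]
  rw [hy] at hpyth
  have h6 : ‖mulD (indF A) v - X.starProjection (mulD (indF A) v)‖ ^ 2 ≤
      lam A v * (1 - lam A v) := by
    rw [horth]
    nlinarith [pow_le_pow_left₀ hl0 hPy 2]
  have h7 := mul_le_mul_of_nonneg_left h6 hex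
  refine h7.trans ?_
  rw [le_div_iff₀ h3]
  have h8 : 0 ≤ (1 - Real.exp (-2 * s)) * (lam A v * (1 - lam A v)) :=
    mul_nonneg hex (mul_nonneg hl0 (by linarith))
  nlinarith


theorem finrank_map_scal (X : Submodule ℂ (EuclideanSpace ℂ ι)) (A : Finset ι) (s : ℝ) :
    Module.finrank ℂ (X.map (scal A s)) = Module.finrank ℂ X := by
  rw [scal_eqna]
  refine finrank_map_mulD X _ fun i => ?_
  split_ifs
  · exact Real.exp_pos _
  · exact one_pos

theorem trOn_add_compl (X : Submodule ℂ (EuclideanSpace ℂ ι)) (A : Finset ι) :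
    trOn X A + trOn X Aᶜ = Module.finrank ℂ X := by
  rw [trOn_eqna, trOn_eqna, Finset.sum_add_sum_compl, sum_dg]

/-- The trace of any set `B` changes by at most the trace moved out of `A`. -/
theorem cs_abs (X : Submodule ℂ (EuclideanSpace ℂ ι)) (A B : Finset ι) {s : ℝ} (hs : 0 ≤ s) :
    |trOn (X.map (scal A s)) B - trOn X B| ≤ trOn X A - trOn (X.map (scal A s)) A := by
  have h1 := trOn_add_compl X A
  have h2 := trOn_add_compl (X.map (scal A s)) A
  rw [finrank_map_scal] at h2
  set g : ι → ℝ := fun i => dg (X.map (scal A s)) i - dg X i with hg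
  have hon : ∀ i ∈ A, g i ≤ 0 := fun i hi => sub_nonpos.mpr (cs_on X A hs hi)
  have hoff : ∀ i ∉ A, 0 ≤ g i := fun i hi => sub_nonneg.mpr (cs_off X A hs hi)
  have e : ∀ S : Finset ι, trOn (X.map (scal A s)) S - trOn X S = ∑ i ∈ S, g i := by
    intro S
    rw [trOn_eqna, trOn_eqna, hg, Finset.sum_sub_distrib]
  have eA := e A
  have eAc := e Aᶜ
  have eB := e B
  have hsplit : ∑ i ∈ B, g i = ∑ i ∈ B ∩ A, g i + ∑ i ∈ B \ A, g i :=
    (Finset.sum_inter_add_sum_sdiff B A g).symm
  have up : ∑ i ∈ B \ A, g i ≤ ∑ i ∈ Aᶜ, g i := by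
    refine Finset.sum_le_sum_of_subset_of_nonneg ?_ ?_
    · intro i hi
      rw [Finset.mem_compl]
      exact (Finset.mem_sdiff.mp hi).2
    · intro i hi _
      exact hoff i (Finset.mem_compl.mp hi)
  have up2 : ∑ i ∈ B ∩ A, g i ≤ 0 :=
    Finset.sum_nonpos fun i hi => hon i (Finset.mem_inter.mp hi).2
  have lo : ∑ i ∈ A, g i ≤ ∑ i ∈ B ∩ A, g i := by
    have h := Finset.sum_inter_add_sum_sdiff A B g
    have h3 : ∑ i ∈ A \ B, g i ≤ 0 :=
      Finset.sum_nonpos fun i hi => hon i (Finset.mem_sdiff.mp hi).1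
    rw [Finset.inter_comm B A]
    linarith
  have lo2 : 0 ≤ ∑ i ∈ B \ A, g i :=
    Finset.sum_nonneg fun i hi => hoff i (Finset.mem_sdiff.mp hi).2
  rw [eB, hsplit, abs_le]
  constructor <;> linarith

/-! ### Monotone scaling -/

theorem map_mulD_mulD (X : Submodule ℂ (EuclideanSpace ℂ ι)) (d e : ι → ℝ) :
    (X.map (mulD e)).map (mulD d) = X.map (mulD (fun i => d i * e i)) := by
  rw [← Submodule.map_comp]
  congr 1
  apply LinearMap.ext
  intro v
  exact mulD_mulD d e v

theorem map_mulD_smul (X : Submodule ℂ (EuclideanSpace ℂ ι)) (d : ι → ℝ) {r : ℝ} (hr : r ≠ 0) :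
    X.map (mulD (fun i => r * d i)) = X.map (mulD d) := by
  have : (mulD (fun i => r * d i) : EuclideanSpace ℂ ι →ₗ[ℂ] EuclideanSpace ℂ ι) =
      (r : ℂ) • mulD d := by
    apply LinearMap.ext
    intro v
    ext i
    rw [mulD_apply, LinearMap.smul_apply, PiLp.smul_apply, mulD_apply, smul_eq_mul]
    push_cast
    ring
  rw [this, Submodule.map_smul _ _ _ (by exact_mod_cast hr)]

theorem map_mulD_one (X : Submodule ℂ (EuclideanSpace ℂ ι)) (d : ι → ℝ) (h : ∀ i, d i = 1) :
    X.map (mulD d) = X := by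
  have : (mulD d : EuclideanSpace ℂ ι →ₗ[ℂ] EuclideanSpace ℂ ι) = LinearMap.id := by
    apply LinearMap.ext
    intro v
    ext i
    rw [mulD_apply, h i]
    simp
  rw [this, Submodule.map_id]

/-- one two-valued step for nested sets -/
theorem trOn_le_of_nested (X : Submodule ℂ (EuclideanSpace ℂ ι)) (A T : Finset ι) {s : ℝ}
    (hs : 0 ≤ s) (h : T ⊆ Aᶜ ∨ Tᶜ ⊆ A) : trOn X T ≤ trOn (X.map (scal A s)) T := by
  rcases h with h | h
  · rw [trOn_eqna, trOn_eqna]
    exact Finset.sum_le_sum fun i hi => cs_off X A hs (Finset.mem_compl.mp (h hi))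
  · have h1 := trOn_add_compl X T
    have h2 := trOn_add_compl (X.map (scal A s)) T
    rw [finrank_map_scal] at h2
    have h3 : trOn (X.map (scal A s)) Tᶜ ≤ trOn X Tᶜ := by
      rw [trOn_eqna, trOn_eqna]
      exact Finset.sum_le_sum fun i hi => cs_on X A hs (h hi)
    linarith

/-- Scaling by a positive non-decreasing function increases all tail traces (write the function,
up to a constant, as a product of `scal` of complements of tails, or of inverse `scal` of tails). -/
theorem mono_scale {q : ℕ} (X : Submodule ℂ (EuclideanSpace ℂ (Fin q))) (d : Fin q → ℝ)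
    (hd : ∀ i, 0 < d i) (hmono : Monotone d) (k : ℕ) :
    trOn X (tailF q k) ≤ trOn (X.map (mulD d)) (tailF q k) := by
  rcases Nat.eq_zero_or_pos q with hq | hq
  · subst hq
    rw [trOn_eqna, trOn_eqna]
    have : (tailF 0 k) = ∅ := Finset.eq_empty_of_isEmpty _
    rw [this]
    simp
  -- extension to `ℕ`
  set f : ℕ → ℝ := fun m => d ⟨min m (q - 1), by omega⟩ with hf
  have hfp : ∀ m, 0 < f m := fun m => hd _
  have hfm : ∀ a b, a ≤ b → f a ≤ f b := fun a b hab => hmono (by
    rw [Fin.mk_le_mk]; omega)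
  have hfd : ∀ i : Fin q, f i = d i := fun i => by
    have e : (⟨min (i : ℕ) (q - 1), by omega⟩ : Fin q) = i := by
      apply Fin.ext
      have := i.2
      simp only
      omega
    show d ⟨min (i : ℕ) (q - 1), _⟩ = d i
    rw [e]
  have key : ∀ j : ℕ, trOn X (tailF q k) ≤
      trOn (X.map (mulD (fun i : Fin q => f (min (i : ℕ) j)))) (tailF q k) := by
    intro j
    induction j with
    | zero =>
      have e1 : X.map (mulD (fun i : Fin q => f (min (i : ℕ) 0))) = X := by
        have e2 : (fun i : Fin q => f (min (i : ℕ) 0)) = fun _ : Fin q => f 0 * 1 := by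
          funext i; rw [Nat.min_zero, mul_one]
        rw [e2, map_mulD_smul X (fun _ => 1) (hfp 0).ne', map_mulD_one X _ fun _ => rfl]
      rw [e1]
    | succ j ih =>
      refine ih.trans ?_
      set A : Finset (Fin q) := Finset.univ.filter (fun i => (i : ℕ) ≤ j) with hA
      set s : ℝ := Real.log (f (j + 1) / f j) with hs
      have hratio : 1 ≤ f (j + 1) / f j := by
        rw [le_div_iff₀ (hfp j), one_mul]; exact hfm _ _ (Nat.le_succ j)
      have hs0 : 0 ≤ s := Real.log_nonneg hratio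
      have hes : Real.exp (-s) = f j / f (j + 1) := by
        rw [Real.exp_neg, hs, Real.exp_log (by linarith), inv_div]
      have e1 : X.map (mulD (fun i : Fin q => f (min (i : ℕ) (j + 1)))) =
          (X.map (mulD (fun i : Fin q => f (min (i : ℕ) j)))).map (scal A s) := by
        rw [scal_eqna, map_mulD_mulD]
        have e2 : (fun i : Fin q => f (min (i : ℕ) (j + 1))) = fun i : Fin q =>
            (f (j + 1) / f j) * ((if i ∈ A then Real.exp (-s) else 1) * f (min (i : ℕ) j)) := by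
          funext i
          have hj := (hfp j).ne'
          have hj' := (hfp (j + 1)).ne'
          by_cases hi : (i : ℕ) ≤ j
          · have hiA : i ∈ A := by rw [hA]; simp [hi]
            rw [if_pos hiA, hes, min_eq_left hi, min_eq_left (by omega)]
            field_simp
          · have hiA : i ∉ A := by
              rw [hA]
              simp only [Finset.mem_filter, Finset.mem_univ, true_and]
              exact hi
            rw [if_neg hiA, min_eq_right (by omega), min_eq_right (by omega)]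
            field_simp
        rw [e2, map_mulD_smul X _ (by linarith)]
      rw [e1]
      apply trOn_le_of_nested _ _ _ hs0
      rw [tailF_eqna, hA]
      rcases le_or_gt q (k + j) with h | h
      · right
        intro i hi
        simp only [Finset.mem_compl, Finset.mem_filter, Finset.mem_univ, true_and, not_le] at hi ⊢
        omega
      · left
        intro i hi
        simp only [Finset.mem_compl, Finset.mem_filter, Finset.mem_univ, true_and, not_le] at hi ⊢
        omega
  have h := key (q - 1)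
  have e : (fun i : Fin q => f (min (i : ℕ) (q - 1))) = d := by
    funext i
    have hi := i.2
    rw [min_eq_left (by omega), hfd]
  rwa [e] at h

/-- Scaling by a positive non-increasing function decreases all tail traces. -/
theorem anti_scale {q : ℕ} (X : Submodule ℂ (EuclideanSpace ℂ (Fin q))) (d : Fin q → ℝ)
    (hd : ∀ i, 0 < d i) (hanti : Antitone d) (k : ℕ) :
    trOn (X.map (mulD d)) (tailF q k) ≤ trOn X (tailF q k) := by
  have h := mono_scale (X.map (mulD d)) (fun i => (d i)⁻¹) (fun i => inv_pos.mpr (hd i))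
    (fun i j hij => inv_anti₀ (hd j) (hanti hij)) k
  rw [map_mulD_mulD, map_mulD_one X _ fun i => inv_mul_cancel₀ (hd i).ne'] at h
  exact h

/-- One step of `exp(-J)`, `J = diag(0,1,2,...)`: the drop of `tr(P J)` controls every cut mass
between a tail and its complement. -/
theorem drop_expJ {q : ℕ} (X : Submodule ℂ (EuclideanSpace ℂ (Fin q))) (k : ℕ) :
    (1 - Real.exp (-2)) * cut X (tailF q k) ≤
      ∑ i, dg X i * (i : ℕ)
        - ∑ i, dg (X.map (mulD (fun i : Fin q => Real.exp (-((i : ℕ) : ℝ))))) i * (i : ℕ) := by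
  set X' := X.map (mulD (fun i : Fin q => Real.exp (-((i : ℕ) : ℝ)))) with hX'
  have layer : ∀ Y : Submodule ℂ (EuclideanSpace ℂ (Fin q)),
      ∑ i : Fin q, dg Y i * ((i : ℕ) : ℝ) =
        ∑ m ∈ Finset.range q, trOn Y (tailF q (q - 1 - m)) := by
    intro Y
    have e1 : ∀ i : Fin q, dg Y i * ((i : ℕ) : ℝ) =
        ∑ m ∈ Finset.range q, if m < (i : ℕ) then dg Y i else 0 := by
      intro i
      rw [← Finset.sum_filter, Finset.sum_const, nsmul_eq_mul, mul_comm]
      congr 2
      have : (Finset.range q).filter (fun m => m < (i : ℕ)) = Finset.range (i : ℕ) := by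
        ext m
        have := i.2
        simp only [Finset.mem_filter, Finset.mem_range]
        omega
      rw [this, Finset.card_range]
    simp only [e1]
    rw [Finset.sum_comm]
    refine Finset.sum_congr rfl fun m hm => ?_
    rw [← Finset.sum_filter, trOn_eqna, tailF_eqna]
    refine Finset.sum_congr ?_ fun _ _ => rfl
    ext i
    have := i.2
    have := Finset.mem_range.mp hm
    simp only [Finset.mem_filter, Finset.mem_univ, true_and]
    omega
  have hexpanti : Antitone (fun i : Fin q => Real.exp (-((i : ℕ) : ℝ))) := by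
    intro i j hij
    apply Real.exp_le_exp.mpr
    have : ((i : ℕ) : ℝ) ≤ ((j : ℕ) : ℝ) := by exact_mod_cast hij
    linarith
  have hterm : ∀ m, trOn X' (tailF q m) ≤ trOn X (tailF q m) := fun m =>
    anti_scale X _ (fun i => Real.exp_pos _) hexpanti m
  rw [layer X, layer X', ← Finset.sum_sub_distrib]
  have hnn : ∀ m ∈ Finset.range q,
      0 ≤ trOn X (tailF q (q - 1 - m)) - trOn X' (tailF q (q - 1 - m)) := fun m _ =>
    sub_nonneg.mpr (hterm _)
  rcases Nat.lt_or_ge k q with hk | hk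
  · rcases Nat.eq_zero_or_pos k with hk0 | hk0
    · -- empty tail
      have : cut X (tailF q k) = 0 := by
        rw [cut_eqna]
        have : tailF q k = ∅ := by
          rw [tailF_eqna, hk0]
          ext i
          have := i.2
          simp only [Finset.mem_filter, Finset.mem_univ, true_and, Finset.notMem_empty, iff_false]
          omega
        rw [this]; simp
      rw [this, mul_zero]
      exact Finset.sum_nonneg hnn
    · -- the term `m = q - 1 - k`
      have hmem : q - 1 - k ∈ Finset.range q := Finset.mem_range.mpr (by omega)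
      have hle := Finset.single_le_sum hnn hmem
      have hk2 : q - 1 - (q - 1 - k) = k := by omega
      rw [hk2] at hle
      refine le_trans ?_ hle
      -- `X' = (scal tail 1 X)` scaled by an antitone function
      set Y := X.map (scal (tailF q k) 1) with hY
      set e : Fin q → ℝ := fun i =>
        Real.exp (-((i : ℕ) : ℝ)) * (if i ∈ tailF q k then Real.exp 1 else 1) with he
      have hX'Y : X' = Y.map (mulD e) := by
        rw [hY, scal_eqna, map_mulD_mulD, hX']
        congr 2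
        funext i
        simp only [he]
        split_ifs
        · rw [mul_assoc, ← Real.exp_add]; simp
        · simp
      have hepos : ∀ i, 0 < e i := fun i => by
        simp only [he]
        split_ifs
        · positivity
        · positivity
      have heanti : Antitone e := by
        intro i j hij
        have hij' : (i : ℕ) ≤ (j : ℕ) := hij
        simp only [he, tailF_eqna, Finset.mem_filter, Finset.mem_univ, true_and]
        split_ifs with h1 h2 h2
        · -- both in the tail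
          rw [← Real.exp_add, ← Real.exp_add]
          apply Real.exp_le_exp.mpr
          have : ((i : ℕ) : ℝ) ≤ ((j : ℕ) : ℝ) := by exact_mod_cast hij'
          linarith
        · -- `j` in the tail, `i` not: then `i + 1 ≤ j`
          rw [← Real.exp_add, mul_one]
          apply Real.exp_le_exp.mpr
          have h3 : (i : ℕ) + 1 ≤ (j : ℕ) := by omega
          have : ((i : ℕ) : ℝ) + 1 ≤ ((j : ℕ) : ℝ) := by exact_mod_cast h3
          linarith
        · -- `i` in the tail, `j` not: impossible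
          omega
        · rw [mul_one, mul_one]
          apply Real.exp_le_exp.mpr
          have : ((i : ℕ) : ℝ) ≤ ((j : ℕ) : ℝ) := by exact_mod_cast hij'
          linarith
      have h1 := anti_scale Y e hepos heanti k
      rw [← hX'Y] at h1
      have h2 := cs_cut X (tailF q k) (s := 1) zero_le_one
      have e2 : (-2 : ℝ) * 1 = -2 := by ring
      rw [e2] at h2
      linarith
  · -- full tail
    have : cut X (tailF q k) = 0 := by
      rw [cut_eqna]
      have : (tailF q k)ᶜ = ∅ := by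
        rw [tailF_eqna]
        ext i
        have := i.2
        simp only [Finset.mem_compl, Finset.mem_filter, Finset.mem_univ, true_and,
          Finset.notMem_empty, iff_false, not_not]
        omega
      rw [this]; simp
    rw [this, mul_zero]
    exact Finset.sum_nonneg hnn

end Crest.Agent.R113
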