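import Crest.Agent.R113.Num

/-!
Row 113, S0149, task T16: the output of the circle design theorem (blueprint 6834, section 3).
Base space `UnitAddCircle`, rotation `x ↦ x + θ`.
-/

set_option autoImplicit false

namespace Crest.Agent.R113

open MeasureTheory

/-- the letter `ε_b(a) ∈ {0,1}` of the word `w b` as a real number -/
def epsw (w : ℕ → ℕ → Bool) (b a : ℕ) : ℝ := if w b a then 1 else 0

/-- The output of the design theorem on the circle. Everything is indexed by the block number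
`b ≥ 1`; nothing is claimed for `b = 0`. -/
structure Design (θ : ℝ) (w : ℕ → ℕ → Bool) where
  /-- the cost `u = - log f` (meaningful off `0`) -/
  u : UnitAddCircle → ℝ
  u_nonneg : ∀ x, 0 ≤ u x
  /-- `f = e^{-u}`, `f 0 = 0` is continuous -/
  cont : Continuous fun x : UnitAddCircle => if x = 0 then (0 : ℝ) else Real.exp (-u x)
  u_meas : Measurable u
  lint : ∫⁻ x : UnitAddCircle, ENNReal.ofReal (u x) = ⊤
  c : ℕ → ℝ
  e : ℕ → ℝ
  g : ℕ → ℕ
  lev : ℕ → UnitAddCircle → ℕ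
  Bad : ℕ → Set UnitAddCircle
  lev_meas : ∀ b, Measurable (lev b)
  bad_meas : ∀ b, MeasurableSet (Bad b)
  e_nonneg : ∀ b, 0 ≤ e b
  g_le : ∀ b, 1 ≤ b → 4 ^ b * g b ≤ Mb b
  /-- (D1) the level grows by one or is reset to zero -/
  d1 : ∀ b, 1 ≤ b → ∀ x : UnitAddCircle,
    lev b (x + (θ : UnitAddCircle)) = lev b x + 1 ∨ lev b (x + (θ : UnitAddCircle)) = 0
  /-- (D1) resets are rare -/
  d1vol : ∀ b, 1 ≤ b → volume {x : UnitAddCircle | lev b x = 0} ≤
    ENNReal.ofReal (1 / (4 ^ b * (10 * (Pib b * Mb b))))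
  /-- (D2) the `2 M_b`-neighbourhood (along orbits) of `Bad b` is small -/
  d2vol : ∀ b, 1 ≤ b → volume {x : UnitAddCircle | ∃ i : ℤ, |i| ≤ 2 * (Mb b : ℤ) ∧
    x + i • (θ : UnitAddCircle) ∈ Bad b} ≤ ENNReal.ofReal ((1 / 4 : ℝ) ^ b)
  /-- (D2) off `Bad b` we are deep inside a column -/
  d2 : ∀ b, 1 ≤ b → ∀ x : UnitAddCircle, x ∉ Bad b →
    2 * (Pib b * Mb b) ≤ lev b x ∧
    ∀ i : ℕ, i ≤ 2 * (Pib b * Mb b) → lev b (x + i • (θ : UnitAddCircle)) = lev b x + i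
  /-- (D3) the cost of `n` steps is determined by the cells and letters at the two ends -/
  d3 : ∀ b, 1 ≤ b → ∀ x : UnitAddCircle, x ∉ Bad b → ∀ n : ℕ, n ≤ rb b * Mb b →
    g b ≤ lev b x % Mb b → g b ≤ (lev b x + n) % Mb b →
    c b * (2 * ((((lev b x + n) / Mb b : ℕ) : ℝ) - ((lev b x / Mb b : ℕ) : ℝ))
        + epsw w b (lev b x / Mb b) - epsw w b ((lev b x + n) / Mb b))
      ≤ ∑ i ∈ Finset.range n, u (x + i • (θ : UnitAddCircle)) ∧
    ∑ i ∈ Finset.range n, u (x + i • (θ : UnitAddCircle)) ≤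
      c b * (2 * ((((lev b x + n) / Mb b : ℕ) : ℝ) - ((lev b x / Mb b : ℕ) : ℝ))
        + epsw w b (lev b x / Mb b) - epsw w b ((lev b x + n) / Mb b)) + e b
  /-- (D4) domination -/
  d4 : ∀ b, 1 ≤ b → 4 ^ b * (Mb b : ℝ) ^ 20 * (1 + e b) ≤ c b

/-- T16: the design theorem (proved in `Crest.Agent.R113.Circ.Main` as `exists_design`). -/
def S_Design : Prop := ∀ θ : ℝ, Irrational θ → ∀ w : ℕ → ℕ → Bool, Nonempty (Design θ w)

end Crest.Agent.R113
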