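import Crest.Agent.R113.CircleDefs

/-! # T16: the design theorem — blueprint 6834 sec. 3 -/

set_option autoImplicit false

namespace Crest.Agent.R113

open scoped BigOperators
open MeasureTheory

theorem exists_design {θ : ℝ} (hθ : Irrational θ) (w : ℕ → ℕ → Bool) :
    ∃ (c e : ℕ → ℝ) (g : ℕ → ℕ) (f : TT → ℝ) (lev : ℕ → TT → ℕ) (Bad : ℕ → Set TT),
      IsDesign θ w c e g f lev Bad := by
  sorry

end Crest.Agent.R113
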