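import Crest.Agent.R113.Defs

/-!
# Row 113 / S0149: circle side definitions (design and fibres)
-/

set_option autoImplicit false

namespace Crest.Agent.R113

open scoped BigOperators
open MeasureTheory

noncomputable section

/-- Hilbert space `ℓ²(ℤ)`. -/
abbrev l2Z : Type := lp (fun _ : ℤ => ℂ) 2

/-- Basis vector of `ℓ²(ℤ)`. -/
def dl (m : ℤ) : l2Z := lp.single 2 m (1 : ℂ)

/-- The circle `ℝ/ℤ`. -/
abbrev TT : Type := AddCircle (1 : ℝ)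

/-- Orbit points: `orb θ x m = x + m θ` in the circle. -/
def orb (θ : ℝ) (x : TT) (m : ℤ) : TT := x + m • (θ : TT)

/-- Costs `u = -log f` along the orbit of `x`. -/
def cost (θ : ℝ) (f : TT → ℝ) (x : TT) (m : ℤ) : ℝ := -Real.log (f (orb θ x m))

/-- The design theorem's output: `f` with its block structure. -/
structure IsDesign (θ : ℝ) (w : ℕ → ℕ → Bool) (c e : ℕ → ℝ) (g : ℕ → ℕ) (f : TT → ℝ)
    (lev : ℕ → TT → ℕ) (Bad : ℕ → Set TT) : Prop where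
  cont : Continuous f
  f_nonneg : ∀ x, 0 ≤ f x
  f_le_one : ∀ x, f x ≤ 1
  f_zero_iff : ∀ x, f x = 0 ↔ x = 0
  int_top : ∫⁻ x, ENNReal.ofReal (-Real.log (f x)) = ⊤
  growth : IsGrowth c e g
  lev_meas : ∀ b, 1 ≤ b → Measurable (lev b)
  bad_meas : ∀ b, 1 ≤ b → MeasurableSet (Bad b)
  lev_step : ∀ b, 1 ≤ b → ∀ x, lev b (orb θ x 1) = lev b x + 1 ∨ lev b (orb θ x 1) = 0
  reset_vol : ∀ b, 1 ≤ b →
    volume {x | lev b x = 0} * ((Pib b : ENNReal) * (Mb b : ENNReal)) ≤ ENNReal.ofReal ((1 / 4) ^ b)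
  bad_vol : ∀ b, 1 ≤ b →
    volume {x | ∃ i : ℤ, |i| ≤ 2 * Mb b ∧ orb θ x i ∈ Bad b} ≤ ENNReal.ofReal ((1 / 4) ^ b)
  run_low : ∀ b, 1 ≤ b → ∀ x, x ∉ Bad b → 2 * Pib b * Mb b ≤ lev b x
  run : ∀ b, 1 ≤ b → ∀ x, x ∉ Bad b → ∀ i : ℕ, i ≤ 2 * Pib b * Mb b →
    lev b (orb θ x i) = lev b x + i
  cost_low : ∀ b, 1 ≤ b → ∀ x, x ∉ Bad b → ∀ n ≤ rb b * Mb b,
    g b ≤ lev b x % Mb b → g b ≤ (lev b x + n) % Mb b →
    idealCost w c b (lev b x) n ≤ wsum (cost θ f x) 0 n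
  cost_high : ∀ b, 1 ≤ b → ∀ x, x ∉ Bad b → ∀ n ≤ rb b * Mb b,
    g b ≤ lev b x % Mb b → g b ≤ (lev b x + n) % Mb b →
    wsum (cost θ f x) 0 n ≤ idealCost w c b (lev b x) n + e b

/-- The direct integral decomposition of an invariant projection: a covariant measurable family
of projections of `ℓ²(ℤ)` with `T_x P_x = P_x T_x P_x`, where `T_x δ_m = f(x + mθ) δ_{m+1}`. -/
structure FibreFamily (θ : ℝ) (f : TT → ℝ) (P : TT → (l2Z →L[ℂ] l2Z)) (ρ : ℝ) : Prop where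
  meas : ∀ i j : ℤ, Measurable (fun x => (P x (dl j) : l2Z) i)
  proj : ∀ᵐ x : TT, IsStarProjection (P x)
  cov : ∀ i j : ℤ, ∀ᵐ x : TT, (P (orb θ x 1) (dl j) : l2Z) i = (P x (dl (j + 1)) : l2Z) (i + 1)
  inv : ∀ᵐ x : TT, ∀ v v' : l2Z, P x v = v →
    (∀ m : ℤ, v' (m + 1) = (f (orb θ x m) : ℂ) * v m) → P x v' = v'
  trace : ∫ x : TT, ‖P x (dl 0)‖ ^ 2 = ρ

/-! ### Equation lemmas -/

theorem dl_eqna (m : ℤ) : dl m = lp.single 2 m (1 : ℂ) := by rw [dl.eq_1]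
theorem dl_eqnb (m : ℤ) : dl m = lp.single 2 m (1 : ℂ) := by rw [dl.eq_def]
theorem orb_eqna (θ : ℝ) (x : TT) (m : ℤ) : orb θ x m = x + m • (θ : TT) := by rw [orb.eq_1]
theorem orb_eqnb (θ : ℝ) (x : TT) (m : ℤ) : orb θ x m = x + m • (θ : TT) := by rw [orb.eq_def]
theorem cost_eqna (θ : ℝ) (f : TT → ℝ) (x : TT) (m : ℤ) :
    cost θ f x m = -Real.log (f (orb θ x m)) := by rw [cost.eq_1]
theorem cost_eqnb (θ : ℝ) (f : TT → ℝ) (x : TT) (m : ℤ) :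
    cost θ f x m = -Real.log (f (orb θ x m)) := by rw [cost.eq_def]

/-- Matrix entries of an operator on `ℓ²(ℤ)`. -/
def entZ (P : l2Z →L[ℂ] l2Z) (i j : ℤ) : ℂ := (P (dl j) : l2Z) i

/-- Defect `tr(A - A²)` of the finite section `A = 1_[q] P 1_[q]` of a projection `P`. -/
def defect (P : l2Z →L[ℂ] l2Z) (q : ℕ) : ℝ :=
  ∑ j ∈ Finset.range q, (‖P (dl j)‖ ^ 2 - ∑ i ∈ Finset.range q, ‖entZ P i j‖ ^ 2)

theorem entZ_eqna (P : l2Z →L[ℂ] l2Z) (i j : ℤ) : entZ P i j = (P (dl j) : l2Z) i := by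
  rw [entZ.eq_1]
theorem entZ_eqnb (P : l2Z →L[ℂ] l2Z) (i j : ℤ) : entZ P i j = (P (dl j) : l2Z) i := by
  rw [entZ.eq_def]
theorem defect_eqna (P : l2Z →L[ℂ] l2Z) (q : ℕ) : defect P q =
    ∑ j ∈ Finset.range q, (‖P (dl j)‖ ^ 2 - ∑ i ∈ Finset.range q, ‖entZ P i j‖ ^ 2) := by
  rw [defect.eq_1]
theorem defect_eqnb (P : l2Z →L[ℂ] l2Z) (q : ℕ) : defect P q =
    ∑ j ∈ Finset.range q, (‖P (dl j)‖ ^ 2 - ∑ i ∈ Finset.range q, ‖entZ P i j‖ ^ 2) := by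
  rw [defect.eq_def]

end

end Crest.Agent.R113
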