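import Mathlib
import Crest.Prelude.Def_ProductShift

/-! Row 113, S0151: abstract computation of `vectorDet` for a quasinilpotent operator whose
`*`-algebra is traced by a vector. -/

set_option autoImplicit false

namespace Crest.Agent.R113.Det

open Crest.AnalysisR.ProductShift
open Finset Polynomial

variable {H : Type*} [NormedAddCommGroup H] [InnerProductSpace ℂ H] [CompleteSpace H]

/-- the vector functional -/
noncomputable def tau (ξ : H) : (H →L[ℂ] H) →L[ℂ] ℂ :=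
  (innerSL ℂ ξ).comp (ContinuousLinearMap.apply ℂ H ξ)

lemma tau_apply (ξ : H) (X : H →L[ℂ] H) : tau ξ X = inner ℂ ξ (X ξ) := rfl

lemma norm_tau_le {ξ : H} (hξ : ‖ξ‖ = 1) (X : H →L[ℂ] H) : ‖tau ξ X‖ ≤ ‖X‖ := by
  rw [tau_apply]
  calc ‖inner ℂ ξ (X ξ)‖ ≤ ‖ξ‖ * ‖X ξ‖ := norm_inner_le_norm _ _
    _ ≤ ‖ξ‖ * (‖X‖ * ‖ξ‖) := by gcongr; exact X.le_opNorm _
    _ = ‖X‖ := by rw [hξ]; ring

lemma tau_one {ξ : H} (hξ : ‖ξ‖ = 1) : tau ξ 1 = 1 := by
  rw [tau_apply, one_apply_eq_self, inner_self_eq_norm_sq_to_K, hξ]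
  simp

lemma tau_star (ξ : H) (X : H →L[ℂ] H) : tau ξ (star X) = star (tau ξ X) := by
  rw [tau_apply, tau_apply, ContinuousLinearMap.star_eq_adjoint,
    ContinuousLinearMap.adjoint_inner_right]
  exact (inner_conj_symm _ _).symm

lemma real_smul_eq (r : ℝ) (X : H →L[ℂ] H) : r • X = ((r : ℝ) : ℂ) • X :=
  (Complex.coe_smul r X).symm

/-- polynomial approximation of the logarithm, functional calculus form -/
lemma cfc_log_approx (B : H →L[ℂ] H) (hB : IsSelfAdjoint B) (a b : ℝ) (ha : 0 < a)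
    (hab : a ≤ b) (hsp : ∀ x ∈ spectrum ℝ B, a ≤ x ∧ x ≤ b) (n : ℕ) :
    ‖cfc Real.log B - ((Real.log b) • (1 : H →L[ℂ] H)
      - ∑ k ∈ range n, ((1 : ℝ) / (k + 1)) • (1 - b⁻¹ • B) ^ (k + 1))‖
      ≤ (1 - a / b) ^ (n + 1) / (a / b) := by
  have hb : 0 < b := ha.trans_le hab
  set p : ℝ[X] := C (Real.log b) - ∑ k ∈ range n, C ((1 : ℝ) / (k + 1)) * (1 - C b⁻¹ * X) ^ (k + 1)
    with hp
  have h1 : cfc p.eval B = (Real.log b) • (1 : H →L[ℂ] H)
      - ∑ k ∈ range n, ((1 : ℝ) / (k + 1)) • (1 - b⁻¹ • B) ^ (k + 1) := by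
    rw [cfc_polynomial p B]
    simp only [hp, map_sub, map_sum, map_mul, map_pow, map_one, aeval_C, aeval_X,
      Algebra.algebraMap_eq_smul_one, smul_mul_assoc, one_mul]
  have h2 : cfc Real.log B - cfc p.eval B = cfc (fun x => Real.log x - p.eval x) B := by
    refine (cfc_sub Real.log p.eval B ?_ p.continuous.continuousOn).symm
    refine Real.continuousOn_log.mono ?_
    intro x hx
    have := (hsp x hx).1
    simp only [Set.mem_compl_iff, Set.mem_singleton_iff]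
    intro h; rw [h] at this; linarith
  rw [← h1, h2]
  have hab1 : a / b ≤ 1 := by rw [div_le_one hb]; exact hab
  have hab0 : 0 < a / b := by positivity
  refine norm_cfc_le ?_ ?_
  · have : 0 ≤ 1 - a / b := by linarith
    positivity
  · intro x hx
    obtain ⟨hx1, hx2⟩ := hsp x hx
    have hx0 : 0 < x := ha.trans_le hx1
    set y : ℝ := 1 - x / b with hy
    have hxb : a / b ≤ x / b := by gcongr
    have hxb1 : x / b ≤ 1 := by rw [div_le_one hb]; exact hx2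
    have hy0 : 0 ≤ y := by rw [hy]; linarith
    have hy1 : y < 1 := by rw [hy]; have : 0 < x / b := by positivity
                           linarith
    have h3 := Real.abs_log_sub_add_sum_range_le (x := y) (by rw [abs_of_nonneg hy0]; exact hy1) n
    have h4 : Real.log (1 - y) = Real.log x - Real.log b := by
      rw [hy, sub_sub_cancel, Real.log_div hx0.ne' hb.ne']
    have h5 : p.eval x = Real.log b - ∑ i ∈ range n, y ^ (i + 1) / (i + 1) := by
      simp only [hp, eval_sub, eval_finsetSum, eval_mul, eval_pow, eval_one, eval_C, eval_X]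
      congr 1
      refine Finset.sum_congr rfl fun i _ => ?_
      have : 1 - b⁻¹ * x = y := by rw [hy]; ring
      rw [this]; ring
    have h6 : Real.log x - p.eval x = (∑ i ∈ range n, y ^ (i + 1) / (i + 1)) + Real.log (1 - y) := by
      rw [h5, h4]; ring
    rw [h6, Real.norm_eq_abs]
    refine h3.trans ?_
    rw [abs_of_nonneg hy0]
    have hya : y ≤ 1 - a / b := by rw [hy]; linarith
    have hya2 : a / b ≤ 1 - y := by linarith
    have : 0 ≤ 1 - a / b := by linarith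
    gcongr

/-- derivative of `τ(Y^(k+1))` along a path, when `τ` is tracial on the relevant products -/
lemma hasDerivAt_tau_pow (ξ : H) (Y : ℝ → H →L[ℂ] H) (Y' : H →L[ℂ] H) (s : ℝ)
    (hY : HasDerivAt Y Y' s)
    (htr : ∀ i j : ℕ, tau ξ (Y s ^ i * Y' * Y s ^ j) = tau ξ (Y s ^ (i + j) * Y')) (k : ℕ) :
    HasDerivAt (fun s => tau ξ (((1 : ℝ) / (k + 1)) • (Y s) ^ (k + 1)))
      (tau ξ (Y s ^ k * Y')) s := by
  have h1 := hY.fun_pow' (k + 1)
  have h2 := h1.const_smul ((1 : ℝ) / (k + 1))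
  have h3 : HasDerivAt (fun s => ((tau ξ).restrictScalars ℝ) (((1 : ℝ) / (k + 1)) • (Y s) ^ (k + 1)))
      (((tau ξ).restrictScalars ℝ) (((1 : ℝ) / (k + 1)) •
        ∑ i ∈ range (k + 1), Y s ^ ((k + 1).pred - i) * Y' * Y s ^ i)) s :=
    ((tau ξ).restrictScalars ℝ).hasFDerivAt.comp_hasDerivAt s h2
  have h4 : ((tau ξ).restrictScalars ℝ) (((1 : ℝ) / (k + 1)) •
        ∑ i ∈ range (k + 1), Y s ^ ((k + 1).pred - i) * Y' * Y s ^ i) = tau ξ (Y s ^ k * Y') := by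
    rw [map_smul, map_sum]
    have : ∀ i ∈ range (k + 1), ((tau ξ).restrictScalars ℝ) (Y s ^ ((k + 1).pred - i) * Y' * Y s ^ i)
        = tau ξ (Y s ^ k * Y') := by
      intro i hi
      rw [mem_range] at hi
      have : (k + 1).pred - i + i = k := by simp; omega
      rw [ContinuousLinearMap.coe_restrictScalars', htr, this]
    rw [Finset.sum_congr rfl this, Finset.sum_const, card_range, nsmul_eq_mul, Complex.real_smul]
    have hk : ((k : ℂ) + 1) ≠ 0 := by exact_mod_cast Nat.succ_ne_zero k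
    push_cast
    field_simp
  rw [h4] at h3
  exact h3

/-- the trace property extends to the closure -/
lemma tau_comm_closure (ξ : H) (S : StarSubalgebra ℂ (H →L[ℂ] H))
    (h : ∀ X ∈ S, ∀ Y ∈ S, tau ξ (X * Y) = tau ξ (Y * X)) :
    ∀ X ∈ S.topologicalClosure, ∀ Y ∈ S.topologicalClosure, tau ξ (X * Y) = tau ξ (Y * X) := by
  have h1 : ∀ X ∈ S, ∀ Y ∈ S.topologicalClosure, tau ξ (X * Y) = tau ξ (Y * X) := by
    intro X hX Y hY
    have hc : IsClosed {Y : H →L[ℂ] H | tau ξ (X * Y) = tau ξ (Y * X)} :=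
      isClosed_eq (by fun_prop) (by fun_prop)
    exact (hc.closure_subset_iff.mpr (fun Z hZ => h X hX Z hZ)) hY
  intro X hX Y hY
  have hc : IsClosed {X : H →L[ℂ] H | tau ξ (X * Y) = tau ξ (Y * X)} :=
    isClosed_eq (by fun_prop) (by fun_prop)
  exact (hc.closure_subset_iff.mpr (fun Z hZ => h1 Z hZ Y hY)) hX

section Path

variable (T : H →L[ℂ] H) (z : ℂ)

/-- the path `s T - z` -/
noncomputable def Ap (s : ℝ) : H →L[ℂ] H := s • T - z • (1 : H →L[ℂ] H)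

noncomputable def Bp (s : ℝ) : H →L[ℂ] H := star (Ap T z s) * Ap T z s

noncomputable def Np (s : ℝ) : H →L[ℂ] H := z⁻¹ • (s • T)

/-- the inverse of `s T - z` -/
noncomputable def Rp (s : ℝ) : H →L[ℂ] H := (-z⁻¹) • ∑' k : ℕ, (Np T z s) ^ k

noncomputable def Kp : ℝ := ‖z‖⁻¹ * ∑' k : ℕ, ‖z‖⁻¹ ^ k * ‖T ^ k‖

lemma norm_Np_pow_le {s : ℝ} (hs : |s| ≤ 1) (k : ℕ) :
    ‖(Np T z s) ^ k‖ ≤ ‖z‖⁻¹ ^ k * ‖T ^ k‖ := by
  have h : (Np T z s) ^ k = (z⁻¹) ^ k • (s ^ k • T ^ k) := by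
    rw [Np, _root_.smul_pow, _root_.smul_pow]
  rw [h, norm_smul, norm_smul, norm_pow, norm_inv, norm_pow, Real.norm_eq_abs]
  have : |s| ^ k ≤ 1 := pow_le_one₀ (abs_nonneg _) hs
  have h2 : |s| ^ k * ‖T ^ k‖ ≤ 1 * ‖T ^ k‖ := by gcongr
  rw [one_mul] at h2
  gcongr

variable {T z}

lemma summable_Np (hq : Summable (fun k : ℕ => ‖z‖⁻¹ ^ k * ‖T ^ k‖)) {s : ℝ} (hs : |s| ≤ 1) :
    Summable (fun k : ℕ => (Np T z s) ^ k) :=
  Summable.of_norm_bounded hq (fun k => norm_Np_pow_le T z hs k)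

lemma Ap_eq (hz : z ≠ 0) (s : ℝ) : Ap T z s = (-z) • (1 - Np T z s) := by
  rw [Ap, Np, smul_sub, smul_smul]
  have : -z * z⁻¹ = -1 := by field_simp
  rw [this]
  simp only [neg_smul, one_smul]
  abel

lemma Ap_mul_Rp (hz : z ≠ 0) (hq : Summable (fun k : ℕ => ‖z‖⁻¹ ^ k * ‖T ^ k‖)) {s : ℝ}
    (hs : |s| ≤ 1) : Ap T z s * Rp T z s = 1 := by
  rw [Ap_eq hz, Rp, smul_mul_smul_comm, (summable_Np hq hs).one_sub_mul_tsum_pow]
  have : -z * -z⁻¹ = 1 := by field_simp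
  rw [this, one_smul]

lemma Rp_mul_Ap (hz : z ≠ 0) (hq : Summable (fun k : ℕ => ‖z‖⁻¹ ^ k * ‖T ^ k‖)) {s : ℝ}
    (hs : |s| ≤ 1) : Rp T z s * Ap T z s = 1 := by
  rw [Ap_eq hz, Rp, smul_mul_smul_comm, (summable_Np hq hs).tsum_pow_mul_one_sub]
  have : -z⁻¹ * -z = 1 := by field_simp
  rw [this, one_smul]

lemma norm_Rp_le (hq : Summable (fun k : ℕ => ‖z‖⁻¹ ^ k * ‖T ^ k‖)) {s : ℝ}
    (hs : |s| ≤ 1) : ‖Rp T z s‖ ≤ Kp T z := by
  rw [Rp, Kp, norm_smul, norm_neg, norm_inv]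
  have h := tsum_of_norm_bounded hq.hasSum (fun k => norm_Np_pow_le T z hs k)
  gcongr

lemma norm_Ap_le {s : ℝ} (hs : |s| ≤ 1) : ‖Ap T z s‖ ≤ ‖T‖ + ‖z‖ := by
  rw [Ap]
  refine (norm_sub_le _ _).trans ?_
  have h1 : ‖s • T‖ ≤ ‖T‖ := by
    rw [norm_smul, Real.norm_eq_abs]
    calc |s| * ‖T‖ ≤ 1 * ‖T‖ := by gcongr
      _ = ‖T‖ := one_mul _
  have h2 : ‖z • (1 : H →L[ℂ] H)‖ ≤ ‖z‖ := by
    rw [norm_smul]
    calc ‖z‖ * ‖(1 : H →L[ℂ] H)‖ ≤ ‖z‖ * 1 := by gcongr; exact ContinuousLinearMap.norm_id_le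
      _ = ‖z‖ := mul_one _
  linarith

lemma isSelfAdjoint_Bp (s : ℝ) : IsSelfAdjoint (Bp T z s) := IsSelfAdjoint.star_mul_self _

lemma hasDerivAt_Ap (s : ℝ) : HasDerivAt (fun s => Ap T z s) T s := by
  have h := ((hasDerivAt_id s).smul_const T).sub_const (z • (1 : H →L[ℂ] H))
  simpa [Ap] using h

lemma hasDerivAt_Bp (s : ℝ) :
    HasDerivAt (fun s => Bp T z s) (star T * Ap T z s + star (Ap T z s) * T) s := by
  have h0 : ∀ s : ℝ, star (Ap T z s) = s • star T - star (z • (1 : H →L[ℂ] H)) := by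
    intro s
    rw [Ap, star_sub, star_smul, star_trivial]
  have h1 : HasDerivAt (fun s => star (Ap T z s)) (star T) s := by
    have h := ((hasDerivAt_id s).smul_const (star T)).sub_const (star (z • (1 : H →L[ℂ] H)))
    rw [one_smul] at h
    refine h.congr_of_eventuallyEq (Filter.Eventually.of_forall fun t => ?_)
    simp only [id]
    exact h0 t
  exact h1.mul (hasDerivAt_Ap s)

lemma Bp_inv (hz : z ≠ 0) (hq : Summable (fun k : ℕ => ‖z‖⁻¹ ^ k * ‖T ^ k‖)) {s : ℝ}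
    (hs : |s| ≤ 1) : Bp T z s * (Rp T z s * star (Rp T z s)) = 1 := by
  have h1 := Ap_mul_Rp hz hq hs
  have h2 := Rp_mul_Ap hz hq hs
  calc Bp T z s * (Rp T z s * star (Rp T z s))
      = star (Ap T z s) * (Ap T z s * Rp T z s) * star (Rp T z s) := by rw [Bp]; noncomm_ring
    _ = star (Rp T z s * Ap T z s) := by rw [h1, mul_one, star_mul]
    _ = 1 := by rw [h2, star_one]

lemma Bp_inv' (hz : z ≠ 0) (hq : Summable (fun k : ℕ => ‖z‖⁻¹ ^ k * ‖T ^ k‖)) {s : ℝ}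
    (hs : |s| ≤ 1) : (Rp T z s * star (Rp T z s)) * Bp T z s = 1 := by
  have h1 := Ap_mul_Rp hz hq hs
  have h2 := Rp_mul_Ap hz hq hs
  calc (Rp T z s * star (Rp T z s)) * Bp T z s
      = Rp T z s * star (Ap T z s * Rp T z s) * Ap T z s := by rw [Bp, star_mul]; noncomm_ring
    _ = 1 := by rw [h1, star_one, mul_one, h2]

end Path

section Main

variable {T : H →L[ℂ] H} {z : ℂ}

lemma Kp_pos [Nontrivial H] (hz : z ≠ 0) (hq : Summable (fun k : ℕ => ‖z‖⁻¹ ^ k * ‖T ^ k‖)) :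
    0 < Kp T z := by
  have h0 : ‖Rp T z 0‖ ≤ Kp T z := norm_Rp_le hq (by simp)
  have h1 : Rp T z 0 ≠ 0 := by
    intro h
    have h2 := Ap_mul_Rp (T := T) hz hq (s := 0) (by simp)
    rw [h, mul_zero] at h2
    exact zero_ne_one h2
  exact (norm_pos_iff.mpr h1).trans_le h0

lemma spectrum_Bp [Nontrivial H] (hz : z ≠ 0)
    (hq : Summable (fun k : ℕ => ‖z‖⁻¹ ^ k * ‖T ^ k‖)) {s : ℝ} (hs : |s| ≤ 1) :
    ∀ x ∈ spectrum ℝ (Bp T z s), (Kp T z ^ 2)⁻¹ ≤ x ∧ x ≤ (‖T‖ + ‖z‖) ^ 2 := by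
  intro x hx
  have hK := Kp_pos (T := T) hz hq
  have hx0 : 0 ≤ x := spectrum_nonneg_of_nonneg (star_mul_self_nonneg _) hx
  have hup : x ≤ (‖T‖ + ‖z‖) ^ 2 := by
    have h1 := spectrum.norm_le_norm_of_mem hx
    rw [Real.norm_eq_abs, abs_of_nonneg hx0] at h1
    refine h1.trans ?_
    rw [Bp, CStarRing.norm_star_mul_self, ← sq]
    have := norm_Ap_le (T := T) (z := z) hs
    gcongr
  refine ⟨?_, hup⟩
  set u : (H →L[ℂ] H)ˣ := ⟨Bp T z s, Rp T z s * star (Rp T z s), Bp_inv hz hq hs, Bp_inv' hz hq hs⟩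
    with hu
  have hxne : x ≠ 0 := by
    intro h
    rw [h] at hx
    exact spectrum.zero_notMem ℝ u.isUnit hx
  have h2 : x⁻¹ ∈ spectrum ℝ ((u⁻¹ : (H →L[ℂ] H)ˣ) : H →L[ℂ] H) := by
    have := (spectrum.inv_mem_iff (r := Units.mk0 x hxne) (a := u)).mp hx
    simpa using this
  have h3 := spectrum.norm_le_norm_of_mem h2
  have h4 : ((u⁻¹ : (H →L[ℂ] H)ˣ) : H →L[ℂ] H) = Rp T z s * star (Rp T z s) := rfl
  rw [h4, CStarRing.norm_self_mul_star, Real.norm_eq_abs, abs_of_nonneg (by positivity)] at h3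
  have h5 : ‖Rp T z s‖ * ‖Rp T z s‖ ≤ Kp T z ^ 2 := by
    rw [← sq]
    have := norm_Rp_le (T := T) (z := z) hq hs
    gcongr
  have hxp : 0 < x := lt_of_le_of_ne hx0 (Ne.symm hxne)
  rw [inv_le_comm₀ (by positivity) hxp]
  exact h3.trans h5

/-- the quantity `τ(B⁻¹ B')` vanishes -/
lemma tau_logderiv {ξ : H} (S : StarSubalgebra ℂ (H →L[ℂ] H)) (hS : IsClosed (S : Set (H →L[ℂ] H)))
    (hTS : T ∈ S) (htr : ∀ X ∈ S, ∀ Y ∈ S, tau ξ (X * Y) = tau ξ (Y * X))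
    (hT : ∀ k : ℕ, tau ξ (T ^ (k + 1)) = 0) (hz : z ≠ 0)
    (hq : Summable (fun k : ℕ => ‖z‖⁻¹ ^ k * ‖T ^ k‖)) {s : ℝ} (hs : |s| ≤ 1) :
    Rp T z s ∈ S ∧ Ap T z s ∈ S ∧
    tau ξ ((Rp T z s * star (Rp T z s)) * (star T * Ap T z s + star (Ap T z s) * T)) = 0 := by
  have hN : Np T z s ∈ S := by
    rw [Np]
    have : s • T = ((s : ℂ)) • T := by simp
    rw [this]
    exact S.smul_mem (S.smul_mem hTS _) _
  have hR : Rp T z s ∈ S := by
    rw [Rp]
    refine S.smul_mem ?_ _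
    exact tsum_mem hS (fun k => pow_mem hN k)
  have hA : Ap T z s ∈ S := by
    rw [Ap]
    have : s • T = ((s : ℂ)) • T := by simp
    rw [this]
    exact S.sub_mem (S.smul_mem hTS _) (S.smul_mem (one_mem S) _)
  refine ⟨hR, hA, ?_⟩
  have hAR := Ap_mul_Rp (T := T) hz hq hs
  have hRA := Rp_mul_Ap (T := T) hz hq hs
  have hRT : tau ξ (Rp T z s * T) = 0 := by
    rw [Rp, smul_mul_assoc, map_smul]
    have h1 : (∑' k : ℕ, Np T z s ^ k) * T = ∑' k : ℕ, Np T z s ^ k * T :=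
      ((summable_Np hq hs).tsum_mul_right T).symm
    rw [h1, ContinuousLinearMap.map_tsum _ ((summable_Np hq hs).mul_right T)]
    have h2 : ∀ k : ℕ, tau ξ (Np T z s ^ k * T) = 0 := by
      intro k
      have h : (Np T z s) ^ k * T = (z⁻¹) ^ k • (((s ^ k : ℝ) : ℂ) • T ^ (k + 1)) := by
        rw [Np, _root_.smul_pow, _root_.smul_pow, smul_mul_assoc, smul_mul_assoc, ← pow_succ]
        congr 1
      rw [h, map_smul, map_smul, hT, smul_zero, smul_zero]
    simp [h2]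
  have e1 : (Rp T z s * star (Rp T z s)) * (star T * Ap T z s + star (Ap T z s) * T)
      = (Rp T z s * star (Rp T z s) * star T) * Ap T z s
        + Rp T z s * star (Ap T z s * Rp T z s) * T := by
    rw [star_mul]; noncomm_ring
  rw [e1, hAR, star_one, mul_one, map_add, hRT, add_zero]
  rw [htr _ (mul_mem (mul_mem hR (star_mem hR)) (star_mem hTS)) _ hA]
  have e2 : Ap T z s * (Rp T z s * star (Rp T z s) * star T)
      = (Ap T z s * Rp T z s) * star (T * Rp T z s) := by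
    rw [star_mul]; noncomm_ring
  rw [e2, hAR, one_mul, tau_star, htr _ hTS _ hR, hRT, star_zero]

theorem tau_log_eq {ξ : H} (hξ : ‖ξ‖ = 1) (S : StarSubalgebra ℂ (H →L[ℂ] H))
    (hS : IsClosed (S : Set (H →L[ℂ] H)))
    (hTS : T ∈ S) (htr : ∀ X ∈ S, ∀ Y ∈ S, tau ξ (X * Y) = tau ξ (Y * X))
    (hT : ∀ k : ℕ, tau ξ (T ^ (k + 1)) = 0) (hz : z ≠ 0)
    (hq : Summable (fun k : ℕ => ‖z‖⁻¹ ^ k * ‖T ^ k‖)) :
    tau ξ (cfc Real.log (Bp T z 1)) = (Real.log (‖z‖ ^ 2) : ℂ) := by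
  have hξ0 : ξ ≠ 0 := by intro h; rw [h, norm_zero] at hξ; exact zero_ne_one hξ
  have : Nontrivial H := ⟨ξ, 0, hξ0⟩
  have hK := Kp_pos (T := T) hz hq
  have hzn : 0 < ‖z‖ := norm_pos_iff.mpr hz
  set a : ℝ := (Kp T z ^ 2)⁻¹ with ha
  set b : ℝ := (‖T‖ + ‖z‖) ^ 2 with hb
  have ha0 : 0 < a := by positivity
  have hb0 : 0 < b := by positivity
  have hsp : ∀ s : ℝ, |s| ≤ 1 → ∀ x ∈ spectrum ℝ (Bp T z s), a ≤ x ∧ x ≤ b :=
    fun s hs => spectrum_Bp hz hq hs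
  have hab : a ≤ b := by
    obtain ⟨x, hx⟩ := ContinuousFunctionalCalculus.spectrum_nonempty (R := ℝ) (Bp T z 0) (isSelfAdjoint_Bp 0)
    exact (hsp 0 (by simp) x hx).1.trans (hsp 0 (by simp) x hx).2
  set q : ℝ := 1 - a / b with hqdef
  have hab1 : a / b ≤ 1 := by rw [div_le_one hb0]; exact hab
  have hab0 : 0 < a / b := by positivity
  have hq0 : 0 ≤ q := by rw [hqdef]; linarith
  have hq1 : q < 1 := by rw [hqdef]; linarith
  set Y : ℝ → H →L[ℂ] H := fun s => 1 - b⁻¹ • Bp T z s with hY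
  have hYnorm : ∀ s : ℝ, |s| ≤ 1 → ‖Y s‖ ≤ q := by
    intro s hs
    have h1 : Y s = cfc (fun x : ℝ => 1 - b⁻¹ * x) (Bp T z s) := by
      rw [cfc_sub (fun _ => (1 : ℝ)) (fun x => b⁻¹ * x) (Bp T z s) (by fun_prop) (by fun_prop),
        cfc_const_one ℝ (Bp T z s) (isSelfAdjoint_Bp s),
        cfc_const_mul_id b⁻¹ (Bp T z s) (isSelfAdjoint_Bp s)]
    rw [h1]
    refine norm_cfc_le hq0 ?_
    intro x hx
    obtain ⟨h2, h3⟩ := hsp s hs x hx
    have h4 : x / b ≤ 1 := by rw [div_le_one hb0]; exact h3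
    have h5 : a / b ≤ x / b := by gcongr
    rw [Real.norm_eq_abs, abs_le]
    constructor
    · have : b⁻¹ * x = x / b := by ring
      rw [this]; linarith
    · have : b⁻¹ * x = x / b := by ring
      rw [this, hqdef]; linarith
  set B' : ℝ → H →L[ℂ] H := fun s => star T * Ap T z s + star (Ap T z s) * T with hB'
  have hYder : ∀ s : ℝ, HasDerivAt Y (-(b⁻¹ • B' s)) s := by
    intro s
    have := (hasDerivAt_Bp (T := T) (z := z) s).const_smul b⁻¹
    exact this.const_sub 1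
  have hone : (1 : H →L[ℂ] H) ∈ S := one_mem S
  have hYS : ∀ s : ℝ, |s| ≤ 1 → Y s ∈ S := by
    intro s hs
    have hA := (tau_logderiv S hS hTS htr hT hz hq hs).2.1
    simp only [hY]
    rw [real_smul_eq]
    exact S.sub_mem hone (S.smul_mem (mul_mem (star_mem hA) hA) _)
  have hY'S : ∀ s : ℝ, |s| ≤ 1 → -(b⁻¹ • B' s) ∈ S := by
    intro s hs
    have hA := (tau_logderiv S hS hTS htr hT hz hq hs).2.1
    rw [real_smul_eq]
    exact neg_mem (S.smul_mem (add_mem (mul_mem (star_mem hTS) hA) (mul_mem (star_mem hA) hTS)) _)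
  -- the approximants
  set g : ℕ → ℝ → ℂ := fun n s => ∑ k ∈ range n, tau ξ (((1 : ℝ) / (k + 1)) • (Y s) ^ (k + 1))
    with hg
  set D : ℝ := 2 * ‖T‖ * (‖T‖ + ‖z‖) with hD
  have hB'norm : ∀ s : ℝ, |s| ≤ 1 → ‖B' s‖ ≤ D := by
    intro s hs
    have h1 := norm_Ap_le (T := T) (z := z) hs
    calc ‖B' s‖ ≤ ‖star T * Ap T z s‖ + ‖star (Ap T z s) * T‖ := norm_add_le _ _
      _ ≤ ‖star T‖ * ‖Ap T z s‖ + ‖star (Ap T z s)‖ * ‖T‖ := by
          gcongr <;> exact norm_mul_le _ _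
      _ ≤ ‖T‖ * (‖T‖ + ‖z‖) + (‖T‖ + ‖z‖) * ‖T‖ := by
          rw [norm_star, norm_star]; gcongr
      _ = D := by rw [hD]; ring
  have hgder : ∀ n : ℕ, ∀ s : ℝ, |s| ≤ 1 → ∃ d : ℂ, HasDerivAt (g n) d s ∧
      ‖d‖ ≤ q ^ n * (Kp T z ^ 2 * D) := by
    intro n s hs
    have hmem := hYS s hs
    have hmem' := hY'S s hs
    have htr' : ∀ i j : ℕ, tau ξ (Y s ^ i * (-(b⁻¹ • B' s)) * Y s ^ j)
        = tau ξ (Y s ^ (i + j) * (-(b⁻¹ • B' s))) := by
      intro i j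
      rw [htr _ (mul_mem (pow_mem hmem i) hmem') _ (pow_mem hmem j), ← mul_assoc, ← pow_add,
        add_comm]
    refine ⟨∑ k ∈ range n, tau ξ (Y s ^ k * (-(b⁻¹ • B' s))), ?_, ?_⟩
    · exact HasDerivAt.fun_sum
        (fun k _ => hasDerivAt_tau_pow ξ Y (-(b⁻¹ • B' s)) s (hYder s) htr' k)
    · obtain ⟨hR, hA, h0⟩ := tau_logderiv S hS hTS htr hT hz hq hs
      set R2 := Rp T z s * star (Rp T z s) with hR2
      have hBR := Bp_inv (T := T) hz hq hs
      rw [← hR2] at hBR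
      have h1 : (∑ k ∈ range n, Y s ^ k) * (b⁻¹ • Bp T z s) = 1 - Y s ^ n := by
        have := geom_sum_mul_neg (Y s) n
        have h2 : 1 - Y s = b⁻¹ • Bp T z s := by simp [hY]
        rwa [h2] at this
      have h2 : (∑ k ∈ range n, Y s ^ k) = (1 - Y s ^ n) * (b • R2) := by
        rw [← h1, mul_assoc, smul_mul_smul_comm, inv_mul_cancel₀ hb0.ne', one_smul, hBR, mul_one]
      have h3 : ∑ k ∈ range n, tau ξ (Y s ^ k * (-(b⁻¹ • B' s)))
          = tau ξ (Y s ^ n * (R2 * B' s)) := by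
        rw [← map_sum, ← Finset.sum_mul, h2]
        have e : (1 - Y s ^ n) * (b • R2) * (-(b⁻¹ • B' s))
            = Y s ^ n * (R2 * B' s) - R2 * B' s := by
          rw [mul_smul_comm, mul_neg, smul_mul_smul_comm, mul_inv_cancel₀ hb0.ne', one_smul]
          noncomm_ring
        rw [e, map_sub]
        have : tau ξ (R2 * B' s) = 0 := h0
        rw [this, sub_zero]
      rw [h3]
      have hYn : ‖Y s ^ n‖ ≤ q ^ n :=
        (norm_pow_le (Y s) n).trans (pow_le_pow_left₀ (norm_nonneg _) (hYnorm s hs) n)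
      have hR2n : ‖R2‖ ≤ Kp T z ^ 2 := by
        rw [hR2, CStarRing.norm_self_mul_star, ← sq]
        have := norm_Rp_le (T := T) (z := z) hq hs
        gcongr
      calc ‖tau ξ (Y s ^ n * (R2 * B' s))‖ ≤ ‖Y s ^ n * (R2 * B' s)‖ := norm_tau_le hξ _
        _ ≤ ‖Y s ^ n‖ * (‖R2‖ * ‖B' s‖) := by
            refine (norm_mul_le _ _).trans ?_
            gcongr
            exact norm_mul_le _ _
        _ ≤ q ^ n * (Kp T z ^ 2 * D) := by
            have := hB'norm s hs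
            gcongr
  have hgdiff : ∀ n : ℕ, ‖g n 1 - g n 0‖ ≤ q ^ n * (Kp T z ^ 2 * D) := by
    intro n
    have hs : ∀ x ∈ Set.Icc (0 : ℝ) 1, |x| ≤ 1 := by
      intro x hx; rw [abs_of_nonneg hx.1]; exact hx.2
    choose! d hd using hgder n
    exact norm_image_sub_le_of_norm_deriv_le_segment_01' (f' := d)
      (fun x hx => (hd x (hs x hx)).1.hasDerivWithinAt)
      (fun x hx => (hd x (hs x (Set.Ico_subset_Icc_self hx))).2)
  -- approximation of the logarithm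
  have happ : ∀ n : ℕ, ∀ s : ℝ, |s| ≤ 1 →
      ‖tau ξ (cfc Real.log (Bp T z s)) - ((Real.log b : ℂ) - g n s)‖ ≤ q ^ (n + 1) / (a / b) := by
    intro n s hs
    have h1 := cfc_log_approx (Bp T z s) (isSelfAdjoint_Bp s) a b ha0 hab (hsp s hs) n
    have h2 := (norm_tau_le hξ _).trans h1
    have h3 : tau ξ (cfc Real.log (Bp T z s) - ((Real.log b) • (1 : H →L[ℂ] H)
      - ∑ k ∈ range n, ((1 : ℝ) / (k + 1)) • (1 - b⁻¹ • (Bp T z s)) ^ (k + 1)))
      = tau ξ (cfc Real.log (Bp T z s)) - ((Real.log b : ℂ) - g n s) := by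
      rw [map_sub, map_sub, map_sum]
      congr 2
      rw [real_smul_eq, map_smul, tau_one hξ, smul_eq_mul, mul_one]
    rwa [h3] at h2
  have h0 : tau ξ (cfc Real.log (Bp T z 0)) = (Real.log (‖z‖ ^ 2) : ℂ) := by
    have e : Bp T z 0 = algebraMap ℝ (H →L[ℂ] H) (‖z‖ ^ 2) := by
      rw [Bp, Ap, zero_smul, zero_sub, star_neg, neg_mul_neg, star_smul, star_one,
        smul_mul_smul_comm, one_mul, Algebra.algebraMap_eq_smul_one]
      have : star z * z = ((‖z‖ ^ 2 : ℝ) : ℂ) := by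
        have := Complex.conj_mul' z
        push_cast
        exact this
      rw [this, real_smul_eq]
    rw [e, cfc_algebraMap, Algebra.algebraMap_eq_smul_one]
    rw [real_smul_eq, map_smul, tau_one hξ, smul_eq_mul, mul_one]
  have hbound : ∀ n : ℕ, ‖tau ξ (cfc Real.log (Bp T z 1)) - (Real.log (‖z‖ ^ 2) : ℂ)‖
      ≤ q ^ n * (Kp T z ^ 2 * D + 2 * (q / (a / b))) := by
    intro n
    have h1 := happ n 1 (by simp)
    have h2 := happ n 0 (by simp)
    rw [h0] at h2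
    have h3 := hgdiff n
    have e : tau ξ (cfc Real.log (Bp T z 1)) - (Real.log (‖z‖ ^ 2) : ℂ)
        = (tau ξ (cfc Real.log (Bp T z 1)) - ((Real.log b : ℂ) - g n 1))
          - ((Real.log (‖z‖ ^ 2) : ℂ) - ((Real.log b : ℂ) - g n 0)) - (g n 1 - g n 0) := by ring
    rw [e]
    refine (norm_sub_le _ _).trans ((add_le_add (norm_sub_le _ _) le_rfl).trans ?_)
    have e2 : q ^ n * (Kp T z ^ 2 * D + 2 * (q / (a / b)))
        = q ^ (n + 1) / (a / b) + q ^ (n + 1) / (a / b) + q ^ n * (Kp T z ^ 2 * D) := by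
      rw [pow_succ]; ring
    rw [e2]
    linarith
  have hlim : Filter.Tendsto (fun n : ℕ => q ^ n * (Kp T z ^ 2 * D + 2 * (q / (a / b))))
      Filter.atTop (nhds (0 * (Kp T z ^ 2 * D + 2 * (q / (a / b))))) :=
    (tendsto_pow_atTop_nhds_zero_of_lt_one hq0 hq1).mul_const _
  rw [zero_mul] at hlim
  have hle : ‖tau ξ (cfc Real.log (Bp T z 1)) - (Real.log (‖z‖ ^ 2) : ℂ)‖ ≤ 0 :=
    ge_of_tendsto' hlim hbound
  exact sub_eq_zero.mp (norm_eq_zero.mp (le_antisymm hle (norm_nonneg _)))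

end Main

section VDet

lemma re_tau_mono (ξ : H) {X Y : H →L[ℂ] H} (h : X ≤ Y) : (tau ξ X).re ≤ (tau ξ Y).re := by
  rw [ContinuousLinearMap.le_def] at h
  have h1 := h.re_inner_nonneg_right ξ
  have h2 : RCLike.re (inner ℂ ξ ((Y - X) ξ)) = (tau ξ Y).re - (tau ξ X).re := by
    rw [tau_apply, tau_apply, ContinuousLinearMap.sub_apply, inner_sub_right]
    simp
  rw [h2] at h1
  linarith

lemma cfc_log_add (B : H →L[ℂ] H) (hB : IsSelfAdjoint B) (hsp : ∀ x ∈ spectrum ℝ B, 0 ≤ x)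
    (ε : ℝ) (hε : 0 < ε) :
    cfc Real.log (B + ((ε : ℝ) : ℂ) • (1 : H →L[ℂ] H)) = cfc (fun x : ℝ => Real.log (x + ε)) B := by
  have h1 : B + ((ε : ℝ) : ℂ) • (1 : H →L[ℂ] H) = cfc (fun x : ℝ => x + ε) B := by
    rw [cfc_add_const ε (fun x => x) B (by fun_prop) hB, cfc_id' ℝ B hB,
      Algebra.algebraMap_eq_smul_one, real_smul_eq]
  rw [h1, ← cfc_comp' Real.log (fun x : ℝ => x + ε) B ?_ (by fun_prop) hB]
  refine Real.continuousOn_log.mono ?_
  rintro _ ⟨x, hx, rfl⟩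
  have := hsp x hx
  simp only [Set.mem_compl_iff, Set.mem_singleton_iff]
  intro h; linarith

theorem vectorDet_sub {T : H →L[ℂ] H} {z : ℂ} {ξ : H} (hξ : ‖ξ‖ = 1)
    (S : StarSubalgebra ℂ (H →L[ℂ] H))
    (hS : IsClosed (S : Set (H →L[ℂ] H)))
    (hTS : T ∈ S) (htr : ∀ X ∈ S, ∀ Y ∈ S, tau ξ (X * Y) = tau ξ (Y * X))
    (hT : ∀ k : ℕ, tau ξ (T ^ (k + 1)) = 0) (hz : z ≠ 0)
    (hq : Summable (fun k : ℕ => ‖z‖⁻¹ ^ k * ‖T ^ k‖)) :
    vectorDet ξ (T - z • (1 : H →L[ℂ] H)) = ‖z‖ := by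
  have hξ0 : ξ ≠ 0 := by intro h; rw [h, norm_zero] at hξ; exact zero_ne_one hξ
  have : Nontrivial H := ⟨ξ, 0, hξ0⟩
  have hK := Kp_pos (T := T) hz hq
  have hzn : 0 < ‖z‖ := norm_pos_iff.mpr hz
  set a : ℝ := (Kp T z ^ 2)⁻¹ with ha
  have ha0 : 0 < a := by positivity
  have hA : T - z • (1 : H →L[ℂ] H) = Ap T z 1 := by rw [Ap, one_smul]
  have hB : star (T - z • (1 : H →L[ℂ] H)) * (T - z • (1 : H →L[ℂ] H)) = Bp T z 1 := by
    rw [hA, Bp]
  have hsp : ∀ x ∈ spectrum ℝ (Bp T z 1), a ≤ x :=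
    fun x hx => (spectrum_Bp hz hq (by simp) x hx).1
  have hlog := tau_log_eq hξ S hS hTS htr hT hz hq
  have hsa := isSelfAdjoint_Bp (T := T) (z := z) 1
  set v : {r : ℝ // 0 < r} → ℝ := fun ε => Real.exp (RCLike.re (inner ℂ ξ
      (cfc Real.log (star (T - z • (1 : H →L[ℂ] H)) * (T - z • (1 : H →L[ℂ] H))
        + ((ε : ℝ) : ℂ) • (1 : H →L[ℂ] H)) ξ)) / 2) with hv
  have hcont1 : ContinuousOn Real.log (spectrum ℝ (Bp T z 1)) := by
    refine Real.continuousOn_log.mono ?_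
    intro x hx
    have := hsp x hx
    simp only [Set.mem_compl_iff, Set.mem_singleton_iff]
    intro h; rw [h] at this; linarith
  have hcont2 : ∀ ε : ℝ, 0 < ε →
      ContinuousOn (fun x : ℝ => Real.log (x + ε)) (spectrum ℝ (Bp T z 1)) := by
    intro ε hε
    refine ContinuousOn.log (by fun_prop) ?_
    intro x hx
    have := hsp x hx
    intro h; linarith
  have hlow : ∀ ε, ‖z‖ ≤ v ε := by
    intro ε
    have h1 : cfc Real.log (Bp T z 1) ≤ cfc (fun x : ℝ => Real.log (x + ε)) (Bp T z 1) := by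
      refine cfc_mono (fun x hx => ?_) hcont1 (hcont2 ε ε.2)
      have := hsp x hx
      exact Real.log_le_log (by linarith) (by linarith [ε.2])
    have h2 := re_tau_mono ξ h1
    rw [hlog, Complex.ofReal_re] at h2
    have h3 : v ε = Real.exp ((tau ξ (cfc (fun x : ℝ => Real.log (x + ε)) (Bp T z 1))).re / 2) := by
      simp only [hv]
      rw [hB, cfc_log_add _ hsa (fun x hx => ha0.le.trans (hsp x hx)) ε ε.2]
      rfl
    rw [h3]
    calc ‖z‖ = Real.exp (Real.log (‖z‖ ^ 2) / 2) := by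
          rw [Real.log_pow]; push_cast
          rw [mul_div_cancel_left₀ _ (by norm_num : (2 : ℝ) ≠ 0), Real.exp_log hzn]
      _ ≤ _ := by gcongr
  have hup : ∀ ε, v ε ≤ Real.exp ((Real.log (‖z‖ ^ 2) + ε / a) / 2) := by
    intro ε
    have h3 : v ε = Real.exp ((tau ξ (cfc (fun x : ℝ => Real.log (x + ε)) (Bp T z 1))).re / 2) := by
      simp only [hv]
      rw [hB, cfc_log_add _ hsa (fun x hx => ha0.le.trans (hsp x hx)) ε ε.2]
      rfl
    rw [h3]
    have h4 : ‖cfc (fun x : ℝ => Real.log (x + ε)) (Bp T z 1) - cfc Real.log (Bp T z 1)‖ ≤ ε / a := by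
      rw [← cfc_sub _ _ _ (hcont2 ε ε.2) hcont1]
      refine norm_cfc_le (by have := ε.2; positivity) ?_
      intro x hx
      have hx1 := hsp x hx
      have hx0 : 0 < x := ha0.trans_le hx1
      have hε := ε.2
      rw [← Real.log_div (by positivity) hx0.ne', Real.norm_eq_abs, abs_of_nonneg]
      · have : (x + ε) / x = 1 + ε / x := by field_simp
        rw [this]
        have h5 := Real.log_le_sub_one_of_pos (x := 1 + (ε : ℝ) / x) (by positivity)
        have h6 : (ε : ℝ) / x ≤ ε / a := by gcongr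
        linarith
      · apply Real.log_nonneg
        rw [le_div_iff₀ hx0]; linarith
    have h5 := (norm_tau_le hξ _).trans h4
    rw [map_sub, hlog] at h5
    have h6 := (Complex.abs_re_le_norm _).trans h5
    rw [Complex.sub_re, Complex.ofReal_re] at h6
    have h7 := (abs_le.mp h6).2
    gcongr
    linarith
  change (⨅ ε, v ε) = ‖z‖
  have hne : Nonempty {r : ℝ // 0 < r} := ⟨⟨1, one_pos⟩⟩
  apply le_antisymm
  · have hbdd : BddBelow (Set.range v) := ⟨‖z‖, by rintro _ ⟨ε, rfl⟩; exact hlow ε⟩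
    have h1 : ∀ ε : ℝ, 0 < ε → (⨅ ε, v ε) ≤ Real.exp ((Real.log (‖z‖ ^ 2) + ε / a) / 2) :=
      fun ε hε => (ciInf_le hbdd ⟨ε, hε⟩).trans (hup ⟨ε, hε⟩)
    have h2 : Filter.Tendsto (fun ε : ℝ => Real.exp ((Real.log (‖z‖ ^ 2) + ε / a) / 2))
        (nhdsWithin 0 (Set.Ioi 0)) (nhds (Real.exp ((Real.log (‖z‖ ^ 2) + 0 / a) / 2))) := by
      apply Filter.Tendsto.mono_left _ nhdsWithin_le_nhds
      have : Continuous (fun ε : ℝ => Real.exp ((Real.log (‖z‖ ^ 2) + ε / a) / 2)) := by fun_prop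
      exact this.tendsto 0
    have h3 : Real.exp ((Real.log (‖z‖ ^ 2) + 0 / a) / 2) = ‖z‖ := by
      rw [zero_div, add_zero, Real.log_pow]; push_cast
      rw [mul_div_cancel_left₀ _ (by norm_num : (2 : ℝ) ≠ 0), Real.exp_log hzn]
    rw [h3] at h2
    exact ge_of_tendsto h2 (eventually_nhdsWithin_of_forall fun ε hε => h1 ε hε)
  · exact le_ciInf hlow

theorem vectorDet_zero {T : H →L[ℂ] H} {ξ : H} (hξ : ‖ξ‖ = 1) (hTn : ‖T‖ ≤ 1) (m : ℕ → ℝ)
    (hm : ∀ k : ℕ, tau ξ ((1 - star T * T) ^ k) = (m k : ℂ))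
    (hdiv : ∀ M : ℝ, ∃ n : ℕ, M ≤ ∑ k ∈ range n, m (k + 1) / (k + 1)) :
    vectorDet ξ T = 0 := by
  have hξ0 : ξ ≠ 0 := by intro h; rw [h, norm_zero] at hξ; exact zero_ne_one hξ
  have : Nontrivial H := ⟨ξ, 0, hξ0⟩
  set C : H →L[ℂ] H := star T * T with hC
  have hCsa : IsSelfAdjoint C := IsSelfAdjoint.star_mul_self _
  have hsp : ∀ x ∈ spectrum ℝ C, 0 ≤ x ∧ x ≤ 1 := by
    intro x hx
    have hx0 : 0 ≤ x := spectrum_nonneg_of_nonneg (star_mul_self_nonneg _) hx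
    refine ⟨hx0, ?_⟩
    have h1 := spectrum.norm_le_norm_of_mem hx
    rw [Real.norm_eq_abs, abs_of_nonneg hx0] at h1
    refine h1.trans ?_
    rw [hC, CStarRing.norm_star_mul_self]
    nlinarith [norm_nonneg T]
  set v : {r : ℝ // 0 < r} → ℝ := fun ε => Real.exp (RCLike.re (inner ℂ ξ
      (cfc Real.log (star T * T + ((ε : ℝ) : ℂ) • (1 : H →L[ℂ] H)) ξ)) / 2) with hv
  have hup : ∀ ε : {r : ℝ // 0 < r}, ∀ n : ℕ, v ε ≤ Real.exp ((Real.log (1 + ε)
      - ∑ k ∈ range n, (1 / ((k : ℝ) + 1)) * ((1 + (ε : ℝ))⁻¹) ^ (k + 1) * m (k + 1)) / 2) := by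
    intro ε n
    have hε := ε.2
    set e : ℝ := (1 + (ε : ℝ))⁻¹ with he
    have he0 : 0 < e := by positivity
    have he1 : e < 1 := by rw [he]; exact inv_lt_one_of_one_lt₀ (by linarith)
    set p : ℝ[X] := Polynomial.C (Real.log (1 + ε))
      - ∑ k ∈ range n, Polynomial.C ((1 / ((k : ℝ) + 1)) * e ^ (k + 1)) * (1 - X) ^ (k + 1) with hp
    have h1 : cfc p.eval C = (Real.log (1 + ε)) • (1 : H →L[ℂ] H)
        - ∑ k ∈ range n, ((1 / ((k : ℝ) + 1)) * e ^ (k + 1)) • (1 - C) ^ (k + 1) := by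
      rw [cfc_polynomial p C]
      simp only [hp, map_sub, map_sum, map_mul, map_pow, map_one, aeval_C, aeval_X,
        Algebra.algebraMap_eq_smul_one, smul_mul_assoc, one_mul]
      simp only [smul_smul, _root_.smul_pow, one_pow, smul_mul_assoc, one_mul]
    have h2 : cfc (fun x : ℝ => Real.log (x + ε)) C ≤ cfc p.eval C := by
      refine cfc_mono (fun x hx => ?_) ?_ p.continuous.continuousOn
      · obtain ⟨hx0, hx1⟩ := hsp x hx
        set y : ℝ := e * (1 - x) with hy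
        have hy0 : 0 ≤ y := mul_nonneg he0.le (by linarith)
        have hy1 : y < 1 := by
          calc y ≤ e * 1 := by rw [hy]; gcongr; linarith
            _ < 1 := by linarith
        have h3 := Real.hasSum_pow_div_log_of_abs_lt_one (x := y)
          (by rw [abs_of_nonneg hy0]; exact hy1)
        have h4 : ∑ k ∈ range n, y ^ (k + 1) / (k + 1) ≤ -Real.log (1 - y) :=
          sum_le_hasSum _ (fun i _ => by positivity) h3
        have h5 : x + ε = (1 + ε) * (1 - y) := by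
          rw [hy, he]; field_simp; ring
        have h6 : Real.log (x + ε) = Real.log (1 + ε) + Real.log (1 - y) := by
          rw [h5, Real.log_mul (by positivity) (by linarith)]
        have h7 : p.eval x = Real.log (1 + ε) - ∑ k ∈ range n, y ^ (k + 1) / (k + 1) := by
          simp only [hp, eval_sub, eval_finsetSum, eval_mul, eval_pow, eval_one, eval_C, eval_X]
          congr 1
          refine Finset.sum_congr rfl fun i _ => ?_
          rw [hy, _root_.mul_pow]; ring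
        rw [h6, h7]; linarith
      · refine ContinuousOn.log (by fun_prop) ?_
        intro x hx
        have := (hsp x hx).1
        intro h; linarith
    have h3 : v ε = Real.exp ((tau ξ (cfc (fun x : ℝ => Real.log (x + ε)) C)).re / 2) := by
      simp only [hv]
      rw [← hC, cfc_log_add _ hCsa (fun x hx => (hsp x hx).1) ε ε.2]
      rfl
    have h4 := re_tau_mono ξ h2
    rw [h3]
    have h5 : (tau ξ (cfc p.eval C)).re = Real.log (1 + ε)
      - ∑ k ∈ range n, (1 / ((k : ℝ) + 1)) * e ^ (k + 1) * m (k + 1) := by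
      rw [h1, map_sub, map_sum, real_smul_eq, map_smul, tau_one hξ, Complex.sub_re, smul_eq_mul,
        mul_one, Complex.ofReal_re]
      congr 1
      rw [Complex.re_sum]
      refine Finset.sum_congr rfl fun k _ => ?_
      rw [real_smul_eq, map_smul, hm, smul_eq_mul, ← Complex.ofReal_mul, Complex.ofReal_re]
    rw [h5] at h4
    gcongr
  change (⨅ ε, v ε) = 0
  have hne : Nonempty {r : ℝ // 0 < r} := ⟨⟨1, one_pos⟩⟩
  have hpos : ∀ ε, 0 ≤ v ε := fun ε => (Real.exp_pos _).le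
  apply le_antisymm
  · have hbdd : BddBelow (Set.range v) := ⟨0, by rintro _ ⟨ε, rfl⟩; exact hpos ε⟩
    refine le_of_forall_pos_le_add fun δ hδ => ?_
    rw [zero_add]
    obtain ⟨n, hn⟩ := hdiv (-2 * Real.log δ)
    have h1 : ∀ ε : ℝ, 0 < ε → (⨅ ε, v ε) ≤ Real.exp ((Real.log (1 + ε)
      - ∑ k ∈ range n, (1 / ((k : ℝ) + 1)) * ((1 + (ε : ℝ))⁻¹) ^ (k + 1) * m (k + 1)) / 2) :=
      fun ε hε => (ciInf_le hbdd ⟨ε, hε⟩).trans (hup ⟨ε, hε⟩ n)
    have h2 : Filter.Tendsto (fun ε : ℝ => Real.exp ((Real.log (1 + ε)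
      - ∑ k ∈ range n, (1 / ((k : ℝ) + 1)) * ((1 + (ε : ℝ))⁻¹) ^ (k + 1) * m (k + 1)) / 2))
        (nhdsWithin 0 (Set.Ioi 0)) (nhds (Real.exp ((Real.log (1 + 0)
      - ∑ k ∈ range n, (1 / ((k : ℝ) + 1)) * ((1 + (0 : ℝ))⁻¹) ^ (k + 1) * m (k + 1)) / 2))) := by
      apply Filter.Tendsto.mono_left _ nhdsWithin_le_nhds
      have : ContinuousAt (fun ε : ℝ => Real.exp ((Real.log (1 + ε)
        - ∑ k ∈ range n, (1 / ((k : ℝ) + 1)) * ((1 + (ε : ℝ))⁻¹) ^ (k + 1) * m (k + 1)) / 2)) 0 := by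
        have hc1 : ContinuousAt (fun ε : ℝ => Real.log (1 + ε)) 0 :=
          ContinuousAt.log (by fun_prop) (by norm_num)
        have hc2 : ContinuousAt (fun ε : ℝ => (1 + (ε : ℝ))⁻¹) 0 :=
          ContinuousAt.inv₀ (by fun_prop) (by norm_num)
        have hc3 : ContinuousAt (fun ε : ℝ => ∑ k ∈ range n,
            (1 / ((k : ℝ) + 1)) * ((1 + (ε : ℝ))⁻¹) ^ (k + 1) * m (k + 1)) 0 := by
          apply tendsto_finsetSum
          intro k _
          exact ((tendsto_const_nhds.mul (hc2.pow (k + 1))).mul tendsto_const_nhds)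
        exact ((hc1.sub hc3).div_const 2).rexp
      exact this
    have h3 : Real.exp ((Real.log (1 + 0)
      - ∑ k ∈ range n, (1 / ((k : ℝ) + 1)) * ((1 + (0 : ℝ))⁻¹) ^ (k + 1) * m (k + 1)) / 2) ≤ δ := by
      have h4 : ∑ k ∈ range n, (1 / ((k : ℝ) + 1)) * ((1 + (0 : ℝ))⁻¹) ^ (k + 1) * m (k + 1)
          = ∑ k ∈ range n, m (k + 1) / (k + 1) := by
        refine Finset.sum_congr rfl fun k _ => ?_
        rw [add_zero, inv_one, one_pow]; ring
      rw [h4, add_zero, Real.log_one]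
      calc Real.exp ((0 - ∑ k ∈ range n, m (k + 1) / (k + 1)) / 2)
          ≤ Real.exp (Real.log δ) := by gcongr; linarith
        _ = δ := Real.exp_log hδ
    exact (ge_of_tendsto h2 (eventually_nhdsWithin_of_forall fun ε hε => h1 ε hε)).trans h3
  · exact le_ciInf hpos

end VDet

end Crest.Agent.R113.Det
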