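import Mathlib
import Crest.Prelude.Def_ProductShift

/-!
# Row 113, S0151: measure theory of the product rotation (owner helper899)

Weighted composition operators on `L²`, invariance of the cube measure, measurability.
-/

set_option autoImplicit false

open MeasureTheory Filter Topology
open scoped ENNReal

namespace Crest.Agent.R113.Det

open Crest.AnalysisR.ProductShift

/-- weighted composition operators -/
theorem exists_wcomp {Ω : Type*} [MeasurableSpace Ω] {μ : Measure Ω} (φ : Ω → Ω)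
    (hφ : MeasurePreserving φ μ μ) (m : Ω → ℂ) (hm : Measurable m) (C : ℝ)
    (hC : ∀ p, ‖m p‖ ≤ C) (hC0 : 0 ≤ C) :
    ∃ W : Lp ℂ 2 μ →L[ℂ] Lp ℂ 2 μ,
      (∀ g : Lp ℂ 2 μ, (W g : Ω → ℂ) =ᵐ[μ] fun p => m p * (g : Ω → ℂ) (φ p)) ∧ ‖W‖ ≤ C := by
  have hmem : ∀ g : Lp ℂ 2 μ,
      MemLp (fun p => m p * (Lp.compMeasurePreserving φ hφ g : Ω → ℂ) p) 2 μ := by
    intro g
    refine MemLp.of_le_mul (c := C) (Lp.memLp (Lp.compMeasurePreserving φ hφ g))
      (hm.aestronglyMeasurable.mul (Lp.aestronglyMeasurable _)) (Eventually.of_forall fun p => ?_)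
    rw [norm_mul]
    exact mul_le_mul_of_nonneg_right (hC p) (norm_nonneg _)
  have hae : ∀ g : Lp ℂ 2 μ, ((hmem g).toLp _ : Ω → ℂ) =ᵐ[μ] fun p => m p * (g : Ω → ℂ) (φ p) := by
    intro g
    filter_upwards [(hmem g).coeFn_toLp, Lp.coeFn_compMeasurePreserving g hφ] with p h1 h2
    rw [h1, h2]
    rfl
  have hpull : ∀ {f g : Ω → ℂ}, f =ᵐ[μ] g → (fun p => f (φ p)) =ᵐ[μ] fun p => g (φ p) := by
    intro f g h
    exact hφ.quasiMeasurePreserving.ae_eq_comp h
  let L : Lp ℂ 2 μ →ₗ[ℂ] Lp ℂ 2 μ :=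
    { toFun := fun g => (hmem g).toLp _
      map_add' := by
        intro f g
        refine Lp.ext ?_
        filter_upwards [hae (f + g), hae f, hae g, Lp.coeFn_add ((hmem f).toLp _) ((hmem g).toLp _),
          hpull (Lp.coeFn_add f g)] with p h1 h2 h3 h4 h5
        rw [h1, h4, Pi.add_apply, h2, h3, h5, Pi.add_apply, mul_add]
      map_smul' := by
        intro c f
        refine Lp.ext ?_
        filter_upwards [hae (c • f), hae f, Lp.coeFn_smul c ((hmem f).toLp _),
          hpull (Lp.coeFn_smul c f)] with p h1 h2 h4 h5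
        rw [RingHom.id_apply, h1, h4, Pi.smul_apply, h2, h5, Pi.smul_apply, smul_eq_mul, smul_eq_mul]
        ring }
  have hb : ∀ g : Lp ℂ 2 μ, ‖L g‖ ≤ C * ‖g‖ := by
    intro g
    rw [← Lp.norm_compMeasurePreserving g hφ]
    refine Lp.norm_le_mul_norm_of_ae_le_mul ?_
    filter_upwards [(hmem g).coeFn_toLp] with p h1
    change ‖((hmem g).toLp _ : Ω → ℂ) p‖ ≤ _
    rw [h1, norm_mul]
    exact mul_le_mul_of_nonneg_right (hC p) (norm_nonneg _)
  refine ⟨L.mkContinuous C hb, fun g => ?_, L.mkContinuous_norm_le hC0 hb⟩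
  exact hae g

/-! ### rotations -/

theorem measurePreserving_fract (a : ℝ) :
    MeasurePreserving (fun x : ℝ => Int.fract (x + a)) unitLebesgue unitLebesgue := by
  have hmeas : Measurable (fun x : ℝ => Int.fract (x + a)) :=
    measurable_fract.comp (measurable_id.add_const a)
  refine ⟨hmeas, ?_⟩
  ext E hE
  rw [Measure.map_apply hmeas hE]
  unfold unitLebesgue
  have hB : MeasurableSet (Int.fract ⁻¹' E : Set ℝ) := measurable_fract hE
  rw [restrict_Ico_eq_restrict_Ioc, Measure.restrict_apply (hmeas hE)]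
  have e1 : ((fun x : ℝ => Int.fract (x + a)) ⁻¹' E) ∩ Set.Ioc 0 1 =
      (fun x : ℝ => x + a) ⁻¹' ((Int.fract ⁻¹' E) ∩ Set.Ioc a (a + 1)) := by
    ext x
    simp only [Set.mem_inter_iff, Set.mem_preimage, Set.mem_Ioc]
    constructor
    · rintro ⟨h1, h2, h3⟩
      exact ⟨h1, by linarith, by linarith⟩
    · rintro ⟨h1, h2, h3⟩
      exact ⟨h1, by linarith, by linarith⟩
  rw [e1, (measurePreserving_add_right volume a).measure_preimage
    (hB.inter measurableSet_Ioc).nullMeasurableSet]
  have h1 := (isAddFundamentalDomain_Ioc (T := 1) one_pos a volume).measure_set_eq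
    (isAddFundamentalDomain_Ioc (T := 1) one_pos 0 volume) hB (by
      rintro ⟨g, hg⟩
      rw [AddSubgroup.mem_zmultiples_iff] at hg
      obtain ⟨k, hk⟩ := hg
      ext x
      simp only [Set.mem_preimage]
      have : (⟨g, AddSubgroup.mem_zmultiples_iff.2 ⟨k, hk⟩⟩ : AddSubgroup.zmultiples (1 : ℝ)) +ᵥ x
          = x + (k : ℝ) := by
        change g + x = x + (k : ℝ)
        rw [← hk]; simp [add_comm]
      rw [this, Int.fract_add_intCast])
  rw [h1, zero_add]
  -- restrict to `Ico`
  rw [← Measure.restrict_apply hB, ← restrict_Ico_eq_restrict_Ioc, Measure.restrict_apply hB,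
    Measure.restrict_apply hE]
  congr 1
  ext x
  simp only [Set.mem_inter_iff, Set.mem_preimage, Set.mem_Ico]
  constructor
  · rintro ⟨h1, h2, h3⟩
    rw [Int.fract_eq_self.2 ⟨h2, h3⟩] at h1
    exact ⟨h1, h2, h3⟩
  · rintro ⟨h1, h2, h3⟩
    rw [Int.fract_eq_self.2 ⟨h2, h3⟩]
    exact ⟨h1, h2, h3⟩

theorem measurePreserving_orbit (θ : ℕ → ℝ) (k : ℤ) :
    MeasurePreserving (orbitPoint θ k) cubeMeasure cubeMeasure := by
  have hmeas : Measurable (orbitPoint θ k) := by
    unfold orbitPoint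
    refine measurable_pi_iff.2 fun i => ?_
    exact measurable_fract.comp ((measurable_pi_apply i).add_const _)
  refine ⟨hmeas, ?_⟩
  unfold cubeMeasure
  refine Measure.eq_infinitePi _ fun s t ht => ?_
  rw [Measure.map_apply hmeas (MeasurableSet.pi s.countable_toSet fun i _ => ht i)]
  have e1 : orbitPoint θ k ⁻¹' (Set.pi s t) =
      Set.pi s fun i => (fun x : ℝ => Int.fract (x + (k : ℝ) * θ i)) ⁻¹' (t i) := by
    ext x
    simp only [Set.mem_preimage, Set.mem_pi, orbitPoint]
  rw [e1, Measure.infinitePi_pi]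
  · refine Finset.prod_congr rfl fun i _ => ?_
    exact (measurePreserving_fract ((k : ℝ) * θ i)).measure_preimage (ht i).nullMeasurableSet
  · intro i _
    exact (measurePreserving_fract ((k : ℝ) * θ i)).measurable (ht i)

theorem measurePreserving_pair (θ : ℕ → ℝ) (a b : ℤ) :
    MeasurePreserving (fun p : (ℕ → ℝ) × ℤ => (orbitPoint θ a p.1, p.2 + b)) pairMeasure
      pairMeasure := by
  unfold pairMeasure
  have h2 : MeasurePreserving (fun k : ℤ => k + b) Measure.count Measure.count :=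
    measurePreserving_add_right Measure.count b
  exact (measurePreserving_orbit θ a).prod h2

theorem ae_unit : ∀ᵐ x ∂cubeMeasure, ∀ i, 0 ≤ x i ∧ x i < 1 := by
  rw [ae_all_iff]
  intro i
  have h1 : ∀ᵐ y ∂unitLebesgue, 0 ≤ y ∧ y < 1 := by
    unfold unitLebesgue
    filter_upwards [ae_restrict_mem measurableSet_Ico] with y hy
    exact hy
  have h2 : MeasurePreserving (Function.eval i) cubeMeasure unitLebesgue :=
    measurePreserving_eval_infinitePi (fun _ : ℕ => unitLebesgue) i
  exact h2.quasiMeasurePreserving.ae h1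

theorem measurable_dropCost (θ c : ℕ → ℝ) : Measurable (dropCost θ c) := by
  unfold dropCost
  refine Measurable.tsum fun i => ?_
  refine ENNReal.measurable_ofReal.comp (Measurable.const_mul ?_ _)
  exact (measurable_from_top (f := fun n : ℤ => (n : ℝ))).comp
    (Int.measurable_floor.comp ((measurable_pi_apply i).add_const _))

theorem measurable_weight (θ c : ℕ → ℝ) : Measurable (weight θ c) := by
  unfold weight
  refine Measurable.ite ((measurable_dropCost θ c) (measurableSet_singleton _)) measurable_const ?_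
  exact Real.measurable_exp.comp (measurable_dropCost θ c).ennreal_toReal.neg

theorem lintegral_floor (θ : ℕ → ℝ) (hθ : ∀ i, 0 < θ i ∧ θ i < 1) (c : ℝ) (hc : 0 ≤ c) (i : ℕ) :
    ∫⁻ x, ENNReal.ofReal (c * (⌊x i + θ i⌋ : ℝ)) ∂cubeMeasure = ENNReal.ofReal (c * θ i) := by
  have h2 : MeasurePreserving (Function.eval i) cubeMeasure unitLebesgue :=
    measurePreserving_eval_infinitePi (fun _ : ℕ => unitLebesgue) i
  have hm : Measurable fun y : ℝ => ENNReal.ofReal (c * (⌊y + θ i⌋ : ℝ)) := by
    refine ENNReal.measurable_ofReal.comp (Measurable.const_mul ?_ _)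
    exact (measurable_from_top (f := fun n : ℤ => (n : ℝ))).comp
      (Int.measurable_floor.comp (measurable_id.add_const _))
  have h3 : ∫⁻ x, ENNReal.ofReal (c * (⌊x i + θ i⌋ : ℝ)) ∂cubeMeasure =
      ∫⁻ y, ENNReal.ofReal (c * (⌊y + θ i⌋ : ℝ)) ∂unitLebesgue := by
    rw [← h2.map_eq, lintegral_map hm h2.measurable]
  rw [h3]
  unfold unitLebesgue
  obtain ⟨h4, h5⟩ := hθ i
  have h6 : ∫⁻ y in Set.Ico (0 : ℝ) 1, ENNReal.ofReal (c * (⌊y + θ i⌋ : ℝ)) =
      ∫⁻ y in Set.Ico (0 : ℝ) 1, (Set.Ico (1 - θ i) 1).indicator (fun _ => ENNReal.ofReal c) y := by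
    refine setLIntegral_congr_fun measurableSet_Ico fun y hy => ?_
    simp only [Set.mem_Ico] at hy
    by_cases h : 1 - θ i ≤ y
    · rw [Set.indicator_of_mem (by simp [h, hy.2])]
      have : ⌊y + θ i⌋ = 1 := by
        rw [Int.floor_eq_iff]; push_cast; constructor <;> linarith
      rw [this]; simp
    · rw [Set.indicator_of_notMem (by simp [h])]
      push Not at h
      have : ⌊y + θ i⌋ = 0 := by
        rw [Int.floor_eq_iff]; push_cast; constructor <;> linarith
      rw [this]; simp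
  rw [h6, lintegral_indicator measurableSet_Ico, lintegral_const,
    Measure.restrict_restrict measurableSet_Ico, Measure.restrict_apply MeasurableSet.univ]
  have h7 : Set.univ ∩ (Set.Ico (1 - θ i) 1 ∩ Set.Ico (0 : ℝ) 1) = Set.Ico (1 - θ i) 1 := by
    rw [Set.univ_inter, Set.inter_eq_left]
    exact Set.Ico_subset_Ico_left (by linarith)
  rw [h7, Real.volume_Ico, ← ENNReal.ofReal_mul hc]
  congr 1
  ring

end Crest.Agent.R113.Det
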