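import Mathlib
import Crest.Prelude.Def_ProductShift
import Crest.Agent.R113.DetAbs
import Crest.Agent.R113.DetMeas

/-! Row 113, S0151: the weighted shift over the infinite torus rotation. -/

set_option autoImplicit false

namespace Crest.Agent.R113.Det

open Crest.AnalysisR.ProductShift MeasureTheory
open scoped ENNReal

section RepSec

variable {Ω : Type*} [MeasurableSpace Ω] {μ : Measure Ω}

/-- `X` is the weighted composition operator `g ↦ a · (g ∘ φ)` -/
def Rep (a : Ω → ℂ) (φ : Ω → Ω) (X : Lp ℂ 2 μ →L[ℂ] Lp ℂ 2 μ) : Prop :=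
  ∀ g : Lp ℂ 2 μ, (X g : Ω → ℂ) =ᵐ[μ] fun p => a p * (g : Ω → ℂ) (φ p)

lemma Rep.ext {a b : Ω → ℂ} {φ ψ : Ω → Ω} {X Y : Lp ℂ 2 μ →L[ℂ] Lp ℂ 2 μ}
    (hX : Rep a φ X) (hY : Rep b ψ Y) (hab : ∀ᵐ p ∂μ, a p = b p) (hφψ : ∀ᵐ p ∂μ, φ p = ψ p) :
    X = Y := by
  ext1 g
  apply Lp.ext
  filter_upwards [hX g, hY g, hab, hφψ] with p h1 h2 h3 h4
  rw [h1, h2, h3, h4]

lemma Rep.congr {a b : Ω → ℂ} {φ ψ : Ω → Ω} {X : Lp ℂ 2 μ →L[ℂ] Lp ℂ 2 μ}
    (hX : Rep a φ X) (hab : ∀ p, a p = b p) (hφψ : ∀ p, φ p = ψ p) : Rep b ψ X := by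
  have h1 : a = b := funext hab
  have h2 : φ = ψ := funext hφψ
  rw [← h1, ← h2]; exact hX

lemma Rep.mul {a b : Ω → ℂ} {φ ψ : Ω → Ω} {X Y : Lp ℂ 2 μ →L[ℂ] Lp ℂ 2 μ}
    (hX : Rep a φ X) (hY : Rep b ψ Y) (hφ : MeasurePreserving φ μ μ) :
    Rep (fun p => a p * b (φ p)) (fun p => ψ (φ p)) (X * Y) := by
  intro g
  have h1 := hX (Y g)
  have h2 := hφ.quasiMeasurePreserving.ae (hY g)
  filter_upwards [h1, h2] with p h1 h2
  have h3 : (X * Y) g = X (Y g) := rfl
  rw [h3, h1, h2, mul_assoc]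

lemma Rep.one : Rep (fun _ => (1 : ℂ)) (fun p => p) (1 : Lp ℂ 2 μ →L[ℂ] Lp ℂ 2 μ) := by
  intro g
  filter_upwards with p
  simp

lemma Rep.sub {a b : Ω → ℂ} {φ : Ω → Ω} {X Y : Lp ℂ 2 μ →L[ℂ] Lp ℂ 2 μ}
    (hX : Rep a φ X) (hY : Rep b φ Y) : Rep (fun p => a p - b p) φ (X - Y) := by
  intro g
  filter_upwards [hX g, hY g, Lp.coeFn_sub (X g) (Y g)] with p h1 h2 h3
  have : (X - Y) g = X g - Y g := rfl
  rw [this, h3, Pi.sub_apply, h1, h2]; ring

lemma Rep.norm_le {a : Ω → ℂ} {φ : Ω → Ω} {X : Lp ℂ 2 μ →L[ℂ] Lp ℂ 2 μ}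
    (hX : Rep a φ X) (hφ : MeasurePreserving φ μ μ) (ha : Measurable a) {C : ℝ} (hC0 : 0 ≤ C)
    (hC : ∀ p, ‖a p‖ ≤ C) : ‖X‖ ≤ C := by
  obtain ⟨W, hW, hWn⟩ := exists_wcomp φ hφ a ha C hC hC0
  have : X = W := hX.ext hW (ae_of_all _ fun _ => rfl) (ae_of_all _ fun _ => rfl)
  rw [this]; exact hWn

lemma Rep.adj {a : Ω → ℂ} {φ φ' : Ω → Ω} {X : Lp ℂ 2 μ →L[ℂ] Lp ℂ 2 μ}
    (hX : Rep a φ X) (hφ : MeasurePreserving φ μ μ) (hφ' : MeasurePreserving φ' μ μ)
    (h : ∀ᵐ p ∂μ, φ' (φ p) = p)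
    (ha : Measurable a) {C : ℝ} (hC0 : 0 ≤ C) (hC : ∀ p, ‖a p‖ ≤ C) :
    Rep (fun p => (starRingEnd ℂ) (a (φ' p))) φ' (star X) := by
  obtain ⟨X', hX', -⟩ := exists_wcomp φ' hφ' (fun p => (starRingEnd ℂ) (a (φ' p)))
    (Complex.continuous_conj.measurable.comp (ha.comp hφ'.measurable)) C
    (fun p => by rw [RCLike.norm_conj]; exact hC _) hC0
  have key : X' = ContinuousLinearMap.adjoint X := by
    rw [ContinuousLinearMap.eq_adjoint_iff]
    intro x y
    rw [L2.inner_def, L2.inner_def]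
    have hF : AEStronglyMeasurable
        (fun p => inner ℂ ((X' x : Ω → ℂ) p) ((y : Ω → ℂ) p)) (Measure.map φ μ) := by
      rw [hφ.map_eq]
      exact (Lp.aestronglyMeasurable _).inner (Lp.aestronglyMeasurable _)
    have h1 : ∫ p, inner ℂ ((X' x : Ω → ℂ) p) ((y : Ω → ℂ) p) ∂μ
        = ∫ p, inner ℂ ((X' x : Ω → ℂ) (φ p)) ((y : Ω → ℂ) (φ p)) ∂μ := by
      have := integral_map hφ.measurable.aemeasurable hF
      rwa [hφ.map_eq] at this
    rw [h1]
    apply integral_congr_ae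
    have h2 := hφ.quasiMeasurePreserving.ae (hX' x)
    filter_upwards [h2, hX y, h] with p h2 h3 h4
    rw [h2, h3, h4]
    simp only [RCLike.inner_apply, map_mul, Complex.conj_conj]
    ring
  have : star X = X' := by rw [ContinuousLinearMap.star_eq_adjoint, key]
  rw [this]
  exact hX'

end RepSec

section Model

variable (θ c : ℕ → ℝ)

/-- the weight along the orbit -/
noncomputable def Wt (k : ℤ) (x : ℕ → ℝ) : ℝ := weight θ c (orbitPoint θ k x)

lemma orbit_orbit (k l : ℤ) (x : ℕ → ℝ) :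
    orbitPoint θ k (orbitPoint θ l x) = orbitPoint θ (k + l) x := by
  funext i
  simp only [orbitPoint]
  have h : Int.fract (x i + (l : ℝ) * θ i) + (k : ℝ) * θ i
      = x i + ((k + l : ℤ) : ℝ) * θ i - (⌊x i + (l : ℝ) * θ i⌋ : ℝ) := by
    rw [Int.fract]; push_cast; ring
  rw [h, Int.fract_sub_intCast]

lemma Wt_orbit (k l : ℤ) (x : ℕ → ℝ) : Wt θ c k (orbitPoint θ l x) = Wt θ c (k + l) x := by
  rw [Wt, Wt, orbit_orbit]

lemma weight_nonneg (x : ℕ → ℝ) : 0 ≤ weight θ c x := by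
  rw [weight]; split_ifs
  · exact le_rfl
  · exact (Real.exp_pos _).le

lemma weight_le_one (x : ℕ → ℝ) : weight θ c x ≤ 1 := by
  rw [weight]; split_ifs
  · exact zero_le_one
  · rw [Real.exp_le_one_iff]
    have := ENNReal.toReal_nonneg (a := dropCost θ c x)
    linarith

lemma Wt_nonneg (k : ℤ) (x : ℕ → ℝ) : 0 ≤ Wt θ c k x := weight_nonneg θ c _

lemma Wt_le_one (k : ℤ) (x : ℕ → ℝ) : Wt θ c k x ≤ 1 := weight_le_one θ c _

lemma measurable_Wt (k : ℤ) : Measurable (Wt θ c k) :=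
  (measurable_weight θ c).comp (measurePreserving_orbit θ k).measurable

lemma measurable_Wt_pair (j : ℤ) :
    Measurable (fun p : (ℕ → ℝ) × ℤ => Wt θ c (p.2 + j) p.1) :=
  measurable_from_prod_countable_left (fun k => measurable_Wt θ c (k + j))

lemma mp_shift (b : ℤ) :
    MeasurePreserving (fun p : (ℕ → ℝ) × ℤ => (p.1, p.2 + b)) pairMeasure pairMeasure := by
  have h := (MeasurePreserving.id cubeMeasure).prod
    (measurePreserving_add_right (Measure.count : Measure ℤ) b)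
  exact h

/-- growth of the costs -/
lemma Wt_le (hθ : ∀ i, 0 < θ i ∧ θ i < 1) (hc : ∀ i, 0 ≤ c i) (N : ℕ) (l : ℤ) (x : ℕ → ℝ) :
    Wt θ c l x ≤ Real.exp (-∑ i ∈ Finset.range N,
      c i * ((⌊x i + ((l + 1 : ℤ) : ℝ) * θ i⌋ : ℝ) - (⌊x i + (l : ℝ) * θ i⌋ : ℝ))) := by
  have hfl : ∀ i, (⌊orbitPoint θ l x i + θ i⌋ : ℝ)
      = (⌊x i + ((l + 1 : ℤ) : ℝ) * θ i⌋ : ℝ) - (⌊x i + (l : ℝ) * θ i⌋ : ℝ) := by
    intro i
    have h : orbitPoint θ l x i + θ i
        = x i + ((l + 1 : ℤ) : ℝ) * θ i - (⌊x i + (l : ℝ) * θ i⌋ : ℝ) := by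
      rw [orbitPoint, Int.fract]; push_cast; ring
    rw [h, Int.floor_sub_intCast]
    push_cast
    ring
  have hnn : ∀ i, 0 ≤ c i * (⌊orbitPoint θ l x i + θ i⌋ : ℝ) := by
    intro i
    have h1 : 0 ≤ orbitPoint θ l x i + θ i := by
      have := Int.fract_nonneg (x i + (l : ℝ) * θ i)
      have := (hθ i).1
      rw [orbitPoint]; linarith
    have h2 : (0 : ℝ) ≤ (⌊orbitPoint θ l x i + θ i⌋ : ℝ) := by
      exact_mod_cast Int.floor_nonneg.mpr h1
    exact mul_nonneg (hc i) h2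
  rw [Wt, weight]
  split_ifs with htop
  · exact (Real.exp_pos _).le
  · apply Real.exp_le_exp.mpr
    have h1 : ∑ i ∈ Finset.range N, ENNReal.ofReal (c i * (⌊orbitPoint θ l x i + θ i⌋ : ℝ))
        ≤ dropCost θ c (orbitPoint θ l x) := ENNReal.sum_le_tsum _
    have h2 := ENNReal.toReal_mono htop h1
    rw [← ENNReal.ofReal_sum_of_nonneg (fun i _ => hnn i),
      ENNReal.toReal_ofReal (Finset.sum_nonneg fun i _ => hnn i)] at h2
    have h3 : ∑ i ∈ Finset.range N, c i * (⌊orbitPoint θ l x i + θ i⌋ : ℝ)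
        = ∑ i ∈ Finset.range N,
      c i * ((⌊x i + ((l + 1 : ℤ) : ℝ) * θ i⌋ : ℝ) - (⌊x i + (l : ℝ) * θ i⌋ : ℝ)) :=
      Finset.sum_congr rfl fun i _ => by rw [hfl]
    rw [h3] at h2
    linarith

/-- weight of `T ^ n` -/
noncomputable def An : ℕ → (ℕ → ℝ) × ℤ → ℝ
  | 0, _ => 1
  | n + 1, p => An n p * Wt θ c (p.2 + (-(n : ℤ) - 1)) p.1

lemma An_nonneg (n : ℕ) (p : (ℕ → ℝ) × ℤ) : 0 ≤ An θ c n p := by
  induction n with
  | zero => simp [An]
  | succ n ih => rw [An]; exact mul_nonneg ih (Wt_nonneg θ c _ _)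

lemma measurable_An (n : ℕ) : Measurable (An θ c n) := by
  induction n with
  | zero => exact measurable_const
  | succ n ih => exact ih.mul (measurable_Wt_pair θ c _)

lemma An_le (hθ : ∀ i, 0 < θ i ∧ θ i < 1) (hc : ∀ i, 0 ≤ c i) (N n : ℕ) (p : (ℕ → ℝ) × ℤ) :
    An θ c n p ≤ Real.exp (-∑ i ∈ Finset.range N,
      c i * ((⌊p.1 i + (p.2 : ℝ) * θ i⌋ : ℝ)
        - (⌊p.1 i + ((p.2 - n : ℤ) : ℝ) * θ i⌋ : ℝ))) := by
  induction n with
  | zero => simp [An]
  | succ n ih =>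
    rw [An]
    have h := Wt_le θ c hθ hc N (p.2 + (-(n : ℤ) - 1)) p.1
    have e : p.2 + (-(n : ℤ) - 1) + 1 = p.2 - n := by ring
    have e2 : p.2 + (-(n : ℤ) - 1) = p.2 - ((n + 1 : ℕ) : ℤ) := by push_cast; ring
    rw [e, e2] at h
    rw [e2]
    calc An θ c n p * Wt θ c (p.2 - ((n + 1 : ℕ) : ℤ)) p.1
        ≤ Real.exp (-∑ i ∈ Finset.range N,
      c i * ((⌊p.1 i + (p.2 : ℝ) * θ i⌋ : ℝ)
        - (⌊p.1 i + ((p.2 - n : ℤ) : ℝ) * θ i⌋ : ℝ))) * Real.exp (-∑ i ∈ Finset.range N,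
      c i * ((⌊p.1 i + ((p.2 - n : ℤ) : ℝ) * θ i⌋ : ℝ)
        - (⌊p.1 i + ((p.2 - ((n + 1 : ℕ) : ℤ) : ℤ) : ℝ) * θ i⌋ : ℝ))) := by
          gcongr
          exact Wt_nonneg θ c _ _
      _ = _ := by
          rw [← Real.exp_add, ← neg_add, ← Finset.sum_add_distrib]
          congr 2
          refine Finset.sum_congr rfl fun i _ => ?_
          ring

lemma An_le' (hθ : ∀ i, 0 < θ i ∧ θ i < 1) (hc : ∀ i, 0 ≤ c i) (N n : ℕ) (p : (ℕ → ℝ) × ℤ) :
    An θ c n p ≤ Real.exp (∑ i ∈ Finset.range N, c i)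
      * (Real.exp (-∑ i ∈ Finset.range N, c i * θ i)) ^ n := by
  refine (An_le θ c hθ hc N n p).trans ?_
  rw [← Real.exp_nat_mul, ← Real.exp_add]
  apply Real.exp_le_exp.mpr
  have h : ∀ i ∈ Finset.range N, -(c i) + n * (c i * θ i)
      ≤ c i * ((⌊p.1 i + (p.2 : ℝ) * θ i⌋ : ℝ) - (⌊p.1 i + ((p.2 - n : ℤ) : ℝ) * θ i⌋ : ℝ)) := by
    intro i _
    have h1 := Int.lt_floor_add_one (p.1 i + (p.2 : ℝ) * θ i)
    have h2 := Int.floor_le (p.1 i + ((p.2 - n : ℤ) : ℝ) * θ i)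
    push_cast at h2
    push_cast
    have h3 : (n : ℝ) * θ i - 1 ≤ (⌊p.1 i + (p.2 : ℝ) * θ i⌋ : ℝ)
        - (⌊p.1 i + ((p.2 : ℝ) - n) * θ i⌋ : ℝ) := by nlinarith
    have h4 := mul_le_mul_of_nonneg_left h3 (hc i)
    calc -(c i) + n * (c i * θ i) = c i * ((n : ℝ) * θ i - 1) := by ring
      _ ≤ _ := h4
  have h5 := Finset.sum_le_sum h
  rw [Finset.sum_add_distrib, Finset.sum_neg_distrib, ← Finset.mul_sum] at h5
  linarith

end Model

section Final

variable (θ c : ℕ → ℝ)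

/-- the indicator of `k = 0` -/
noncomputable def e0 (p : (ℕ → ℝ) × ℤ) : ℂ := if p.2 = 0 then 1 else 0

lemma vacuum_ae : (vacuumVector : (ℕ → ℝ) × ℤ → ℂ) =ᵐ[pairMeasure] e0 := by
  refine (indicatorConstLp_coeFn (p := 2) (c := (1 : ℂ))).trans ?_
  filter_upwards with p
  rw [e0, Set.indicator]
  simp

lemma pairMeasure_univ_zero :
    pairMeasure (Set.univ ×ˢ ({0} : Set ℤ) : Set ((ℕ → ℝ) × ℤ)) = 1 := by
  rw [pairMeasure, Measure.prod_prod, measure_univ, Measure.count_singleton, one_mul]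

lemma norm_vacuum : ‖vacuumVector‖ = 1 := by
  rw [vacuumVector, norm_indicatorConstLp (by norm_num) (by norm_num)]
  rw [measureReal_def, pairMeasure_univ_zero]
  simp

/-- integrating against the vacuum -/
lemma integral_e0 (F : (ℕ → ℝ) × ℤ → ℂ) (hF : Measurable F) :
    ∫ p, e0 p * F p ∂pairMeasure = ∫ x, F (x, 0) ∂cubeMeasure := by
  have h1 : (fun p => e0 p * F p)
      = (Set.univ ×ˢ ({0} : Set ℤ) : Set ((ℕ → ℝ) × ℤ)).indicator F := by
    funext p
    rw [e0, Set.indicator]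
    by_cases h : p.2 = 0 <;> simp [h]
  rw [h1, integral_indicator (MeasurableSet.univ.prod (measurableSet_singleton 0)), pairMeasure,
    ← Measure.prod_restrict, Measure.restrict_univ, Measure.restrict_singleton,
    Measure.count_singleton, one_smul, Measure.prod_dirac, integral_map]
  · exact (measurable_id.prodMk measurable_const).aemeasurable
  · exact hF.aestronglyMeasurable

variable {θ c}
variable {T : pairSpace →L[ℂ] pairSpace} (hT : IsWeightedShift θ c T)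
include hT

lemma rep_T : Rep (μ := pairMeasure) (fun p => ((Wt θ c (p.2 + (-1)) p.1 : ℝ) : ℂ))
    (fun p => (p.1, p.2 + (-1))) T := by
  intro g
  filter_upwards [hT g] with p hp
  rw [hp]
  rfl

lemma rep_T_pow (n : ℕ) : Rep (μ := pairMeasure) (fun p => ((An θ c n p : ℝ) : ℂ))
    (fun p => (p.1, p.2 + (-(n : ℤ)))) (T ^ n) := by
  induction n with
  | zero =>
    rw [pow_zero]
    refine Rep.one.congr (fun p => by simp [An]) (fun p => by simp)
  | succ n ih =>
    rw [pow_succ]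
    refine (ih.mul (rep_T hT) (mp_shift _)).congr (fun p => ?_) (fun p => ?_)
    · simp only [An]
      rw [show p.2 + -(n : ℤ) + -1 = p.2 + (-(n : ℤ) - 1) by ring]
      push_cast
      rfl
    · simp only [Prod.mk.injEq, true_and]
      push_cast; ring

lemma meas_T : Measurable (fun p : (ℕ → ℝ) × ℤ => ((Wt θ c (p.2 + (-1)) p.1 : ℝ) : ℂ)) :=
  Complex.measurable_ofReal.comp (measurable_Wt_pair θ c (-1))

lemma rep_Tstar : Rep (μ := pairMeasure) (fun p => ((Wt θ c p.2 p.1 : ℝ) : ℂ))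
    (fun p => (p.1, p.2 + 1)) (star T) := by
  have h := (rep_T hT).adj (mp_shift (-1)) (mp_shift 1) (ae_of_all _ fun p => by simp)
    (meas_T hT) zero_le_one (fun p => by
      rw [Complex.norm_real, Real.norm_eq_abs, abs_of_nonneg (Wt_nonneg θ c _ _)]
      exact Wt_le_one θ c _ _)
  refine h.congr (fun p => ?_) (fun p => rfl)
  rw [Complex.conj_ofReal]
  simp

lemma norm_T_pow_le (hθ : ∀ i, 0 < θ i ∧ θ i < 1) (hc : ∀ i, 0 ≤ c i) (N n : ℕ) :
    ‖T ^ n‖ ≤ Real.exp (∑ i ∈ Finset.range N, c i)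
      * (Real.exp (-∑ i ∈ Finset.range N, c i * θ i)) ^ n := by
  refine (rep_T_pow hT n).norm_le (mp_shift _)
    (Complex.measurable_ofReal.comp (measurable_An θ c n)) (by positivity) (fun p => ?_)
  rw [Complex.norm_real, Real.norm_eq_abs, abs_of_nonneg (An_nonneg θ c n p)]
  exact An_le' θ c hθ hc N n p

lemma norm_T_le : ‖T‖ ≤ 1 := by
  refine (rep_T hT).norm_le (mp_shift _) (meas_T hT) zero_le_one (fun p => ?_)
  rw [Complex.norm_real, Real.norm_eq_abs, abs_of_nonneg (Wt_nonneg θ c _ _)]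
  exact Wt_le_one θ c _ _

lemma tau_T_pow (n : ℕ) : tau vacuumVector (T ^ (n + 1)) = 0 := by
  rw [tau_apply, L2.inner_def]
  rw [integral_eq_zero_of_ae]
  have h1 := rep_T_pow hT (n + 1) vacuumVector
  have h2 := (mp_shift (-((n + 1 : ℕ) : ℤ))).quasiMeasurePreserving.ae vacuum_ae
  filter_upwards [h1, h2, vacuum_ae] with p h1 h2 h3
  rw [h1, h2, h3]
  simp only [e0, Pi.zero_apply]
  by_cases h : p.2 = 0
  · have : ¬ (p.2 + -((n + 1 : ℕ) : ℤ) = 0) := by rw [h]; push_cast; omega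
    rw [if_neg this]; simp
  · rw [if_neg h]; simp

/-- a right multiplication operator: it commutes with `T`, `T*` and agrees with `T` on the vacuum -/
lemma exists_R : ∃ R : pairSpace →L[ℂ] pairSpace, R * T = T * R ∧ R * star T = star T * R ∧
    T vacuumVector = R vacuumVector ∧ (star T) vacuumVector = (star R) vacuumVector := by
  have hm : Measurable (fun p : (ℕ → ℝ) × ℤ => ((Wt θ c 0 p.1 : ℝ) : ℂ)) :=
    Complex.measurable_ofReal.comp ((measurable_Wt θ c 0).comp measurable_fst)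
  have hb : ∀ p : (ℕ → ℝ) × ℤ, ‖((Wt θ c 0 p.1 : ℝ) : ℂ)‖ ≤ 1 := fun p => by
    rw [Complex.norm_real, Real.norm_eq_abs, abs_of_nonneg (Wt_nonneg θ c _ _)]
    exact Wt_le_one θ c _ _
  obtain ⟨R, hR, -⟩ := exists_wcomp (fun p : (ℕ → ℝ) × ℤ => (orbitPoint θ 1 p.1, p.2 + (-1)))
    (measurePreserving_pair θ 1 (-1)) (fun p => ((Wt θ c 0 p.1 : ℝ) : ℂ)) hm 1 hb zero_le_one
  have hRr : Rep (μ := pairMeasure) (fun p => ((Wt θ c 0 p.1 : ℝ) : ℂ))
    (fun p => (orbitPoint θ 1 p.1, p.2 + (-1))) R := hR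
  have hRs := hRr.adj (measurePreserving_pair θ 1 (-1)) (measurePreserving_pair θ (-1) 1)
    (by
      have h1 : ∀ᵐ p : (ℕ → ℝ) × ℤ ∂pairMeasure, ∀ i, 0 ≤ p.1 i ∧ p.1 i < 1 := by
        have h2 : Measure.QuasiMeasurePreserving (Prod.fst : (ℕ → ℝ) × ℤ → (ℕ → ℝ))
            pairMeasure cubeMeasure := Measure.quasiMeasurePreserving_fst
        exact h2.ae ae_unit
      filter_upwards [h1] with p hp
      ext1
      · simp only
        rw [orbit_orbit]
        funext i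
        simp only [orbitPoint]
        rw [Int.fract_eq_self.mpr]
        · simp
        · simpa using hp i
      · simp) hm zero_le_one hb
  have hs := rep_Tstar hT
  refine ⟨R, ?_, ?_, ?_, ?_⟩
  · refine (hRr.mul (rep_T hT) (measurePreserving_pair θ 1 (-1))).ext
      ((rep_T hT).mul hRr (mp_shift _)) (ae_of_all _ fun p => ?_) (ae_of_all _ fun p => rfl)
    simp only
    rw [Wt_orbit, mul_comm]
    congr 3
    ring
  · refine (hRr.mul hs (measurePreserving_pair θ 1 (-1))).ext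
      (hs.mul hRr (mp_shift _)) (ae_of_all _ fun p => ?_) (ae_of_all _ fun p => ?_)
    · simp only
      rw [Wt_orbit, mul_comm]
      congr 3
      ring
    · simp only [Prod.mk.injEq, true_and]
      ring
  · apply Lp.ext
    have h2 := (mp_shift (-1)).quasiMeasurePreserving.ae vacuum_ae
    have h3 := (measurePreserving_pair θ 1 (-1)).quasiMeasurePreserving.ae vacuum_ae
    filter_upwards [rep_T hT vacuumVector, hRr vacuumVector, h2, h3] with p h1 h2 h3 h4
    rw [h1, h2, h3, h4]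
    simp only [e0]
    by_cases h : p.2 + -1 = 0
    · simp only [if_pos h]
      rw [h]
    · simp only [if_neg h, mul_zero]
  · apply Lp.ext
    have h2 := (mp_shift 1).quasiMeasurePreserving.ae vacuum_ae
    have h3 := (measurePreserving_pair θ (-1) 1).quasiMeasurePreserving.ae vacuum_ae
    filter_upwards [hs vacuumVector, hRs vacuumVector, h2, h3] with p h1 h2 h3 h4
    rw [h1, h2, h3, h4]
    simp only [e0]
    by_cases h : p.2 + 1 = 0
    · have h5 : p.2 = -1 := by omega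
      simp only [if_pos h]
      rw [Complex.conj_ofReal, Wt_orbit, h5]
      simp
    · simp only [if_neg h, mul_zero]

/-- the trace property -/
lemma trace_adjoin : ∀ X ∈ StarAlgebra.adjoin ℂ {T}, ∀ Y ∈ StarAlgebra.adjoin ℂ {T},
    tau vacuumVector (X * Y) = tau vacuumVector (Y * X) := by
  obtain ⟨R, hRT, hRTs, hv, hvs⟩ := exists_R hT
  have hsT : star R * T = T * star R := by
    have := congrArg star hRTs
    rw [star_mul, star_mul, star_star] at this
    exact this.symm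
  have hcomm : ∀ X ∈ StarAlgebra.adjoin ℂ {T}, R * X = X * R ∧ star R * X = X * star R := by
    intro X hX
    induction hX using StarAlgebra.adjoin_induction with
    | mem x hx =>
      rw [Set.mem_singleton_iff] at hx
      rw [hx]; exact ⟨hRT, hsT⟩
    | algebraMap r => exact ⟨(Algebra.commutes r R).symm, (Algebra.commutes r (star R)).symm⟩
    | add x y _ _ hx hy =>
      rw [mul_add, add_mul, hx.1, hy.1, mul_add, add_mul, hx.2, hy.2]; exact ⟨rfl, rfl⟩
    | mul x y _ _ hx hy =>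
      constructor
      · rw [← mul_assoc, hx.1, mul_assoc, hy.1, mul_assoc]
      · rw [← mul_assoc, hx.2, mul_assoc, hy.2, mul_assoc]
    | star x _ hx =>
      constructor
      · have := congrArg star hx.2
        rw [star_mul, star_mul, star_star] at this
        exact this.symm
      · have := congrArg star hx.1
        rw [star_mul, star_mul] at this
        exact this.symm
  have h1 : ∀ X ∈ StarAlgebra.adjoin ℂ {T},
      tau vacuumVector (X * T) = tau vacuumVector (T * X) := by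
    intro X hX
    rw [tau_apply, tau_apply]
    have e1 : (X * T) vacuumVector = R (X vacuumVector) := by
      have : (X * T) vacuumVector = X (T vacuumVector) := rfl
      rw [this, hv]
      have : X (R vacuumVector) = (X * R) vacuumVector := rfl
      rw [this, ← (hcomm X hX).1]; rfl
    have e2 : (T * X) vacuumVector = T (X vacuumVector) := rfl
    rw [e1, e2]
    rw [← ContinuousLinearMap.adjoint_inner_left R (X vacuumVector) vacuumVector,
      ← ContinuousLinearMap.adjoint_inner_left T (X vacuumVector) vacuumVector]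
    rw [← ContinuousLinearMap.star_eq_adjoint, ← ContinuousLinearMap.star_eq_adjoint, hvs]
  intro X hX Y hY
  induction hY using StarAlgebra.adjoin_induction generalizing X with
  | mem y hy =>
    rw [Set.mem_singleton_iff] at hy
    rw [hy]; exact h1 X hX
  | algebraMap r => rw [Algebra.commutes r X]
  | add x y _ _ hx hy =>
    rw [mul_add, add_mul, map_add, map_add, hx X hX, hy X hX]
  | mul x y hx' hy' hx hy =>
    rw [← mul_assoc, hy (X * x) (mul_mem hX hx'), ← mul_assoc, hx (y * X) (mul_mem hy' hX),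
      mul_assoc]
  | star y _ hy =>
    have h2 : X * star y = star (y * star X) := by rw [star_mul, star_star]
    have h3 : star y * X = star (star X * y) := by rw [star_mul, star_star]
    rw [h2, h3, tau_star, tau_star, hy (star X) (star_mem hX)]

end Final

section Zero

variable {θ c : ℕ → ℝ}
variable {T : pairSpace →L[ℂ] pairSpace} (hT : IsWeightedShift θ c T)
include hT

lemma rep_one_sub : Rep (μ := pairMeasure)
    (fun p => ((1 - Wt θ c p.2 p.1 ^ 2 : ℝ) : ℂ)) (fun p => p) (1 - star T * T) := by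
  have h1 := (rep_Tstar hT).mul (rep_T hT) (mp_shift 1)
  have h2 : Rep (μ := pairMeasure) (fun p => ((Wt θ c p.2 p.1 ^ 2 : ℝ) : ℂ)) (fun p => p)
      (star T * T) := by
    refine h1.congr (fun p => ?_) (fun p => ?_)
    · simp only
      rw [show p.2 + 1 + -1 = p.2 by ring]
      push_cast; ring
    · simp
  refine (Rep.one.sub h2).congr (fun p => ?_) (fun p => rfl)
  push_cast; ring

lemma rep_one_sub_pow (k : ℕ) : Rep (μ := pairMeasure)
    (fun p => (((1 - Wt θ c p.2 p.1 ^ 2) ^ k : ℝ) : ℂ)) (fun p => p) ((1 - star T * T) ^ k) := by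
  induction k with
  | zero =>
    rw [pow_zero]
    exact Rep.one.congr (fun p => by simp) (fun p => rfl)
  | succ k ih =>
    rw [pow_succ]
    refine (ih.mul (rep_one_sub hT) (MeasurePreserving.id _)).congr (fun p => ?_) (fun p => rfl)
    rw [pow_succ]; push_cast; ring

lemma tau_one_sub_pow (k : ℕ) : tau vacuumVector ((1 - star T * T) ^ k)
    = ((∫ x, (1 - Wt θ c 0 x ^ 2) ^ k ∂cubeMeasure : ℝ) : ℂ) := by
  rw [tau_apply, L2.inner_def]
  have hmeas : Measurable (fun p : (ℕ → ℝ) × ℤ => (((1 - Wt θ c p.2 p.1 ^ 2) ^ k : ℝ) : ℂ)) := by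
    have h := measurable_Wt_pair θ c 0
    simp only [add_zero] at h
    exact Complex.measurable_ofReal.comp ((measurable_const.sub (h.pow_const 2)).pow_const k)
  have h1 : (fun p => inner ℂ ((vacuumVector : (ℕ → ℝ) × ℤ → ℂ) p)
      (((((1 - star T * T) ^ k) vacuumVector : pairSpace) : (ℕ → ℝ) × ℤ → ℂ) p)) =ᵐ[pairMeasure]
      fun p => e0 p * (((1 - Wt θ c p.2 p.1 ^ 2) ^ k : ℝ) : ℂ) := by
    filter_upwards [rep_one_sub_pow hT k vacuumVector, vacuum_ae] with p h1 h2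
    rw [h1, h2, e0]
    by_cases h : p.2 = 0
    · simp only [if_pos h, RCLike.inner_apply, map_one]; ring
    · simp only [if_neg h, mul_zero, zero_mul, RCLike.inner_apply, map_zero]
  rw [integral_congr_ae h1, integral_e0 _ hmeas]
  exact integral_complex_ofReal

omit hT in
lemma tsum_cost_eq_top (hθ : ∀ i, 0 < θ i ∧ θ i < 1) (hc : ∀ i, 0 ≤ c i)
    (hlog : ∫⁻ x, ENNReal.ofReal (- Real.log (weight θ c x)) ∂cubeMeasure = ⊤) :
    ∑' i, ENNReal.ofReal (c i * θ i) = ⊤ := by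
  have h1 : ∫⁻ x, ENNReal.ofReal (- Real.log (weight θ c x)) ∂cubeMeasure
      ≤ ∫⁻ x, dropCost θ c x ∂cubeMeasure := by
    refine lintegral_mono fun x => ?_
    rw [weight]
    split_ifs with h
    · rw [h]; exact le_top
    · rw [Real.log_exp, neg_neg, ENNReal.ofReal_toReal h]
  have h2 : ∫⁻ x, dropCost θ c x ∂cubeMeasure = ∑' i, ENNReal.ofReal (c i * θ i) := by
    simp only [dropCost]
    rw [lintegral_tsum]
    · exact tsum_congr fun i => lintegral_floor θ hθ (c i) (hc i) i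
    · intro i
      refine Measurable.aemeasurable ?_
      refine ENNReal.measurable_ofReal.comp ?_
      refine measurable_const.mul ?_
      exact (measurable_from_top (f := fun n : ℤ => (n : ℝ))).comp
        (Int.measurable_floor.comp ((measurable_pi_apply i).add_const _))
  rw [hlog, h2] at h1
  exact top_le_iff.mp h1

omit hT in
lemma exists_large_cost (hθ : ∀ i, 0 < θ i ∧ θ i < 1) (hc : ∀ i, 0 ≤ c i)
    (hlog : ∫⁻ x, ENNReal.ofReal (- Real.log (weight θ c x)) ∂cubeMeasure = ⊤) (M : ℝ) :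
    ∃ N, M ≤ ∑ i ∈ Finset.range N, c i * θ i := by
  by_contra hcon
  push Not at hcon
  have h1 := tsum_cost_eq_top hθ hc hlog
  have h2 : ∑' i, ENNReal.ofReal (c i * θ i) ≤ ENNReal.ofReal M := by
    rw [ENNReal.tsum_eq_iSup_nat]
    refine iSup_le fun N => ?_
    rw [← ENNReal.ofReal_sum_of_nonneg (fun i _ => mul_nonneg (hc i) (hθ i).1.le)]
    exact ENNReal.ofReal_le_ofReal (hcon N).le
  rw [h1] at h2
  exact absurd (top_le_iff.mp h2) ENNReal.ofReal_ne_top

lemma summable_T (hθ : ∀ i, 0 < θ i ∧ θ i < 1) (hc : ∀ i, 0 ≤ c i)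
    (hlog : ∫⁻ x, ENNReal.ofReal (- Real.log (weight θ c x)) ∂cubeMeasure = ⊤)
    (r : ℝ) (hr : 0 < r) : Summable (fun k : ℕ => r ^ k * ‖T ^ k‖) := by
  obtain ⟨N, hN⟩ := exists_large_cost hθ hc hlog (Real.log (2 * r))
  set s := ∑ i ∈ Finset.range N, c i * θ i with hs
  set C := Real.exp (∑ i ∈ Finset.range N, c i) with hC
  have h1 : r * Real.exp (-s) ≤ 1 / 2 := by
    have : Real.exp (-s) ≤ Real.exp (-Real.log (2 * r)) := Real.exp_le_exp.mpr (by linarith)
    rw [Real.exp_neg (Real.log _), Real.exp_log (by positivity)] at this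
    calc r * Real.exp (-s) ≤ r * (2 * r)⁻¹ := by gcongr
      _ = 1 / 2 := by field_simp
  refine Summable.of_nonneg_of_le (fun k => by positivity) (fun k => ?_)
    ((summable_geometric_of_lt_one (by norm_num : (0 : ℝ) ≤ 1 / 2) (by norm_num)).mul_left C)
  calc r ^ k * ‖T ^ k‖ ≤ r ^ k * (C * Real.exp (-s) ^ k) := by
        gcongr
        exact norm_T_pow_le hT hθ hc N k
    _ = C * (r * Real.exp (-s)) ^ k := by rw [mul_pow]; ring
    _ ≤ C * (1 / 2) ^ k := by gcongr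

omit hT in
lemma hdiv_moments (hpos : ∀ᵐ x ∂cubeMeasure, 0 < weight θ c x)
    (hlog : ∫⁻ x, ENNReal.ofReal (- Real.log (weight θ c x)) ∂cubeMeasure = ⊤) (M : ℝ) :
    ∃ n : ℕ, M ≤ ∑ k ∈ Finset.range n,
      ((∫ x, (1 - Wt θ c 0 x ^ 2) ^ (k + 1) ∂cubeMeasure : ℝ) / ((k : ℝ) + 1) : ℝ) := by
  have hW : ∀ x, 0 ≤ 1 - Wt θ c 0 x ^ 2 ∧ 1 - Wt θ c 0 x ^ 2 ≤ 1 := by
    intro x
    have h1 := Wt_nonneg θ c 0 x
    have h2 := Wt_le_one θ c 0 x
    constructor <;> nlinarith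
  have hmeas : ∀ k : ℕ, Measurable (fun x => (1 - Wt θ c 0 x ^ 2) ^ k) := fun k =>
    (measurable_const.sub ((measurable_Wt θ c 0).pow_const 2)).pow_const k
  have hint : ∀ k : ℕ, Integrable (fun x => (1 - Wt θ c 0 x ^ 2) ^ k) cubeMeasure := fun k =>
    Integrable.of_bound (hmeas k).aestronglyMeasurable 1 (ae_of_all _ fun x => by
      rw [Real.norm_eq_abs, abs_of_nonneg (pow_nonneg (hW x).1 k)]
      exact pow_le_one₀ (hW x).1 (hW x).2)
  by_contra hcon
  push Not at hcon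
  have h1 : ∑' k : ℕ, ENNReal.ofReal
        ((∫ x, (1 - Wt θ c 0 x ^ 2) ^ (k + 1) ∂cubeMeasure : ℝ) / ((k : ℝ) + 1) : ℝ)
      ≤ ENNReal.ofReal M := by
    rw [ENNReal.tsum_eq_iSup_nat]
    refine iSup_le fun n => ?_
    rw [← ENNReal.ofReal_sum_of_nonneg]
    · exact ENNReal.ofReal_le_ofReal (hcon n).le
    · intro k _
      exact div_nonneg (integral_nonneg fun x => pow_nonneg (hW x).1 _) (by positivity)
  have h2 : ∀ k : ℕ, ENNReal.ofReal ((∫ x, (1 - Wt θ c 0 x ^ 2) ^ (k + 1) ∂cubeMeasure) / (k + 1))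
      = ∫⁻ x, ENNReal.ofReal ((1 - Wt θ c 0 x ^ 2) ^ (k + 1) / (k + 1)) ∂cubeMeasure := by
    intro k
    rw [← integral_div, ofReal_integral_eq_lintegral_ofReal ((hint (k + 1)).div_const _)]
    exact ae_of_all _ fun x => div_nonneg (pow_nonneg (hW x).1 _) (by positivity)
  have h3 : ∑' k : ℕ, ENNReal.ofReal ((∫ x, (1 - Wt θ c 0 x ^ 2) ^ (k + 1) ∂cubeMeasure) / (k + 1))
      = ∫⁻ x, ∑' k : ℕ, ENNReal.ofReal ((1 - Wt θ c 0 x ^ 2) ^ (k + 1) / (k + 1)) ∂cubeMeasure := by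
    rw [lintegral_tsum]
    · exact tsum_congr h2
    · intro k
      exact ((hmeas (k + 1)).div_const _).ennreal_ofReal.aemeasurable
  have h4 : ∫⁻ x, ENNReal.ofReal (- Real.log (weight θ c x)) ∂cubeMeasure
      ≤ ∫⁻ x, ∑' k : ℕ, ENNReal.ofReal ((1 - Wt θ c 0 x ^ 2) ^ (k + 1) / (k + 1)) ∂cubeMeasure := by
    refine lintegral_mono_ae ?_
    filter_upwards [hpos, ae_unit] with x hx hu
    have hx0 : Wt θ c 0 x = weight θ c x := by
      rw [Wt]
      congr 1
      funext i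
      simp only [orbitPoint]
      rw [Int.fract_eq_self.mpr]
      · simp
      · simpa using hu i
    rw [hx0]
    have hw1 := weight_le_one θ c x
    set w := weight θ c x with hw
    have hy : |1 - w ^ 2| < 1 := by
      rw [abs_of_nonneg (by nlinarith)]
      have : 0 < w ^ 2 := by positivity
      linarith
    have hs := Real.hasSum_pow_div_log_of_abs_lt_one hy
    rw [← ENNReal.ofReal_tsum_of_nonneg (fun k => div_nonneg (pow_nonneg (by nlinarith) _)
      (by positivity)) hs.summable, hs.tsum_eq]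
    apply ENNReal.ofReal_le_ofReal
    rw [sub_sub_cancel, Real.log_pow]
    have := Real.log_nonpos hx.le hw1
    push_cast
    linarith
  rw [hlog, ← h3] at h4
  exact absurd (top_le_iff.mp (h4.trans h1)) ENNReal.ofReal_ne_top

theorem main (hθ : ∀ i, 0 < θ i ∧ θ i < 1) (hc : ∀ i, 0 ≤ c i)
    (hpos : ∀ᵐ x ∂cubeMeasure, 0 < weight θ c x)
    (hlog : ∫⁻ x, ENNReal.ofReal (- Real.log (weight θ c x)) ∂cubeMeasure = ⊤) (z : ℂ) :
    vectorDet vacuumVector (T - z • (1 : pairSpace →L[ℂ] pairSpace)) = ‖z‖ := by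
  by_cases hz : z = 0
  · rw [hz, zero_smul, sub_zero, norm_zero]
    exact vectorDet_zero norm_vacuum (norm_T_le hT)
      (fun k => ∫ x, (1 - Wt θ c 0 x ^ 2) ^ k ∂cubeMeasure) (tau_one_sub_pow hT)
      (hdiv_moments hpos hlog)
  · refine vectorDet_sub norm_vacuum (StarAlgebra.adjoin ℂ {T}).topologicalClosure
      (StarSubalgebra.isClosed_topologicalClosure _)
      (StarSubalgebra.le_topologicalClosure _ (StarAlgebra.self_mem_adjoin_singleton ℂ T))
      (tau_comm_closure _ _ (trace_adjoin hT)) (tau_T_pow hT) hz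
      (summable_T hT hθ hc hlog _ (by positivity))

end Zero

end Crest.Agent.R113.Det
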