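import Mathlib

/-! Row 113, S0149, task T14: the L¹ mean ergodic theorem for bounded functions and Markov's
inequality in the form used by the transfer. -/

set_option autoImplicit false

open MeasureTheory Filter Topology
open scoped InnerProductSpace

namespace Crest.Agent.R113.Transfer

lemma markov {X : Type*} [MeasurableSpace X] {μ : Measure X} [IsFiniteMeasure μ] {f : X → ℝ}
    (hf : Integrable f μ) (h0 : ∀ x, 0 ≤ f x) {a ε : ℝ} (ha : 0 < a)
    (h : ∫ x, f x ∂μ ≤ a * ε) : μ {x | a < f x} ≤ ENNReal.ofReal ε := by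
  have h1 := mul_meas_ge_le_integral_of_nonneg (μ := μ) (Eventually.of_forall h0) hf a
  have h2 : a * μ.real {x | a ≤ f x} ≤ a * ε := h1.trans h
  have h3 : μ.real {x | a ≤ f x} ≤ ε := le_of_mul_le_mul_left h2 ha
  calc μ {x | a < f x} ≤ μ {x | a ≤ f x} := measure_mono (fun x (hx : a < f x) => (show a ≤ f x from hx.le))
    _ = ENNReal.ofReal (μ.real {x | a ≤ f x}) := by
        rw [Measure.real, ENNReal.ofReal_toReal (measure_ne_top _ _)]
    _ ≤ ENNReal.ofReal ε := ENNReal.ofReal_le_ofReal h3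

section
variable {X : Type*} [MeasurableSpace X] {μ : Measure X} {τ : X → X}

/-- the Koopman operator -/
noncomputable def koop (hmp : MeasurePreserving τ μ μ) : Lp ℝ 2 μ →L[ℝ] Lp ℝ 2 μ :=
  (Lp.compMeasurePreservingₗᵢ ℝ τ hmp).toContinuousLinearMap

lemma koop_norm_apply (hmp : MeasurePreserving τ μ μ) (f : Lp ℝ 2 μ) : ‖koop hmp f‖ = ‖f‖ :=
  Lp.norm_compMeasurePreserving f hmp

lemma koop_norm (hmp : MeasurePreserving τ μ μ) : ‖koop hmp‖ ≤ 1 := by
  refine ContinuousLinearMap.opNorm_le_bound _ zero_le_one fun f => ?_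
  rw [one_mul, koop_norm_apply]

lemma koop_coe (hmp : MeasurePreserving τ μ μ) (p : Lp ℝ 2 μ) :
    (koop hmp p : X → ℝ) =ᵐ[μ] (p : X → ℝ) ∘ τ := Lp.coeFn_compMeasurePreserving p hmp

lemma koop_iter_coe (hmp : MeasurePreserving τ μ μ) (g : Lp ℝ 2 μ) (h : X → ℝ)
    (hg : (g : X → ℝ) =ᵐ[μ] h) (i : ℕ) :
    ((⇑(koop hmp))^[i] g : X → ℝ) =ᵐ[μ] fun x => h (τ^[i] x) := by
  induction i with
  | zero => simpa using hg
  | succ i ih =>
    rw [Function.iterate_succ_apply']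
    refine (koop_coe hmp _).trans ?_
    refine (hmp.quasiMeasurePreserving.ae_eq_comp ih).trans ?_
    exact Eventually.of_forall fun x => by
      simp only [Function.comp]
      rw [← Function.iterate_succ_apply]

lemma birk_coe (hmp : MeasurePreserving τ μ μ) (g : Lp ℝ 2 μ) (h : X → ℝ)
    (hg : (g : X → ℝ) =ᵐ[μ] h) (n : ℕ) :
    ((birkhoffAverage ℝ (koop hmp) _root_.id n g : Lp ℝ 2 μ) : X → ℝ) =ᵐ[μ]
      fun x => (∑ i ∈ Finset.range n, h (τ^[i] x)) / n := by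
  have h1 : birkhoffAverage ℝ (koop hmp) _root_.id n g =
      (n : ℝ)⁻¹ • ∑ i ∈ Finset.range n, (⇑(koop hmp))^[i] g := by
    simp only [birkhoffAverage, birkhoffSum, _root_.id]
  rw [h1]
  have h2 : (↑↑(∑ i ∈ Finset.range n, (⇑(koop hmp))^[i] g) : X → ℝ) =ᵐ[μ]
      fun x => ∑ i ∈ Finset.range n, h (τ^[i] x) := by
    clear h1
    induction n with
    | zero =>
      simp only [Finset.range_zero, Finset.sum_empty]
      exact Lp.coeFn_zero ℝ 2 μ
    | succ n ih =>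
      rw [Finset.sum_range_succ]
      refine (Lp.coeFn_add _ _).trans ?_
      filter_upwards [ih, koop_iter_coe hmp g h hg n] with x h3 h4
      rw [Pi.add_apply, h3, h4, Finset.sum_range_succ]
  refine (Lp.coeFn_smul _ _).trans ?_
  filter_upwards [h2] with x hx
  rw [Pi.smul_apply, hx, smul_eq_mul]
  ring

/-- fixed vectors of the Koopman operator of an ergodic map are constants -/
lemma fixed_const (hτ : Ergodic τ μ) (p : Lp ℝ 2 μ) (hp : koop hτ.toMeasurePreserving p = p) :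
    ∃ c : ℝ, (p : X → ℝ) =ᵐ[μ] Function.const X c := by
  apply hτ.quasiErgodic.ae_eq_const_of_ae_eq_comp_ae (Lp.aestronglyMeasurable p)
  have h1 := koop_coe hτ.toMeasurePreserving p
  rw [hp] at h1
  exact h1.symm

variable [IsProbabilityMeasure μ]

/-- the constant function one in `L²` -/
noncomputable def oneL : Lp ℝ 2 μ := (memLp_const (1 : ℝ)).toLp (fun _ => (1 : ℝ))

lemma oneL_coe : ((oneL : Lp ℝ 2 μ) : X → ℝ) =ᵐ[μ] fun _ => 1 := MemLp.coeFn_toLp _

lemma inner_oneL (f : Lp ℝ 2 μ) : ⟪(oneL : Lp ℝ 2 μ), f⟫_ℝ = ∫ x, f x ∂μ := by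
  rw [L2.inner_def]
  apply integral_congr_ae
  filter_upwards [oneL_coe (μ := μ)] with x hx
  rw [hx]; simp

lemma koop_oneL (hmp : MeasurePreserving τ μ μ) : koop hmp oneL = oneL := by
  apply Lp.ext
  refine (koop_coe hmp _).trans ?_
  refine (hmp.quasiMeasurePreserving.ae_eq_comp (oneL_coe (μ := μ))).trans ?_
  exact (oneL_coe (μ := μ)).symm

lemma norm_bound (f : Lp ℝ 2 μ) : ∫ x, ‖f x‖ ∂μ ≤ ‖f‖ := by
  have h2 : eLpNorm f 1 μ ≤ eLpNorm f 2 μ := by
    exact eLpNorm_le_eLpNorm_of_exponent_le (by norm_num) (Lp.aestronglyMeasurable f)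
  have h3 : ∫ x, ‖f x‖ ∂μ = (eLpNorm f 1 μ).toReal := by
    rw [eLpNorm_one_eq_lintegral_enorm]
    exact integral_norm_eq_lintegral_enorm (Lp.aestronglyMeasurable f)
  rw [h3, Lp.norm_def]
  exact ENNReal.toReal_mono (Lp.eLpNorm_ne_top f) h2

/-- L¹ mean ergodic theorem for bounded measurable functions. -/
theorem l1_ergodic (hτ : Ergodic τ μ) (h : X → ℝ) (hm : Measurable h) (hb : ∀ x, |h x| ≤ 1) :
    Tendsto (fun n : ℕ => ∫ x, |(∑ i ∈ Finset.range n, h (τ^[i] x)) / n - ∫ y, h y ∂μ| ∂μ)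
      atTop (𝓝 0) := by
  have hmem : MemLp h 2 μ := by
    apply MemLp.of_bound hm.aestronglyMeasurable 1
    exact Eventually.of_forall fun x => by simpa using hb x
  have hmp := hτ.toMeasurePreserving
  obtain ⟨g, hg⟩ : ∃ g : Lp ℝ 2 μ, (g : X → ℝ) =ᵐ[μ] h := ⟨hmem.toLp h, hmem.coeFn_toLp⟩
  have hvN := (koop hmp).tendsto_birkhoffAverage_orthogonalProjection (koop_norm hmp) g
  obtain ⟨p, hpK, hpo, hvN'⟩ : ∃ p : Lp ℝ 2 μ, koop hmp p = p ∧
      (∀ w : Lp ℝ 2 μ, koop hmp w = w → ⟪g - p, w⟫_ℝ = 0) ∧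
      Tendsto (birkhoffAverage ℝ (koop hmp) _root_.id · g) atTop (𝓝 p) := by
    refine ⟨_, ?_, ?_, hvN⟩
    · have := (((koop hmp).eqLocus (1 : Lp ℝ 2 μ →L[ℝ] Lp ℝ 2 μ)).orthogonalProjectionOnto g).2
      exact this
    · intro w hw
      exact ((koop hmp).eqLocus (1 : Lp ℝ 2 μ →L[ℝ] Lp ℝ 2 μ)).starProjection_inner_eq_zero g w hw
  obtain ⟨c, hc⟩ := fixed_const hτ p hpK
  have hcval : c = ∫ y, h y ∂μ := by
    have h5 := hpo oneL (koop_oneL hmp)
    rw [inner_sub_left, sub_eq_zero, real_inner_comm, real_inner_comm oneL p, inner_oneL,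
      inner_oneL] at h5
    have h2 : ∫ x, p x ∂μ = c := by
      rw [integral_congr_ae hc]; simp
    have h3 : ∫ x, g x ∂μ = ∫ y, h y ∂μ := integral_congr_ae hg
    rw [← h2, ← h5, h3]
  have hnorm : Tendsto (fun n => ‖birkhoffAverage ℝ (koop hmp) _root_.id n g - p‖) atTop (𝓝 0) :=
    tendsto_iff_norm_sub_tendsto_zero.1 hvN'
  refine squeeze_zero (fun n => integral_nonneg fun x => abs_nonneg _) (fun n => ?_) hnorm
  have h1 : ∫ x, |(∑ i ∈ Finset.range n, h (τ^[i] x)) / n - ∫ y, h y ∂μ| ∂μ =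
      ∫ x, ‖(birkhoffAverage ℝ (koop hmp) _root_.id n g - p : Lp ℝ 2 μ) x‖ ∂μ := by
    apply integral_congr_ae
    filter_upwards [Lp.coeFn_sub (birkhoffAverage ℝ (koop hmp) _root_.id n g) p,
      birk_coe hmp g h hg n, hc] with x h1 h2 h3
    rw [h1, Pi.sub_apply, h2, h3, Real.norm_eq_abs, hcval, Function.const_apply]
  rw [h1]
  exact norm_bound _

end

end Crest.Agent.R113.Transfer
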