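import Crest.Agent.R113.Defs
import Crest.Agent.R113.FD.Sub

/-! # T02a: key lemma (K), localisation => small cut (FI), localisation => large trace (helper690)

Bridge between the definitions of `Defs.lean` and the toolbox `FD/Sub.lean`, and the proofs of the
first three theorems of `Flux.lean`. -/

set_option autoImplicit false
set_option linter.unusedSectionVars false

namespace Crest.Agent.R113

open scoped BigOperators InnerProductSpace

section Bridge

variable {ι : Type*} [Fintype ι] [DecidableEq ι]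

theorem ev_eq_dl (i : ι) : (ev i : EuclideanSpace ℂ ι) = FD.dl i := rfl

theorem dg_eq_hh (X : Submodule ℂ (EuclideanSpace ℂ ι)) (i : ι) : dg X i = FD.hh X i := rfl

theorem trOn_eq_trA (X : Submodule ℂ (EuclideanSpace ℂ ι)) (A : Finset ι) :
    trOn X A = FD.trA X A := rfl

theorem ent_eq (X : Submodule ℂ (EuclideanSpace ℂ ι)) (i j : ι) :
    ent X i j = (FD.pj X (FD.dl j)) i := by
  unfold ent
  rw [ev_eq_dl, ev_eq_dl, FD.inner_dl_left]

theorem cut_eq_cut (X : Submodule ℂ (EuclideanSpace ℂ ι)) (A : Finset ι) :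
    cut X A = FD.cut X A := by
  unfold cut FD.cut
  refine Finset.sum_congr rfl fun i _ => Finset.sum_congr rfl fun j _ => ?_
  rw [ent_eq, FD.norm_entry_comm]

theorem restr_coe (A : Finset ι) (v : EuclideanSpace ℂ ι) :
    restr (A : Set ι) v = FD.cp A v := by
  ext i
  rw [restr_apply, FD.cp_apply]
  simp

theorem sub_restr_coe (A : Finset ι) (v : EuclideanSpace ℂ ι) :
    v - restr (A : Set ι) v = FD.cp Aᶜ v := by
  rw [restr_coe, sub_eq_iff_eq_add', FD.cp_add_compl]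

theorem hsd_eq_hs (X Y : Submodule ℂ (EuclideanSpace ℂ ι)) :
    hsd X Y = FD.hs (FD.pj X - FD.pj Y) := by
  unfold hsd
  rw [FD.hs_eq_entries, Finset.sum_comm]
  refine Finset.sum_congr rfl fun i _ => Finset.sum_congr rfl fun j _ => ?_
  rw [ent_eq, ent_eq]
  rfl

theorem mulD_eq_dg (d : ι → ℝ) (v : EuclideanSpace ℂ ι) :
    mulD d v = FD.dg (fun i => (d i : ℂ)) v := rfl

end Bridge

section LA

variable {ι : Type*} [Fintype ι] [DecidableEq ι]

/-- lower bound of the trace from a localised subspace -/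
theorem trOn_ge_of_localised_aux
    (X Y : Submodule ℂ (EuclideanSpace ℂ ι)) (A : Finset ι) (ε : ℝ) (hY : Y ≤ X)
    (hloc : ∀ v ∈ Y, ‖v - restr (A : Set ι) v‖ ≤ ε * ‖v‖) :
    (1 - ε ^ 2) * Module.finrank ℂ Y ≤ trOn X A := by
  rw [trOn_eq_trA]
  refine FD.le_trA_of_subspace hY fun v hv => ?_
  rw [← sub_restr_coe]
  exact hloc v hv

theorem cut_le_of_localised_aux
    (X Y : Submodule ℂ (EuclideanSpace ℂ ι)) (A : Finset ι) (ε : ℝ) (hY : Y ≤ X)
    (hloc : ∀ v ∈ Y, ‖v - restr (A : Set ι) v‖ ≤ ε * ‖v‖) :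
    cut X A ≤ trOn X A - (1 - 2 * ε ^ 2) * Module.finrank ℂ Y := by
  rw [cut_eq_cut, trOn_eq_trA, FD.cut_eq_hs, FD.hs_mul_pj_of_le hY]
  have h1 : FD.hs ((1 - FD.pj X) * FD.cp A * FD.pj Y) ≤ ε ^ 2 * Module.finrank ℂ Y := by
    refine FD.hs_mul_pj_le fun v hv => ?_
    have e : ((1 - FD.pj X) * FD.cp A) v = -((1 - FD.pj X) (FD.cp Aᶜ v)) := by
      have h0 : (1 - FD.pj X) v = 0 := by
        show v - FD.pj X v = 0
        rw [FD.pj_eq_self (hY hv), sub_self]
      have h1 : FD.cp A v = v - FD.cp Aᶜ v := by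
        rw [eq_sub_iff_add_eq, FD.cp_add_compl]
      show (1 - FD.pj X) (FD.cp A v) = _
      rw [h1, map_sub, h0, zero_sub]
    rw [e, norm_neg]
    have h2 : ‖(1 - FD.pj X) (FD.cp Aᶜ v)‖ ≤ ‖FD.cp Aᶜ v‖ := by
      have := FD.norm_sq_pj_add X (FD.cp Aᶜ v)
      show ‖FD.cp Aᶜ v - FD.pj X (FD.cp Aᶜ v)‖ ≤ _
      exact abs_le_of_sq_le_sq' (by nlinarith [sq_nonneg ‖FD.pj X (FD.cp Aᶜ v)‖])
        (norm_nonneg _) |>.2
    refine h2.trans ?_
    rw [← sub_restr_coe]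
    exact hloc v hv
  have h2 : FD.hs ((1 - FD.pj X) * FD.cp A * (FD.pj X - FD.pj Y)) ≤
      FD.trA X A - FD.trA Y A := by
    have e1 := FD.hs_pj_add X (FD.cp A * (FD.pj X - FD.pj Y))
    have e2 := FD.hs_nonneg (FD.pj X * (FD.cp A * (FD.pj X - FD.pj Y)))
    have e3 := FD.hs_mul_pj_of_le hY (FD.cp A)
    rw [← FD.trA_eq_hs, ← FD.trA_eq_hs] at e3
    rw [mul_assoc]
    linarith
  have h3 : (1 - ε ^ 2) * Module.finrank ℂ Y ≤ FD.trA Y A :=
    FD.le_trA_of_subspace le_rfl fun v hv => by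
      rw [← sub_restr_coe]
      exact hloc v hv
  linarith

/-- Spectral subspace of the compression of `1_B` to `X`: dimension at least
`tr(P_X 1_B) - s dim X`, and `‖1_B w‖² ≥ s ‖w‖²` on it. -/
theorem exists_spectral (X : Submodule ℂ (EuclideanSpace ℂ ι)) (B : Finset ι) (s : ℝ)
    (hs : 0 ≤ s) :
    ∃ Z : Submodule ℂ (EuclideanSpace ℂ ι), Z ≤ X ∧
      FD.trA X B - s * Module.finrank ℂ X ≤ Module.finrank ℂ Z ∧
      ∀ w ∈ Z, s * ‖w‖ ^ 2 ≤ ‖FD.cp B w‖ ^ 2 := by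
  classical
  -- compression
  let T : X →ₗ[ℂ] X :=
    (X.orthogonalProjectionOnto : EuclideanSpace ℂ ι →ₗ[ℂ] X) ∘ₗ
      (FD.cp B : EuclideanSpace ℂ ι →ₗ[ℂ] EuclideanSpace ℂ ι) ∘ₗ X.subtype
  have hTin : ∀ x y : X, ⟪x, T y⟫_ℂ = ⟪(x : EuclideanSpace ℂ ι), FD.cp B y⟫_ℂ := by
    intro x y
    rw [Submodule.coe_inner]
    show ⟪(x : EuclideanSpace ℂ ι), FD.pj X (FD.cp B y)⟫_ℂ = _
    rw [← FD.inner_pj_left, FD.pj_eq_self x.2]
  have hT : LinearMap.IsSymmetric (𝕜 := ℂ) (E := X) T := by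
    intro x y
    rw [hTin]
    have h := hTin y x
    rw [← inner_conj_symm, h, inner_conj_symm, FD.inner_cp_left]
  obtain ⟨n, hn⟩ : ∃ n, Module.finrank ℂ X = n := ⟨_, rfl⟩
  let b := hT.eigenvectorBasis hn
  let l := hT.eigenvalues hn
  have hTb : ∀ i, T (b i) = (l i : ℂ) • b i := fun i => hT.apply_eigenvectorBasis hn i
  have hbb : ∀ i j, ⟪(b i : EuclideanSpace ℂ ι), FD.cp B (b j)⟫_ℂ = if i = j then (l j : ℂ) else 0 := by
    intro i j
    rw [← hTin, hTb]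
    have h1 : ⟪b i, (l j : ℂ) • b j⟫_ℂ = (l j : ℂ) * ⟪b i, b j⟫_ℂ := by
      rw [Submodule.coe_inner, Submodule.coe_smul, inner_smul_right, ← Submodule.coe_inner]
    rw [h1, orthonormal_iff_ite.1 b.orthonormal]
    split_ifs <;> simp
  have hll : ∀ i, l i = ‖FD.cp B (b i)‖ ^ 2 := by
    intro i
    have h := hbb i i
    rw [if_pos rfl, FD.inner_cp_self] at h
    exact_mod_cast h.symm
  have hl1 : ∀ i, l i ≤ 1 := by
    intro i
    rw [hll]
    have h1 := FD.norm_cp_le B (b i : EuclideanSpace ℂ ι)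
    have h2 : ‖(b i : EuclideanSpace ℂ ι)‖ = 1 := b.norm_eq_one i
    rw [h2] at h1
    nlinarith [norm_nonneg (FD.cp B (b i : EuclideanSpace ℂ ι))]
  let I : Finset (Fin n) := Finset.univ.filter fun i => s ≤ l i
  refine ⟨Submodule.span ℂ (Set.range fun i : I => (b i : EuclideanSpace ℂ ι)), ?_, ?_, ?_⟩
  · rw [Submodule.span_le]
    rintro _ ⟨i, rfl⟩
    exact (b i).2
  · have hli : LinearIndependent ℂ (fun i : I => (b i : EuclideanSpace ℂ ι)) := by
      have h1 : Orthonormal ℂ (fun i : Fin n => (b i : EuclideanSpace ℂ ι)) :=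
        b.orthonormal.comp_linearIsometry X.subtypeₗᵢ
      exact (h1.comp _ Subtype.val_injective).linearIndependent
    rw [finrank_span_eq_card hli, FD.trA_eq_basis b]
    simp only [Fintype.card_coe]
    have h1 : ∑ i, ‖FD.cp B (b i)‖ ^ 2 = ∑ i, l i :=
      Finset.sum_congr rfl fun i _ => (hll i).symm
    rw [h1, hn, ← Finset.sum_filter_add_sum_filter_not Finset.univ (fun i => s ≤ l i)]
    have h2 : ∑ i ∈ I, l i ≤ I.card := by
      calc ∑ i ∈ I, l i ≤ ∑ i ∈ I, (1 : ℝ) := Finset.sum_le_sum fun i _ => hl1 i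
        _ = _ := by simp
    have h3 : ∑ i ∈ Finset.univ.filter (fun i => ¬ s ≤ l i), l i ≤ s * n := by
      calc ∑ i ∈ Finset.univ.filter (fun i => ¬ s ≤ l i), l i
          ≤ ∑ i ∈ Finset.univ.filter (fun i => ¬ s ≤ l i), s :=
            Finset.sum_le_sum fun i hi => (not_le.1 (Finset.mem_filter.1 hi).2).le
        _ ≤ ∑ i : Fin n, s :=
            Finset.sum_le_sum_of_subset_of_nonneg (Finset.filter_subset _ _) fun _ _ _ => hs
        _ = s * n := by simp [mul_comm]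
    have h4 : ∑ i ∈ Finset.univ.filter (fun i => s ≤ l i), l i = ∑ i ∈ I, l i := rfl
    linarith
  · intro w hw
    obtain ⟨c, rfl⟩ := (Submodule.mem_span_range_iff_exists_fun ℂ).1 hw
    have h1 : Orthonormal ℂ (fun i : I => (b i : EuclideanSpace ℂ ι)) := by
      have h1 : Orthonormal ℂ (fun i : Fin n => (b i : EuclideanSpace ℂ ι)) :=
        b.orthonormal.comp_linearIsometry X.subtypeₗᵢ
      exact h1.comp _ Subtype.val_injective
    have e1 : ‖∑ i : I, c i • (b i : EuclideanSpace ℂ ι)‖ ^ 2 = ∑ i : I, ‖c i‖ ^ 2 := by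
      have h := h1.inner_sum c c Finset.univ
      rw [inner_self_eq_norm_sq_to_K] at h
      have h' : ((‖∑ i : I, c i • (b i : EuclideanSpace ℂ ι)‖ ^ 2 : ℝ) : ℂ)
          = ((∑ i : I, ‖c i‖ ^ 2 : ℝ) : ℂ) := by
        push_cast
        rw [show ((‖∑ i : I, c i • (b i : EuclideanSpace ℂ ι)‖ : ℝ) : ℂ)
            = ((‖∑ i : I, c i • (b i : EuclideanSpace ℂ ι)‖ : ℝ) : ℂ) from rfl]
        refine h.trans (Finset.sum_congr rfl fun i _ => ?_)
        rw [← Complex.conj_mul']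
      exact_mod_cast h'
    have e2 : ‖FD.cp B (∑ i : I, c i • (b i : EuclideanSpace ℂ ι))‖ ^ 2
        = ∑ i : I, l i * ‖c i‖ ^ 2 := by
      have h : ((‖FD.cp B (∑ i : I, c i • (b i : EuclideanSpace ℂ ι))‖ ^ 2 : ℝ) : ℂ)
          = ((∑ i : I, l i * ‖c i‖ ^ 2 : ℝ) : ℂ) := by
        rw [← FD.inner_cp_self, map_sum, sum_inner]
        push_cast
        refine Finset.sum_congr rfl fun i _ => ?_
        rw [inner_sum, Finset.sum_eq_single i]
        · rw [map_smul, inner_smul_left, inner_smul_right, hbb, if_pos rfl, ← Complex.conj_mul']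
          ring
        · intro j _ hj
          rw [map_smul, inner_smul_left, inner_smul_right, hbb, if_neg]
          · simp
          · intro h
            exact hj (Subtype.ext h.symm)
        · intro h
          exact absurd (Finset.mem_univ _) h
      exact_mod_cast h
    rw [e1, e2, Finset.mul_sum]
    refine Finset.sum_le_sum fun i _ => ?_
    have hi : s ≤ l i := (Finset.mem_filter.1 i.2).2
    exact mul_le_mul_of_nonneg_right hi (by positivity)

/-- Codimension of a preimage. -/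
theorem finrank_comap_ge (X X' Z : Submodule ℂ (EuclideanSpace ℂ ι)) (hZ : Z ≤ X)
    (S : EuclideanSpace ℂ ι →ₗ[ℂ] EuclideanSpace ℂ ι) (hS : ∀ v, S v ∈ X) :
    Module.finrank ℂ X' + Module.finrank ℂ Z ≤
      Module.finrank ℂ X + Module.finrank ℂ (X' ⊓ Z.comap S : Submodule ℂ (EuclideanSpace ℂ ι)) := by
  classical
  -- restrict `S` to `X' → X`, and compose with `X → X ⧸ Z`
  let Z' : Submodule ℂ X := Z.comap X.subtype
  let f : X' →ₗ[ℂ] (X ⧸ Z') :=
    Z'.mkQ ∘ₗ (LinearMap.codRestrict X S hS) ∘ₗ X'.subtype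
  have h1 := LinearMap.finrank_range_add_finrank_ker f
  have h2 : Module.finrank ℂ (LinearMap.range f) ≤ Module.finrank ℂ (X ⧸ Z') :=
    Submodule.finrank_le _
  have h3 := Submodule.finrank_quotient_add_finrank Z'
  have h4 : Module.finrank ℂ Z' = Module.finrank ℂ Z := by
    exact (Submodule.comapSubtypeEquivOfLe hZ).finrank_eq
  have h5 : Module.finrank ℂ (LinearMap.ker f) ≤
      Module.finrank ℂ (X' ⊓ Z.comap S : Submodule ℂ (EuclideanSpace ℂ ι)) := by
    have h6 : (LinearMap.ker f).map X'.subtype ≤ (X' ⊓ Z.comap S) := by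
      rintro _ ⟨v, hv, rfl⟩
      refine ⟨v.2, ?_⟩
      have h7 : f v = 0 := hv
      have h8 : Z'.mkQ (LinearMap.codRestrict X S hS (v : EuclideanSpace ℂ ι)) = 0 := h7
      rw [Submodule.mkQ_apply, Submodule.Quotient.mk_eq_zero] at h8
      exact h8
    have h9 := Submodule.finrank_mono h6
    rwa [LinearEquiv.finrank_eq (Submodule.equivMapOfInjective X'.subtype
      X'.injective_subtype (LinearMap.ker f)).symm] at h9
  omega

theorem key_lemma_aux
    (X X' : Submodule ℂ (EuclideanSpace ℂ ι)) (A B : Finset ι)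
    (N : EuclideanSpace ℂ ι →ₗ[ℂ] EuclideanSpace ℂ ι) (δ α β s d : ℝ)
    (hβ : 0 < β) (hs : 0 < s)
    (hcod : (Module.finrank ℂ X : ℝ) ≤ Module.finrank ℂ X' + d)
    (h1 : ∀ v ∈ X', ‖N v - X.starProjection (N v)‖ ≤ δ * ‖v‖)
    (h2 : ∀ v ∈ X', ‖restr (B : Set ι) (N v)‖ ≤ α * ‖restr (A : Set ι) v‖)
    (h3 : ∀ v ∈ X', β * ‖v - restr (A : Set ι) v‖ ≤ ‖N v - restr (B : Set ι) (N v)‖) :
    ∃ Y : Submodule ℂ (EuclideanSpace ℂ ι), Y ≤ X' ∧
      trOn X B - s * Module.finrank ℂ X - d ≤ Module.finrank ℂ Y ∧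
      ∀ v ∈ Y, ‖v - restr (A : Set ι) v‖ ≤
        (α / (β * Real.sqrt s)) * ‖restr (A : Set ι) v‖
          + ((1 / Real.sqrt s + 1) * δ / β) * ‖v‖ := by
  obtain ⟨Z, hZX, hZd, hZ⟩ := exists_spectral X B s hs.le
  let S : EuclideanSpace ℂ ι →ₗ[ℂ] EuclideanSpace ℂ ι :=
    (X.starProjection : EuclideanSpace ℂ ι →ₗ[ℂ] EuclideanSpace ℂ ι) ∘ₗ N
  have hS : ∀ v, S v ∈ X := fun v => X.starProjection_apply_mem (N v)
  have hdim := finrank_comap_ge X X' Z hZX S hS
  refine ⟨X' ⊓ Z.comap S, inf_le_left, ?_, ?_⟩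
  · rw [trOn_eq_trA]
    have hdim' : (Module.finrank ℂ X' : ℝ) + Module.finrank ℂ Z ≤
      Module.finrank ℂ X
        + Module.finrank ℂ (X' ⊓ Z.comap S : Submodule ℂ (EuclideanSpace ℂ ι)) := by
      exact_mod_cast hdim
    linarith
  · rintro v ⟨hv, hvZ⟩
    have hw : S v ∈ Z := hvZ
    have hSv : S v = X.starProjection (N v) := rfl
    have hsq : 0 < Real.sqrt s := Real.sqrt_pos.2 hs
    have e1 : Real.sqrt s * ‖S v‖ ≤ ‖FD.cp B (S v)‖ := by
      have h := hZ _ hw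
      have h' : (Real.sqrt s * ‖S v‖) ^ 2 ≤ ‖FD.cp B (S v)‖ ^ 2 := by
        rw [mul_pow, Real.sq_sqrt hs.le]; exact h
      exact abs_le_of_sq_le_sq' h' (norm_nonneg _) |>.2
    have e2 : ‖N v - S v‖ ≤ δ * ‖v‖ := h1 v hv
    have e3 : ‖FD.cp B (S v)‖ ≤ α * ‖restr (A : Set ι) v‖ + δ * ‖v‖ := by
      have h4 : FD.cp B (S v) = FD.cp B (N v) - FD.cp B (N v - S v) := by
        rw [← map_sub]; congr 1; abel
      have h5 := FD.norm_cp_le B (N v - S v)
      have h6 := h2 v hv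
      rw [restr_coe] at h6
      calc ‖FD.cp B (S v)‖ ≤ ‖FD.cp B (N v)‖ + ‖FD.cp B (N v - S v)‖ := by
            rw [h4]; exact norm_sub_le _ _
        _ ≤ _ := by linarith
    have e4 : ‖N v - restr (B : Set ι) (N v)‖ ≤ ‖S v‖ + δ * ‖v‖ := by
      rw [sub_restr_coe]
      calc ‖FD.cp Bᶜ (N v)‖ ≤ ‖N v‖ := FD.norm_cp_le _ _
        _ = ‖S v + (N v - S v)‖ := by congr 1; abel
        _ ≤ ‖S v‖ + ‖N v - S v‖ := norm_add_le _ _
        _ ≤ _ := by linarith
    have e5 := h3 v hv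
    have e6 : ‖S v‖ ≤ (α * ‖restr (A : Set ι) v‖ + δ * ‖v‖) / Real.sqrt s := by
      rw [le_div_iff₀ hsq]
      linarith [mul_comm ‖S v‖ (Real.sqrt s)]
    have e7 : β * ‖v - restr (A : Set ι) v‖ ≤
        (α * ‖restr (A : Set ι) v‖ + δ * ‖v‖) / Real.sqrt s + δ * ‖v‖ := by linarith
    have e8 : (α / (β * Real.sqrt s)) * ‖restr (A : Set ι) v‖
          + ((1 / Real.sqrt s + 1) * δ / β) * ‖v‖
        = ((α * ‖restr (A : Set ι) v‖ + δ * ‖v‖) / Real.sqrt s + δ * ‖v‖) / β := by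
      field_simp
      ring
    rw [e8, le_div_iff₀ hβ]
    linarith [mul_comm β ‖v - restr (A : Set ι) v‖]

end LA

end Crest.Agent.R113
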