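import Mathlib

/-!
Row 113, S0149, task T6 (NI): near invariance of `F` on the good windows.
Blueprint 6835 (NI).
-/

set_option autoImplicit false

namespace Crest.Agent.R113.NI

open Module Submodule

/-! ### spectral split -/

section split

variable {V W : Type*} [NormedAddCommGroup V] [InnerProductSpace ℂ V] [FiniteDimensional ℂ V]
  [NormedAddCommGroup W] [InnerProductSpace ℂ W] [FiniteDimensional ℂ W]

/-- For a linear map `B` and a level `c ≥ 0` the space splits as (vectors with `‖B v‖ ≤ c ‖v‖`) and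
(vectors with `‖B v‖ > c ‖v‖`). -/
theorem exists_split (B : V →ₗ[ℂ] W) (c : ℝ) (hc : 0 ≤ c) :
    ∃ Vle Vgt : Submodule ℂ V, finrank ℂ Vle + finrank ℂ Vgt = finrank ℂ V ∧
      (∀ v ∈ Vle, ‖B v‖ ≤ c * ‖v‖) ∧ (∀ v ∈ Vgt, v ≠ 0 → c * ‖v‖ < ‖B v‖) := by
  classical
  set G : V →ₗ[ℂ] V := LinearMap.adjoint B ∘ₗ B with hG
  have hGs : G.IsSymmetric := by
    intro x y
    simp only [hG, LinearMap.comp_apply]
    rw [LinearMap.adjoint_inner_left, LinearMap.adjoint_inner_right]
  set n := finrank ℂ V with hn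
  set b := hGs.eigenvectorBasis hn.symm with hb
  set lam := hGs.eigenvalues hn.symm with hlam
  have hGb : ∀ i, G (b i) = (lam i : ℂ) • b i := fun i => hGs.apply_eigenvectorBasis hn.symm i
  have hnorm : ∀ v : V, ‖v‖ ^ 2 = ∑ i, ‖b.repr v i‖ ^ 2 := by
    intro v
    rw [← b.repr.norm_map v, EuclideanSpace.norm_sq_eq]
  have hB : ∀ v : V, ‖B v‖ ^ 2 = ∑ i, lam i * ‖b.repr v i‖ ^ 2 := by
    intro v
    have h1 : (‖B v‖ ^ 2 : ℝ) = RCLike.re (inner ℂ v (G v)) := by
      rw [hG, LinearMap.comp_apply, LinearMap.adjoint_inner_right]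
      simp [inner_self_eq_norm_sq_to_K]
      norm_cast
    rw [h1]
    have h2 : G v = ∑ i, ((lam i : ℂ) * b.repr v i) • b i := by
      conv_lhs => rw [← b.sum_repr v]
      rw [map_sum]
      refine Finset.sum_congr rfl fun i _ => ?_
      rw [map_smul, hGb, smul_smul, mul_comm]
    rw [h2, inner_sum, map_sum]
    refine Finset.sum_congr rfl fun i _ => ?_
    rw [inner_smul_right]
    have h3 : inner ℂ v (b i) = (starRingEnd ℂ) (b.repr v i) := by
      rw [b.repr_apply_apply, inner_conj_symm]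
    rw [h3, mul_assoc, Complex.mul_conj, Complex.normSq_eq_norm_sq]
    norm_cast
  -- the two spans
  have key : ∀ (s : Finset (Fin n)) (v : V), v ∈ span ℂ (b '' (s : Set (Fin n))) → ∀ i ∉ s, b.repr v i = 0 := by
    intro s v hv i hi
    induction hv using Submodule.span_induction with
    | mem x hx =>
      obtain ⟨j, hj, rfl⟩ := hx
      have hij : i ≠ j := fun h => hi (h ▸ hj)
      simp [OrthonormalBasis.repr_self, hij]
    | zero => simp
    | add x y _ _ hx hy => simp [hx, hy]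
    | smul a x _ hx => simp [hx]
  have hfr : ∀ s : Finset (Fin n), finrank ℂ (span ℂ (b '' (s : Set (Fin n)))) = s.card := by
    intro s
    have hli : LinearIndependent ℂ (fun i : s => b i) :=
      (b.orthonormal.linearIndependent).comp _ Subtype.val_injective
    have h := finrank_span_eq_card hli
    rw [Set.image_eq_range]
    simpa using h
  let s : Finset (Fin n) := Finset.univ.filter fun i => lam i ≤ c ^ 2
  refine ⟨span ℂ (b '' (s : Set (Fin n))), span ℂ (b '' ((sᶜ : Finset (Fin n)) : Set (Fin n))), ?_, ?_, ?_⟩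
  · rw [hfr, hfr, Finset.card_compl, Fintype.card_fin]
    have := Finset.card_le_univ s
    rw [Fintype.card_fin] at this
    omega
  · intro v hv
    have h1 : ‖B v‖ ^ 2 ≤ (c * ‖v‖) ^ 2 := by
      rw [mul_pow, hB, hnorm, Finset.mul_sum]
      refine Finset.sum_le_sum fun i _ => ?_
      by_cases hi : i ∈ s
      · exact mul_le_mul_of_nonneg_right (Finset.mem_filter.1 hi).2 (by positivity)
      · rw [key s v hv i hi]; simp
    exact le_of_sq_le_sq h1 (by positivity)
  · intro v hv hv0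
    have hne : ∃ i, b.repr v i ≠ 0 := by
      by_contra h
      push Not at h
      apply hv0
      rw [← b.sum_repr v]
      simp [h]
    obtain ⟨i0, hi0⟩ := hne
    have hi0s : i0 ∈ sᶜ := by
      by_contra h
      exact hi0 (key sᶜ v hv i0 h)
    have h1 : (c * ‖v‖) ^ 2 < ‖B v‖ ^ 2 := by
      rw [mul_pow, hB, hnorm, Finset.mul_sum]
      refine Finset.sum_lt_sum (fun i _ => ?_) ⟨i0, Finset.mem_univ _, ?_⟩
      · by_cases hi : i ∈ sᶜ
        · have : c ^ 2 < lam i := by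
            have := Finset.mem_compl.1 hi
            simp only [s, Finset.mem_filter, Finset.mem_univ, true_and, not_le] at this
            exact this
          exact mul_le_mul_of_nonneg_right this.le (by positivity)
        · rw [key sᶜ v hv i hi]; simp
      · have : c ^ 2 < lam i0 := by
          have := Finset.mem_compl.1 hi0s
          simp only [s, Finset.mem_filter, Finset.mem_univ, true_and, not_le] at this
          exact this
        have h3 : 0 < ‖b.repr v i0‖ ^ 2 := by positivity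
        exact mul_lt_mul_of_pos_right this h3
    exact lt_of_pow_lt_pow_left₀ 2 (norm_nonneg _) h1

end split

/-! ### dimension counts -/

section dims

variable {E : Type*} [AddCommGroup E] [Module ℂ E] [FiniteDimensional ℂ E]

theorem finrank_add_le_comap (X Y Z : Submodule ℂ E) (L : E →ₗ[ℂ] E) (hYZ : Y ≤ Z)
    (hL : ∀ v ∈ X, L v ∈ Z) :
    finrank ℂ X + finrank ℂ Y ≤ finrank ℂ (X ⊓ Y.comap L : Submodule ℂ E) + finrank ℂ Z := by
  set f : X →ₗ[ℂ] (E ⧸ Y) := (Y.mkQ ∘ₗ L).domRestrict X with hf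
  have h1 := LinearMap.finrank_range_add_finrank_ker f
  have h2 : finrank ℂ (LinearMap.range f) + finrank ℂ Y ≤ finrank ℂ Z := by
    have hle : LinearMap.range f ≤ Z.map Y.mkQ := by
      rintro _ ⟨x, rfl⟩
      exact ⟨L x, hL x x.2, rfl⟩
    have h3 : finrank ℂ (LinearMap.range f) ≤ finrank ℂ (Z.map Y.mkQ) := Submodule.finrank_mono hle
    set g : Z →ₗ[ℂ] (E ⧸ Y) := Y.mkQ.domRestrict Z with hg
    have h4 := LinearMap.finrank_range_add_finrank_ker g
    have h5 : LinearMap.range g = Z.map Y.mkQ := by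
      rw [hg, LinearMap.domRestrict, LinearMap.range_comp, Submodule.range_subtype]
    have h6 : LinearMap.ker g = Y.comap Z.subtype := by
      rw [hg, LinearMap.domRestrict, LinearMap.ker_comp, Submodule.ker_mkQ]
    have h7 : finrank ℂ (Y.comap Z.subtype) = finrank ℂ Y :=
      LinearEquiv.finrank_eq (Submodule.comapSubtypeEquivOfLe hYZ)
    rw [h5, h6, h7] at h4
    omega
  have h8 : finrank ℂ (LinearMap.ker f) ≤ finrank ℂ (X ⊓ Y.comap L : Submodule ℂ E) := by
    have h9 : LinearMap.ker f = (X ⊓ Y.comap L).comap X.subtype := by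
      ext x
      simp [hf, LinearMap.domRestrict]
    rw [h9]
    exact (LinearEquiv.finrank_eq (Submodule.comapSubtypeEquivOfLe inf_le_left)).le
  omega

theorem finrank_add_le_inf (X Y Z : Submodule ℂ E) (hX : X ≤ Z) (hY : Y ≤ Z) :
    finrank ℂ X + finrank ℂ Y ≤ finrank ℂ (X ⊓ Y : Submodule ℂ E) + finrank ℂ Z := by
  have h := Submodule.finrank_sup_add_finrank_inf_eq X Y
  have h2 : finrank ℂ (X ⊔ Y : Submodule ℂ E) ≤ finrank ℂ Z := Submodule.finrank_mono (sup_le hX hY)
  omega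

end dims

/-! ### the global near invariance -/

section glob

variable {E : Type*} [NormedAddCommGroup E] [InnerProductSpace ℂ E] [FiniteDimensional ℂ E]

theorem near_inv_global (F E1 E2 E1' SS : Submodule ℂ E) (N : E →ₗ[ℂ] E) (ε d1 d2 d3 dS : ℝ)
    (hε0 : 0 ≤ ε) (hε1 : ε ≤ 1)
    (h2 : E2 ≤ E1) (hd2 : (finrank ℂ E1 : ℝ) ≤ finrank ℂ E2 + d2)
    (h1 : E1' ≤ E1) (hd1 : (finrank ℂ E1 : ℝ) ≤ finrank ℂ E1' + d1)
    (hd3 : (finrank ℂ F : ℝ) ≤ finrank ℂ E1 + d3)
    (hdS : (finrank ℂ E : ℝ) ≤ finrank ℂ SS + dS)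
    (hFS : ∀ v ∈ SS, F.starProjection v ∈ SS)
    (hE2 : ∀ v ∈ E2, ‖v - F.starProjection v‖ ≤ ε * ‖F.starProjection v‖)
    (hinv : ∀ v ∈ E1', ‖N v - E1.starProjection (N v)‖ ≤ ε * ‖v‖)
    (hN : ∀ v ∈ SS, ‖N v‖ ≤ ‖v‖) :
    ∃ G ≤ F, (finrank ℂ F : ℝ) ≤ finrank ℂ G + (d1 + 2 * d2 + d3 + dS) ∧
      ∀ f ∈ G, f ∈ SS ∧ ‖N f - F.starProjection (N f)‖ ≤ 5 * ε * ‖f‖ := by
  classical
  set X1 : Submodule ℂ E := E2 ⊓ E1' with hX1
  set X2 : Submodule ℂ E := X1 ⊓ SS with hX2
  set L : E →ₗ[ℂ] E := (E1.starProjection : E →ₗ[ℂ] E) ∘ₗ N with hL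
  set X3 : Submodule ℂ E := X2 ⊓ E2.comap L with hX3
  have c1 : (finrank ℂ E1 : ℝ) ≤ finrank ℂ X1 + (d1 + d2) := by
    have := finrank_add_le_inf E2 E1' E1 h2 h1
    have : (finrank ℂ E2 : ℝ) + finrank ℂ E1' ≤ finrank ℂ X1 + finrank ℂ E1 := by exact_mod_cast this
    linarith
  have c2 : (finrank ℂ X1 : ℝ) ≤ finrank ℂ X2 + dS := by
    have := finrank_add_le_inf X1 SS ⊤ le_top le_top
    rw [finrank_top] at this
    have : (finrank ℂ X1 : ℝ) + finrank ℂ SS ≤ finrank ℂ X2 + finrank ℂ E := by exact_mod_cast this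
    linarith
  have c3 : (finrank ℂ X2 : ℝ) ≤ finrank ℂ X3 + d2 := by
    have := finrank_add_le_comap X2 E2 E1 L h2 (fun v _ => by
      rw [hL]; exact Submodule.starProjection_apply_mem _ _)
    have : (finrank ℂ X2 : ℝ) + finrank ℂ E2 ≤ finrank ℂ X3 + finrank ℂ E1 := by exact_mod_cast this
    linarith
  have hX3E2 : X3 ≤ E2 := fun v hv => hv.1.1.1
  -- F is injective on X3
  set PF : E →ₗ[ℂ] E := (F.starProjection : E →ₗ[ℂ] E) with hPF
  have hPFv : ∀ v, PF v = F.starProjection v := fun v => rfl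
  have hinj : ∀ v ∈ E2, PF v = 0 → v = 0 := by
    intro v hv h0
    have := hE2 v hv
    rw [← hPFv, h0, norm_zero, mul_zero, sub_zero] at this
    exact norm_le_zero_iff.1 this
  have hfr : finrank ℂ (X3.map PF) = finrank ℂ X3 := by
    have h := LinearMap.finrank_range_add_finrank_ker (PF.domRestrict X3)
    have hk : LinearMap.ker (PF.domRestrict X3) = ⊥ := by
      rw [LinearMap.ker_eq_bot']
      rintro ⟨v, hv⟩ h0
      have := hinj v (hX3E2 hv) h0
      exact Subtype.ext this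
    rw [hk, finrank_bot, add_zero, LinearMap.domRestrict, LinearMap.range_comp,
      Submodule.range_subtype] at h
    exact h
  refine ⟨X3.map PF, ?_, ?_, ?_⟩
  · rintro _ ⟨v, _, rfl⟩
    exact Submodule.starProjection_apply_mem _ _
  · rw [hfr]; linarith
  · rintro _ ⟨v, hv, rfl⟩
    have hvE2 : v ∈ E2 := hX3E2 hv
    have hvE1' : v ∈ E1' := hv.1.1.2
    have hvS : v ∈ SS := hv.1.2
    have hy : E1.starProjection (N v) ∈ E2 := hv.2
    have hfS : PF v ∈ SS := hFS v hvS
    refine ⟨hfS, ?_⟩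
    set f := PF v with hf
    set y := E1.starProjection (N v) with hyd
    have hvf : ‖v - f‖ ≤ ε * ‖f‖ := hE2 v hvE2
    have hv2 : ‖v‖ ≤ 2 * ‖f‖ := by
      have : ‖v‖ ≤ ‖v - f‖ + ‖f‖ := by simpa using norm_add_le (v - f) f
      nlinarith [norm_nonneg f]
    have hNv : ‖N v‖ ≤ ‖v‖ := hN v hvS
    have hyn : ‖y‖ ≤ ‖N v‖ := Submodule.norm_starProjection_apply_le _ _
    have hz : ‖N v - y‖ ≤ ε * ‖v‖ := hinv v hvE1'
    have hNfv : ‖N (v - f)‖ ≤ ε * ‖f‖ := (hN _ (SS.sub_mem hvS hfS)).trans hvf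
    have hQ : ∀ x : E, ‖x - F.starProjection x‖ ≤ ‖x‖ := by
      intro x
      rw [← Submodule.starProjection_orthogonal_val]
      exact Submodule.norm_starProjection_apply_le _ _
    have hdec : N f - F.starProjection (N f) =
        (y - F.starProjection y) + ((N v - y) - F.starProjection (N v - y))
          - (N (v - f) - F.starProjection (N (v - f))) := by
      simp only [map_sub]; abel
    have e1 : ‖y - F.starProjection y‖ ≤ ε * (2 * ‖f‖) := by
      refine (hE2 y hy).trans ?_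
      refine mul_le_mul_of_nonneg_left ?_ hε0
      exact (Submodule.norm_starProjection_apply_le _ _).trans (hyn.trans (hNv.trans hv2))
    have e2 : ‖(N v - y) - F.starProjection (N v - y)‖ ≤ ε * (2 * ‖f‖) :=
      (hQ _).trans (hz.trans (mul_le_mul_of_nonneg_left hv2 hε0))
    have e3 : ‖N (v - f) - F.starProjection (N (v - f))‖ ≤ ε * ‖f‖ := (hQ _).trans hNfv
    rw [hdec]
    calc _ ≤ ‖(y - F.starProjection y) + ((N v - y) - F.starProjection (N v - y))‖
          + ‖N (v - f) - F.starProjection (N (v - f))‖ := norm_sub_le _ _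
      _ ≤ (‖y - F.starProjection y‖ + ‖(N v - y) - F.starProjection (N v - y)‖)
          + ‖N (v - f) - F.starProjection (N (v - f))‖ := by gcongr; exact norm_add_le _ _
      _ ≤ 5 * ε * ‖f‖ := by linarith

end glob

/-! ### from global to single windows -/

section windows

variable {E : Type*} [NormedAddCommGroup E] [InnerProductSpace ℂ E] [FiniteDimensional ℂ E]
  {V : Type*} [NormedAddCommGroup V] [InnerProductSpace ℂ V] [FiniteDimensional ℂ V]
  {κ : Type*}

theorem near_inv_windows (C : Finset κ) (emb : κ → V →ₗ[ℂ] E) (R : κ → E →ₗ[ℂ] V)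
    (hiso : ∀ J ∈ C, ∀ v : V, ‖emb J v‖ = ‖v‖)
    (hR : ∀ J ∈ C, ∀ (x : E) (v : V), inner ℂ (R J x) v = inner ℂ x (emb J v))
    (hort : ∀ J ∈ C, ∀ J' ∈ C, J ≠ J' → ∀ v v' : V, inner ℂ (emb J v) (emb J' v') = 0)
    (F G : Submodule ℂ E) (FJ : κ → Submodule ℂ V) (N : E →ₗ[ℂ] E) (NJ : κ → V →ₗ[ℂ] V)
    (c d : ℝ) (hc : 0 ≤ c) (hGF : G ≤ F)
    (hd : (finrank ℂ F : ℝ) ≤ finrank ℂ G + d)
    (hG : ∀ f ∈ G, ‖N f - F.starProjection (N f)‖ ≤ c * ‖f‖)
    (hFJ : ∀ J ∈ C, ∀ v ∈ FJ J, emb J v ∈ F)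
    (hPF : ∀ J ∈ C, ∀ x : E, R J (F.starProjection x) = (FJ J).starProjection (R J x))
    (hNJ : ∀ J ∈ C, ∀ v, R J (N (emb J v)) = NJ J v)
    (hNJJ : ∀ J ∈ C, ∀ J' ∈ C, J ≠ J' → ∀ v, R J (N (emb J' v)) = 0) :
    ∃ r : κ → ℕ, (∑ J ∈ C, (r J : ℝ)) ≤ d ∧ ∀ J ∈ C, ∃ F' ≤ FJ J,
      finrank ℂ (FJ J) ≤ finrank ℂ F' + r J ∧
      ∀ f ∈ F', ‖NJ J f - (FJ J).starProjection (NJ J f)‖ ≤ c * ‖f‖ := by
  classical
  set B : (J : κ) → (FJ J) →ₗ[ℂ] V := fun J =>
    (NJ J - ((FJ J).starProjection : V →ₗ[ℂ] V) ∘ₗ NJ J).domRestrict (FJ J) with hB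
  have hBv : ∀ J (v : FJ J), B J v = NJ J v - (FJ J).starProjection (NJ J v) := fun J v => rfl
  choose Vle Vgt hdim hle hgt using fun J => exists_split (B J) c hc
  refine ⟨fun J => finrank ℂ (Vgt J), ?_, ?_⟩
  · -- the direct sum of the `Vgt` meets `G` in `0`
    set Φ : ((J : C) → Vgt J) →ₗ[ℂ] E :=
      ∑ J : C, ((emb J) ∘ₗ (FJ J).subtype ∘ₗ (Vgt J).subtype) ∘ₗ LinearMap.proj J with hΦ
    have hΦv : ∀ z, Φ z = ∑ J : C, emb J ((z J : FJ J) : V) := by
      intro z
      simp [hΦ, LinearMap.sum_apply]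
    let embi : (J : C) → V →ₗᵢ[ℂ] E := fun J => ⟨emb J, hiso J J.2⟩
    have hfam : OrthogonalFamily ℂ (fun _ : C => V) embi := by
      intro J J' hne v v'
      exact hort J J.2 J' J'.2 (fun h => hne (Subtype.ext h)) v v'
    have hnormΦ : ∀ z, ‖Φ z‖ ^ 2 = ∑ J : C, ‖((z J : FJ J) : V)‖ ^ 2 := by
      intro z
      rw [hΦv]
      exact hfam.norm_sum (fun J => ((z J : FJ J) : V)) Finset.univ
    have hbessel : ∀ x : E, ∑ J : C, ‖R J x‖ ^ 2 ≤ ‖x‖ ^ 2 := by
      intro x
      set y : E := ∑ J : C, emb J (R J x) with hy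
      have hy2 : ‖y‖ ^ 2 = ∑ J : C, ‖R J x‖ ^ 2 := hfam.norm_sum (fun J => R J x) Finset.univ
      have hin : inner ℂ x y = ((∑ J : C, ‖R J x‖ ^ 2 : ℝ) : ℂ) := by
        rw [hy, inner_sum, Complex.ofReal_sum]
        refine Finset.sum_congr rfl fun J _ => ?_
        rw [← hR J J.2, inner_self_eq_norm_sq_to_K]
        simp
      have hcs : ‖inner ℂ x y‖ ≤ ‖x‖ * ‖y‖ := norm_inner_le_norm x y
      rw [hin, ← hy2, Complex.norm_real, Real.norm_of_nonneg (by positivity)] at hcs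
      rw [← hy2]
      have hyx : ‖y‖ ≤ ‖x‖ := by
        by_contra h
        push Not at h
        nlinarith [norm_nonneg x, norm_nonneg y]
      exact pow_le_pow_left₀ (norm_nonneg _) hyx 2
    have hzero : ∀ z, Φ z ∈ G → z = 0 := by
      intro z hz
      by_contra hne
      have hex : ∃ J : C, z J ≠ 0 := by
        by_contra h
        push Not at h
        exact hne (funext h)
      obtain ⟨J0, hJ0⟩ := hex
      have h1 := hG _ hz
      set x := N (Φ z) - F.starProjection (N (Φ z)) with hx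
      have hRx : ∀ J : C, R J x = B J (z J) := by
        intro J
        rw [hx, map_sub, hPF J J.2, hBv]
        have h2 : R J (N (Φ z)) = NJ J ((z J : FJ J) : V) := by
          rw [hΦv, map_sum, map_sum, Finset.sum_eq_single J]
          · exact hNJ J J.2 _
          · intro J' _ hne'
            exact hNJJ J J.2 J' J'.2 (fun h => hne' (Subtype.ext h).symm) _
          · simp
        rw [h2]
      have h3 : ‖x‖ ^ 2 ≤ c ^ 2 * ∑ J : C, ‖((z J : FJ J) : V)‖ ^ 2 := by
        rw [← hnormΦ, ← mul_pow]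
        exact pow_le_pow_left₀ (norm_nonneg _) h1 2
      have h4 : c ^ 2 * ∑ J : C, ‖((z J : FJ J) : V)‖ ^ 2 < ∑ J : C, ‖R J x‖ ^ 2 := by
        rw [Finset.mul_sum]
        refine Finset.sum_lt_sum (fun J _ => ?_) ⟨J0, Finset.mem_univ _, ?_⟩
        · rw [hRx, ← mul_pow]
          refine pow_le_pow_left₀ (by positivity) ?_ 2
          by_cases h0 : (z J : FJ J) = 0
          · rw [h0]; simp
          · exact (hgt J _ (z J).2 h0).le
        · rw [hRx, ← mul_pow]
          have h0 : (z J0 : FJ J0) ≠ 0 := fun h => hJ0 (Subtype.ext h)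
          exact pow_lt_pow_left₀ (hgt J0 _ (z J0).2 h0) (by positivity) (by norm_num)
      have h5 := hbessel x
      linarith
    have hinj : Function.Injective Φ := by
      rw [← LinearMap.ker_eq_bot, LinearMap.ker_eq_bot']
      intro z hz
      apply hzero
      rw [hz]
      exact G.zero_mem
    have hrange : LinearMap.range Φ ≤ F := by
      rintro _ ⟨z, rfl⟩
      rw [hΦv]
      exact F.sum_mem fun J _ => hFJ J J.2 _ (z J : FJ J).2
    have hinf : LinearMap.range Φ ⊓ G = ⊥ := by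
      rw [eq_bot_iff]
      rintro _ ⟨⟨z, rfl⟩, hz⟩
      rw [hzero z hz]
      simp
    have h1 := finrank_add_le_inf (LinearMap.range Φ) G F hrange hGF
    rw [hinf, finrank_bot, zero_add, LinearMap.finrank_range_of_inj hinj,
      Module.finrank_pi_fintype] at h1
    have h2 : ∑ J : C, finrank ℂ (Vgt J) = ∑ J ∈ C, finrank ℂ (Vgt J) :=
      Finset.sum_coe_sort C (fun J => finrank ℂ (Vgt J))
    rw [h2] at h1
    have h3 : ((∑ J ∈ C, finrank ℂ (Vgt J) : ℕ) : ℝ) + finrank ℂ G ≤ finrank ℂ F := by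
      exact_mod_cast h1
    push_cast at h3
    linarith
  · intro J _
    refine ⟨(Vle J).map (FJ J).subtype, Submodule.map_subtype_le _ _, ?_, ?_⟩
    · have h := (Submodule.equivMapOfInjective (FJ J).subtype (FJ J).injective_subtype (Vle J)).finrank_eq
      rw [← h, hdim J]
    · rintro _ ⟨v, hv, rfl⟩
      exact hle J v hv

end windows

end Crest.Agent.R113.NI
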