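import Crest.Agent.R113.Defs
import Crest.Agent.R113.NearInvAux

/-! # T06: near-invariance of `F` inside windows — blueprint 6835 (NI)

`good` = set of starts `s0` of good windows `[s0,s0+l)`. `g` is constant on windows. -/

set_option autoImplicit false

namespace Crest.Agent.R113

open scoped BigOperators

namespace NI

open Module Submodule

theorem coord_congr {q : ℕ} (x : EuclideanSpace ℂ (Fin q)) {i j : Fin q}
    (h : (i : ℕ) = (j : ℕ)) : x i = x j := by rw [Fin.ext h]

/-- restriction to the window `[a, a+l)` -/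
noncomputable def resw (q l a : ℕ) : EuclideanSpace ℂ (Fin q) →ₗ[ℂ] EuclideanSpace ℂ (Fin l) where
  toFun x := WithLp.toLp 2 fun j : Fin l => if h : a + (j : ℕ) < q then x ⟨a + (j : ℕ), h⟩ else 0
  map_add' v w := by
    ext m
    by_cases h : a + (m : ℕ) < q <;> simp [h]
  map_smul' c v := by
    ext m
    by_cases h : a + (m : ℕ) < q <;> simp [h]

theorem resw_apply (q l a : ℕ) (x : EuclideanSpace ℂ (Fin q)) (j : Fin l) :
    resw q l a x j = if h : a + (j : ℕ) < q then x ⟨a + (j : ℕ), h⟩ else 0 := rfl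

/-- coordinate projection onto the window `[a, a+l)` -/
noncomputable def cutw (q l a : ℕ) : EuclideanSpace ℂ (Fin q) →ₗ[ℂ] EuclideanSpace ℂ (Fin q) where
  toFun x := WithLp.toLp 2 fun m : Fin q => if a ≤ (m : ℕ) ∧ (m : ℕ) < a + l then x m else 0
  map_add' v w := by
    ext m
    by_cases h : a ≤ (m : ℕ) ∧ (m : ℕ) < a + l <;> simp [h]
  map_smul' c v := by
    ext m
    by_cases h : a ≤ (m : ℕ) ∧ (m : ℕ) < a + l <;> simp [h]

theorem cutw_apply (q l a : ℕ) (x : EuclideanSpace ℂ (Fin q)) (m : Fin q) :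
    cutw q l a x m = if a ≤ (m : ℕ) ∧ (m : ℕ) < a + l then x m else 0 := rfl

theorem embw_resw (q l a : ℕ) (x : EuclideanSpace ℂ (Fin q)) :
    emb q l a (resw q l a x) = cutw q l a x := by
  ext m
  rw [emb_apply, cutw_apply]
  by_cases h : a ≤ (m : ℕ) ∧ (m : ℕ) < a + l
  · rw [dif_pos h, if_pos h, resw_apply, dif_pos (by have := m.2; simp only []; omega)]
    apply coord_congr
    simp only []
    omega
  · rw [dif_neg h, if_neg h]

theorem resw_embw (q l a : ℕ) (ha : a + l ≤ q) (v : EuclideanSpace ℂ (Fin l)) :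
    resw q l a (emb q l a v) = v := by
  ext j
  have hj := j.2
  rw [resw_apply, dif_pos (by omega), emb_apply, dif_pos (by simp only []; omega)]
  apply coord_congr
  simp

theorem sum_window {q l a : ℕ} (ha : a + l ≤ q) {β : Type*} [AddCommMonoid β] (f : Fin q → β)
    (hf : ∀ m : Fin q, ¬ (a ≤ (m : ℕ) ∧ (m : ℕ) < a + l) → f m = 0) :
    ∑ m : Fin q, f m = ∑ j : Fin l, f ⟨a + (j : ℕ), by omega⟩ := by
  classical
  symm
  refine Finset.sum_of_injOn (fun j : Fin l => (⟨a + (j : ℕ), by omega⟩ : Fin q)) ?_ ?_ ?_ ?_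
  · intro j _ j' _ h
    have := congrArg Fin.val h
    simp only [] at this
    exact Fin.ext (by omega)
  · intro j _; simp
  · intro m _ hm
    apply hf
    intro hw
    apply hm
    refine ⟨⟨(m : ℕ) - a, by omega⟩, by simp, ?_⟩
    apply Fin.ext
    simp only []
    omega
  · intro j _; rfl

theorem inner_resw (q l a : ℕ) (ha : a + l ≤ q) (x : EuclideanSpace ℂ (Fin q))
    (v : EuclideanSpace ℂ (Fin l)) :
    inner ℂ (resw q l a x) v = inner ℂ x (emb q l a v) := by
  rw [PiLp.inner_apply, PiLp.inner_apply, sum_window ha]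
  · refine Finset.sum_congr rfl fun j _ => ?_
    have hj := j.2
    rw [resw_apply, dif_pos (by omega), emb_apply, dif_pos (by simp only []; omega)]
    congr 1
    apply coord_congr
    simp
  · intro m hm
    rw [emb_apply, dif_neg hm]
    simp

theorem inner_cutw (q l a : ℕ) (x y : EuclideanSpace ℂ (Fin q)) :
    inner ℂ (cutw q l a x) y = inner ℂ x (cutw q l a y) := by
  rw [PiLp.inner_apply, PiLp.inner_apply]
  refine Finset.sum_congr rfl fun m _ => ?_
  rw [cutw_apply, cutw_apply]
  by_cases h : a ≤ (m : ℕ) ∧ (m : ℕ) < a + l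
  · rw [if_pos h, if_pos h]
  · rw [if_neg h, if_neg h]; simp

theorem norm_embw (q l a : ℕ) (ha : a + l ≤ q) (v : EuclideanSpace ℂ (Fin l)) :
    ‖emb q l a v‖ = ‖v‖ := by
  have h : inner ℂ (emb q l a v) (emb q l a v) = inner ℂ v v := by
    rw [← inner_resw q l a ha, resw_embw q l a ha]
  have h2 : (‖emb q l a v‖ ^ 2 : ℝ) = ‖v‖ ^ 2 := by
    rw [inner_self_eq_norm_sq_to_K, inner_self_eq_norm_sq_to_K] at h
    exact_mod_cast h
  exact (pow_left_inj₀ (norm_nonneg _) (norm_nonneg _) (by norm_num)).1 h2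

theorem mem_winSub {q l a : ℕ} (F : Submodule ℂ (EuclideanSpace ℂ (Fin q)))
    (v : EuclideanSpace ℂ (Fin l)) : v ∈ winSub l a F ↔ emb q l a v ∈ F := by
  rw [winSub_eqna]; rfl

theorem starProjection_resw {q l a : ℕ} (ha : a + l ≤ q)
    (F : Submodule ℂ (EuclideanSpace ℂ (Fin q)))
    (hF : ∀ x ∈ F, cutw q l a x ∈ F) (x : EuclideanSpace ℂ (Fin q)) :
    resw q l a (F.starProjection x) = (winSub l a F).starProjection (resw q l a x) := by
  symm
  apply Submodule.eq_starProjection_of_mem_of_inner_eq_zero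
  · rw [mem_winSub, embw_resw]
    exact hF _ (Submodule.starProjection_apply_mem _ _)
  · intro w hw
    rw [← map_sub, inner_resw q l a ha]
    exact Submodule.starProjection_inner_eq_zero x _ ((mem_winSub _ _).1 hw)

theorem starProjection_cutw {q l a : ℕ}
    (F : Submodule ℂ (EuclideanSpace ℂ (Fin q)))
    (hF : ∀ x ∈ F, cutw q l a x ∈ F) (x : EuclideanSpace ℂ (Fin q)) :
    F.starProjection (cutw q l a x) = cutw q l a (F.starProjection x) := by
  apply Submodule.eq_starProjection_of_mem_of_inner_eq_zero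
  · exact hF _ (Submodule.starProjection_apply_mem _ _)
  · intro w hw
    rw [← map_sub, inner_cutw]
    exact Submodule.starProjection_inner_eq_zero x _ (hF w hw)

end NI

open Module Submodule NI in
theorem near_inv {q l : ℕ} (win : Fin q → ℤ) (u : ℤ → ℝ) (n : ℕ) (hn : n < l)
    (E E' F E2 : Submodule ℂ (EuclideanSpace ℂ (Fin q))) (g : Fin q → ℝ) (s G w cs d ω : ℝ)
    (hs : 0 ≤ s) (hg0 : ∀ i, 0 ≤ g i) (hgG : ∀ i, g i ≤ G)
    (hgw : ∀ i j, win i = win j → g i = g j) (hw : 0 ≤ w) (hcs : w + s * G ≤ cs)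
    (hinv : AppInv E E' u n (Real.exp (-cs)) d)
    (hF : BlockSub win F)
    (hFdim : (Module.finrank ℂ F : ℝ) ≤ Module.finrank ℂ E + ω)
    (hE2 : E2 ≤ E.map (mulD (fun i => Real.exp (-(s * g i)))))
    (hE2dim : (Module.finrank ℂ E : ℝ) ≤ Module.finrank ℂ E2 + ω)
    (hE2F : ∀ v ∈ E2, ‖v - F.starProjection v‖ ≤ Real.exp (-w) * ‖F.starProjection v‖)
    (good : Finset ℕ) (col : ℕ → Bool)
    (hgood : ∀ s0 ∈ good, s0 + 2 * l ≤ q ∧
      (∀ i : Fin q, win i = s0 ↔ s0 ≤ (i : ℕ) ∧ (i : ℕ) < s0 + l) ∧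
      (∀ i : Fin q, win i = (s0 + l : ℕ) ↔ s0 + l ≤ (i : ℕ) ∧ (i : ℕ) < s0 + 2 * l))
    (hcol : ∀ s0 ∈ good, col (s0 + l) ≠ col s0)
    (hweight : ∀ s0 ∈ good, ∀ i j : Fin q, s0 ≤ (i : ℕ) → (i : ℕ) < s0 + l →
      (j : ℕ) = (i : ℕ) + n → 0 ≤ wsum u i n + s * (g j - g i)) :
    ∃ (r : ℕ → ℕ) (F' : ℕ → Submodule ℂ (EuclideanSpace ℂ (Fin l))),
      ((∑ s0 ∈ good, r s0 : ℕ) : ℝ) ≤ 2 * (3 * ω + d + (q - good.card * l : ℝ)) ∧
      ∀ s0 ∈ good, F' s0 ≤ winSub l s0 F ∧
        Module.finrank ℂ (winSub l s0 F) ≤ Module.finrank ℂ (F' s0) + r s0 ∧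
        ∀ v ∈ F' s0, ‖shiftN (fun m => u (s0 + m)) n v
          - (winSub l s0 F).starProjection (shiftN (fun m => u (s0 + m)) n v)‖
            ≤ 5 * Real.exp (-w) * ‖v‖ := by
  classical
  -- exponential diagonals
  set em : Fin q → ℝ := fun i => Real.exp (-(s * g i)) with hem
  set ep : Fin q → ℝ := fun i => Real.exp (s * g i) with hep
  have hemp : ∀ x : EuclideanSpace ℂ (Fin q), mulD em (mulD ep x) = x := by
    intro x
    ext i
    rw [mulD_apply, mulD_apply, ← mul_assoc, ← Complex.ofReal_mul, hem, hep]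
    simp only []
    rw [← Real.exp_add]
    simp
  have hepm : ∀ x : EuclideanSpace ℂ (Fin q), mulD ep (mulD em x) = x := by
    intro x
    ext i
    rw [mulD_apply, mulD_apply, ← mul_assoc, ← Complex.ofReal_mul, hem, hep]
    simp only []
    rw [← Real.exp_add]
    simp
  have hem1 : ∀ x : EuclideanSpace ℂ (Fin q), ‖mulD em x‖ ≤ ‖x‖ := by
    intro x
    rw [EuclideanSpace.norm_eq, EuclideanSpace.norm_eq]
    apply Real.sqrt_le_sqrt
    refine Finset.sum_le_sum fun i _ => ?_
    rw [mulD_apply, norm_mul, mul_pow]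
    have h1 : ‖((em i : ℝ) : ℂ)‖ ≤ 1 := by
      rw [Complex.norm_real, hem, Real.norm_of_nonneg (Real.exp_pos _).le]
      apply Real.exp_le_one_iff.2
      have := mul_nonneg hs (hg0 i)
      linarith
    have h2 : ‖((em i : ℝ) : ℂ)‖ ^ 2 ≤ 1 := pow_le_one₀ (norm_nonneg _) h1
    nlinarith [sq_nonneg ‖x i‖]
  have hepG : ∀ x : EuclideanSpace ℂ (Fin q), ‖mulD ep x‖ ≤ Real.exp (s * G) * ‖x‖ := by
    intro x
    have h0 : ‖mulD ep x‖ ^ 2 ≤ (Real.exp (s * G) * ‖x‖) ^ 2 := by
      rw [mul_pow, EuclideanSpace.norm_sq_eq, EuclideanSpace.norm_sq_eq, Finset.mul_sum]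
      refine Finset.sum_le_sum fun i _ => ?_
      rw [mulD_apply, norm_mul, mul_pow]
      refine mul_le_mul_of_nonneg_right ?_ (by positivity)
      refine pow_le_pow_left₀ (norm_nonneg _) ?_ 2
      rw [Complex.norm_real, hep, Real.norm_of_nonneg (Real.exp_pos _).le]
      exact Real.exp_le_exp.2 (mul_le_mul_of_nonneg_left (hgG i) hs)
    exact le_of_sq_le_sq h0 (by positivity)
  -- the conjugated shift
  set N : EuclideanSpace ℂ (Fin q) →ₗ[ℂ] EuclideanSpace ℂ (Fin q) :=
    mulD em ∘ₗ shiftN u n ∘ₗ mulD ep with hN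
  have hNv : ∀ (x : EuclideanSpace ℂ (Fin q)) (j : Fin q), N x j = if h : n ≤ (j : ℕ) then
      ((em j * Real.exp (-(wsum u ((j : ℤ) - n) n)) *
        ep ⟨(j : ℕ) - n, lt_of_le_of_lt (Nat.sub_le _ _) j.2⟩ : ℝ) : ℂ) *
        x ⟨(j : ℕ) - n, lt_of_le_of_lt (Nat.sub_le _ _) j.2⟩ else 0 := by
    intro x j
    rw [hN, LinearMap.comp_apply, LinearMap.comp_apply, mulD_apply, shiftN_apply]
    by_cases h : n ≤ (j : ℕ)
    · rw [dif_pos h, dif_pos h, mulD_apply]
      push_cast
      ring
    · rw [dif_neg h, dif_neg h, mul_zero]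
  have hl : 0 < l := lt_of_le_of_lt (Nat.zero_le _) hn
  -- windows of good starts
  have hin : ∀ s0 ∈ good, ∀ i : Fin q, win i = s0 ↔ s0 ≤ (i : ℕ) ∧ (i : ℕ) < s0 + l :=
    fun s0 h => (hgood s0 h).2.1
  have hq : ∀ s0 ∈ good, s0 + l ≤ q := fun s0 h => by have := (hgood s0 h).1; omega
  have hdisj : ∀ s0 ∈ good, ∀ s1 ∈ good, s0 < s1 → s0 + l ≤ s1 := by
    intro s0 h0 s1 h1 hlt
    by_contra hcon
    push Not at hcon
    have hs1q : s1 < q := by have := hq s1 h1; omega
    have e1 := (hin s1 h1 ⟨s1, hs1q⟩).2 ⟨le_rfl, by simp only []; omega⟩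
    have e0 := (hin s0 h0 ⟨s1, hs1q⟩).2 ⟨by simp only []; omega, by simp only []; omega⟩
    rw [e1] at e0
    have : s1 = s0 := by exact_mod_cast e0
    omega
  have hdisj2 : ∀ s0 ∈ good, ∀ s1 ∈ good, col s0 = col s1 → s0 < s1 → s0 + 2 * l ≤ s1 := by
    intro s0 h0 s1 h1 hc hlt
    by_contra hcon
    push Not at hcon
    have hs1q : s1 < q := by have := hq s1 h1; omega
    have h01 := hdisj s0 h0 s1 h1 hlt
    have e1 := (hin s1 h1 ⟨s1, hs1q⟩).2 ⟨le_rfl, by simp only []; omega⟩
    have e0 := ((hgood s0 h0).2.2 ⟨s1, hs1q⟩).2 ⟨by simp only []; omega, by simp only []; omega⟩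
    rw [e1] at e0
    have : s1 = s0 + l := by exact_mod_cast e0
    rw [this] at hc
    exact hcol s0 h0 hc.symm
  -- the union of the good windows
  set S : Finset (Fin q) := Finset.univ.filter fun i : Fin q =>
    ∃ s0 ∈ good, s0 ≤ (i : ℕ) ∧ (i : ℕ) < s0 + l with hS
  have hScard : S.card = good.card * l := by
    have h1 : S = good.biUnion fun s0 => Finset.univ.filter fun i : Fin q =>
        s0 ≤ (i : ℕ) ∧ (i : ℕ) < s0 + l := by
      ext i
      simp [hS]
    rw [h1, Finset.card_biUnion]
    · rw [Finset.sum_const_nat (m := l)]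
      intro s0 h0
      have := hq s0 h0
      rw [Finset.card_filter, sum_window this]
      · rw [Finset.sum_congr rfl (g := fun _ => 1)]
        · simp
        · intro j _
          have := j.2
          rw [if_pos]
          constructor
          · simp
          · simp
      · intro m hm
        rw [if_neg hm]
    · intro s0 h0 s1 h1 hne
      rw [Function.onFun, Finset.disjoint_left]
      intro i hi0 hi1
      simp only [Finset.mem_filter, Finset.mem_univ, true_and] at hi0 hi1
      rcases lt_or_gt_of_ne hne with h | h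
      · have := hdisj s0 h0 s1 h1 h; omega
      · have := hdisj s1 h1 s0 h0 h; omega
  set SS : Submodule ℂ (EuclideanSpace ℂ (Fin q)) := coordSub S with hSS
  have memSS : ∀ v : EuclideanSpace ℂ (Fin q), v ∈ SS ↔ ∀ i, i ∉ S → v i = 0 :=
    fun v => mem_coordSub S v
  have hSSdim : (finrank ℂ (EuclideanSpace ℂ (Fin q)) : ℝ) ≤ finrank ℂ SS + (q - good.card * l) := by
    have h1 : S.card ≤ finrank ℂ SS := by
      set L : EuclideanSpace ℂ (Fin q) →ₗ[ℂ] ((Sᶜ : Finset (Fin q)) → ℂ) :=
        LinearMap.pi fun i => ((EuclideanSpace.proj (i : Fin q) :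
          EuclideanSpace ℂ (Fin q) →L[ℂ] ℂ) : EuclideanSpace ℂ (Fin q) →ₗ[ℂ] ℂ) with hL
      have hk : LinearMap.ker L = SS := by
        ext v
        rw [LinearMap.mem_ker, memSS]
        constructor
        · intro h i hi
          exact congrFun h ⟨i, Finset.mem_compl.2 hi⟩
        · intro h
          ext i
          exact h i (Finset.mem_compl.1 i.2)
      have h3 := LinearMap.finrank_range_add_finrank_ker L
      have h4 : finrank ℂ (LinearMap.range L) ≤ Sᶜ.card := by
        refine (Submodule.finrank_le _).trans ?_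
        simp
      rw [hk, finrank_euclideanSpace_fin] at h3
      rw [Finset.card_compl, Fintype.card_fin] at h4
      have h5 : S.card ≤ q := by simpa using Finset.card_le_univ S
      omega
    rw [finrank_euclideanSpace_fin]
    have h2 : (S.card : ℝ) ≤ finrank ℂ SS := by exact_mod_cast h1
    rw [hScard] at h2
    push_cast at h2
    linarith
  -- `F` and single windows
  have hcutF : ∀ s0 ∈ good, ∀ x ∈ F, cutw q l s0 x ∈ F := by
    intro s0 h0 x hx
    have h1 := (BlockSub_eqna win F ▸ hF) (s0 : ℤ) x hx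
    have h2 : cutw q l s0 x = restr {i | win i = (s0 : ℤ)} x := by
      ext m
      rw [cutw_apply, restr_apply]
      have := hin s0 h0 m
      by_cases h : s0 ≤ (m : ℕ) ∧ (m : ℕ) < s0 + l
      · rw [if_pos h, if_pos (show m ∈ {i | win i = (s0 : ℤ)} from this.2 h)]
      · rw [if_neg h, if_neg (show ¬ m ∈ {i | win i = (s0 : ℤ)} from fun h' => h (this.1 h'))]
    rw [h2]
    exact h1
  have hFS : ∀ v ∈ SS, F.starProjection v ∈ SS := by
    intro v hv
    have h1 : v = ∑ s0 ∈ good, cutw q l s0 v := by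
      ext i
      rw [WithLp.ofLp_sum, Finset.sum_apply]
      by_cases hi : i ∈ S
      · obtain ⟨s0, h0, h2⟩ := (Finset.mem_filter.1 hi).2
        rw [Finset.sum_eq_single s0]
        · rw [cutw_apply, if_pos h2]
        · intro s1 h1 hne
          rw [cutw_apply, if_neg]
          intro h3
          rcases lt_or_gt_of_ne hne with h | h
          · have := hdisj s1 h1 s0 h0 h; omega
          · have := hdisj s0 h0 s1 h1 h; omega
        · intro h; exact absurd h0 h
      · rw [(memSS v).1 hv i hi, Finset.sum_eq_zero]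
        intro s0 h0
        rw [cutw_apply, if_neg]
        intro h2
        exact hi (Finset.mem_filter.2 ⟨Finset.mem_univ _, s0, h0, h2⟩)
    rw [h1, map_sum]
    refine SS.sum_mem fun s0 h0 => ?_
    rw [starProjection_cutw F (hcutF s0 h0), memSS]
    intro i hi
    rw [cutw_apply, if_neg]
    intro h2
    exact hi (Finset.mem_filter.2 ⟨Finset.mem_univ _, s0, h0, h2⟩)
  -- `N` is a contraction on `SS`
  have hNcontr : ∀ v ∈ SS, ‖N v‖ ≤ ‖v‖ := by
    intro v hv
    have h0 : ‖N v‖ ^ 2 ≤ ‖v‖ ^ 2 := by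
      rw [EuclideanSpace.norm_sq_eq, EuclideanSpace.norm_sq_eq]
      have h1 : ∀ j : Fin q, ‖N v j‖ ^ 2 ≤ if h : n ≤ (j : ℕ) then
          ‖v ⟨(j : ℕ) - n, lt_of_le_of_lt (Nat.sub_le _ _) j.2⟩‖ ^ 2 else 0 := by
        intro j
        rw [hNv]
        by_cases h : n ≤ (j : ℕ)
        · rw [dif_pos h, dif_pos h, norm_mul, mul_pow]
          set i : Fin q := ⟨(j : ℕ) - n, lt_of_le_of_lt (Nat.sub_le _ _) j.2⟩ with hi
          by_cases hiS : i ∈ S
          · obtain ⟨s0, h0, h2⟩ := (Finset.mem_filter.1 hiS).2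
            have h3 := hweight s0 h0 i j h2.1 h2.2 (by rw [hi]; simp only []; omega)
            have h4 : ‖((em j * Real.exp (-(wsum u ((j : ℤ) - n) n)) * ep i : ℝ) : ℂ)‖ ≤ 1 := by
              rw [Complex.norm_real, hem, hep]
              simp only []
              rw [← Real.exp_add, ← Real.exp_add, Real.norm_of_nonneg (Real.exp_pos _).le,
                Real.exp_le_one_iff]
              have h5 : ((i : ℕ) : ℤ) = (j : ℤ) - n := by
                rw [hi]; simp only []; omega
              rw [h5] at h3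
              linarith
            have h5 := pow_le_one₀ (n := 2) (norm_nonneg _) h4
            nlinarith [sq_nonneg ‖v i‖]
          · rw [(memSS v).1 hv i hiS]
            simp
        · rw [dif_neg h, dif_neg h]; simp
      refine (Finset.sum_le_sum fun j _ => h1 j).trans ?_
      rw [← Finset.sum_filter_add_sum_filter_not Finset.univ (fun j : Fin q => n ≤ (j : ℕ))]
      rw [Finset.sum_eq_zero (s := Finset.univ.filter fun j : Fin q => ¬ n ≤ (j : ℕ))
        (fun j hj => dif_neg (Finset.mem_filter.1 hj).2), add_zero]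
      have h2 : ∑ j ∈ Finset.univ.filter (fun j : Fin q => n ≤ (j : ℕ)),
          (if h : n ≤ (j : ℕ) then
          ‖v ⟨(j : ℕ) - n, lt_of_le_of_lt (Nat.sub_le _ _) j.2⟩‖ ^ 2 else 0) =
          ∑ i ∈ (Finset.univ.filter (fun j : Fin q => n ≤ (j : ℕ))).image
            (fun j : Fin q => (⟨(j : ℕ) - n, lt_of_le_of_lt (Nat.sub_le _ _) j.2⟩ : Fin q)),
            ‖v i‖ ^ 2 := by
        rw [Finset.sum_image]
        · refine Finset.sum_congr rfl fun j hj => ?_
          rw [dif_pos (Finset.mem_filter.1 hj).2]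
        · intro j hj j' hj' h
          have e1 := (Finset.mem_filter.1 hj).2
          have e2 := (Finset.mem_filter.1 hj').2
          have := congrArg Fin.val h
          simp only [] at this
          exact Fin.ext (by omega)
      rw [h2]
      exact Finset.sum_le_sum_of_subset_of_nonneg (Finset.subset_univ _)
        (fun i _ _ => by positivity)
    exact le_of_sq_le_sq h0 (norm_nonneg _)
  -- `E₁` and `E₁'`
  set E1 := E.map (mulD em) with hE1
  set E1' := E'.map (mulD em) with hE1'
  have hinj : Function.Injective (mulD em) := by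
    intro x y h
    rw [← hepm x, ← hepm y, h]
  have hfrE1 : finrank ℂ E1 = finrank ℂ E :=
    ((Submodule.equivMapOfInjective (mulD em) hinj E).finrank_eq).symm
  have hfrE1' : finrank ℂ E1' = finrank ℂ E' :=
    ((Submodule.equivMapOfInjective (mulD em) hinj E').finrank_eq).symm
  have hinv1 : ∀ v ∈ E1', ‖N v - E1.starProjection (N v)‖ ≤ Real.exp (-w) * ‖v‖ := by
    rintro _ ⟨v, hv, rfl⟩
    have h1 : N (mulD em v) = mulD em (shiftN u n v) := by
      rw [hN, LinearMap.comp_apply, LinearMap.comp_apply, hepm]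
    have h2 : ‖N (mulD em v) - E1.starProjection (N (mulD em v))‖ ≤
        ‖N (mulD em v) - mulD em (E.starProjection (shiftN u n v))‖ := by
      rw [Submodule.starProjection_minimal]
      refine ciInf_le ⟨0, ?_⟩ (⟨mulD em (E.starProjection (shiftN u n v)),
        ⟨_, Submodule.starProjection_apply_mem _ _, rfl⟩⟩ : E1)
      rintro _ ⟨x, rfl⟩
      exact norm_nonneg _
    refine h2.trans ?_
    rw [h1, ← map_sub]
    refine (hem1 _).trans ((hinv.inv v hv).trans ?_)
    have h3 : ‖v‖ ≤ Real.exp (s * G) * ‖mulD em v‖ := by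
      conv_lhs => rw [← hepm v]
      exact hepG _
    calc Real.exp (-cs) * ‖v‖ ≤ Real.exp (-cs) * (Real.exp (s * G) * ‖mulD em v‖) := by
          gcongr
      _ = Real.exp (-cs + s * G) * ‖mulD em v‖ := by rw [← mul_assoc, ← Real.exp_add]
      _ ≤ Real.exp (-w) * ‖mulD em v‖ := by
          gcongr
          linarith
  obtain ⟨Gd, hGF, hGdim, hGd⟩ := near_inv_global F E1 E2 E1' SS N (Real.exp (-w)) d ω ω
    (q - good.card * l) (Real.exp_pos _).le (Real.exp_le_one_iff.2 (by linarith))
    hE2 (by rw [hfrE1]; exact hE2dim) (Submodule.map_mono hinv.le)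
    (by rw [hfrE1, hfrE1']; exact hinv.codim) (by rw [hfrE1]; exact hFdim)
    hSSdim hFS hE2F hinv1 hNcontr
  -- the two colour classes
  have hclass : ∀ bb : Bool, ∃ r : ℕ → ℕ,
      (∑ J ∈ good.filter (fun s0 => col s0 = bb), (r J : ℝ)) ≤
        d + 2 * ω + ω + (q - good.card * l) ∧
      ∀ J ∈ good.filter (fun s0 => col s0 = bb), ∃ F' ≤ winSub l J F,
      finrank ℂ (winSub l J F) ≤ finrank ℂ F' + r J ∧
      ∀ f ∈ F', ‖shiftN (fun m => u (J + m)) n f -
        (winSub l J F).starProjection (shiftN (fun m => u (J + m)) n f)‖ ≤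
          5 * Real.exp (-w) * ‖f‖ := by
    intro bb
    have hmem : ∀ J ∈ good.filter (fun s0 => col s0 = bb), J ∈ good ∧ col J = bb :=
      fun J hJ => Finset.mem_filter.1 hJ
    refine near_inv_windows (good.filter (fun s0 => col s0 = bb)) (fun J => emb q l J)
      (fun J => resw q l J) ?_ ?_ ?_ F Gd (fun J => winSub l J F) N
      (fun J => shiftN (fun m => u (J + m)) n) (5 * Real.exp (-w)) _ (by positivity) hGF hGdim
      (fun f hf => (hGd f hf).2) ?_ ?_ ?_ ?_
    · intro J hJ v
      exact norm_embw q l J (hq J (hmem J hJ).1) v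
    · intro J hJ x v
      exact inner_resw q l J (hq J (hmem J hJ).1) x v
    · intro J hJ J' hJ' hne v v'
      rw [← inner_resw q l J' (hq J' (hmem J' hJ').1)]
      have h0 : resw q l J' (emb q l J v) = 0 := by
        ext j
        rw [resw_apply]
        have hJq := hq J' (hmem J' hJ').1
        have hj := j.2
        rw [dif_pos (by omega), emb_apply, dif_neg]
        · rfl
        · simp only []
          intro h2
          rcases lt_or_gt_of_ne hne with h | h
          · have := hdisj J (hmem J hJ).1 J' (hmem J' hJ').1 h; omega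
          · have := hdisj J' (hmem J' hJ').1 J (hmem J hJ).1 h; omega
      rw [h0, inner_zero_left]
    · intro J hJ v hv
      exact (mem_winSub _ _).1 hv
    · intro J hJ x
      exact starProjection_resw (hq J (hmem J hJ).1) F (hcutF J (hmem J hJ).1) x
    · intro J hJ v
      ext j
      have hJq := hq J (hmem J hJ).1
      have hj := j.2
      rw [resw_apply, dif_pos (by omega), hNv, shiftN_apply]
      by_cases h1 : n ≤ (j : ℕ)
      · rw [dif_pos h1, dif_pos (by simp only []; omega), emb_apply,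
          dif_pos (by simp only []; omega)]
        have hgc : g ⟨J + (j : ℕ), by omega⟩ = g ⟨J + (j : ℕ) - n, by omega⟩ := by
          apply hgw
          rw [(hin J (hmem J hJ).1 ⟨J + (j : ℕ), by omega⟩).2 ⟨by simp, by simp⟩,
            (hin J (hmem J hJ).1 ⟨J + (j : ℕ) - n, by omega⟩).2
              ⟨by simp only []; omega, by simp only []; omega⟩]
        congr 1
        · rw [hem, hep]
          simp only []
          rw [hgc, ← Real.exp_add, ← Real.exp_add]
          push_cast
          congr 1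
          have h2 : wsum u (((J : ℤ) + (j : ℕ)) - n) n =
              wsum (fun m => u (J + m)) ((j : ℤ) - n) n := by
            rw [wsum_eqna, wsum_eqna]
            refine Finset.sum_congr rfl fun i _ => ?_
            congr 1
            ring
          rw [h2]
          ring
        · apply coord_congr
          simp only []
          omega
      · rw [dif_neg h1]
        by_cases h2 : n ≤ J + (j : ℕ)
        · rw [dif_pos (by simp only []; omega), emb_apply, dif_neg (by simp only []; omega),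
            mul_zero]
        · rw [dif_neg (by simp only []; omega)]
    · intro J hJ J' hJ' hne v
      ext j
      have hJq := hq J (hmem J hJ).1
      have hj := j.2
      rw [resw_apply, dif_pos (by omega), hNv]
      by_cases h2 : n ≤ J + (j : ℕ)
      · rw [dif_pos (by simp only []; omega), emb_apply, dif_neg, mul_zero]
        · rfl
        · simp only []
          intro h3
          have hcc : col J = col J' := (hmem J hJ).2.trans (hmem J' hJ').2.symm
          rcases lt_or_gt_of_ne hne with h | h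
          · have := hdisj2 J (hmem J hJ).1 J' (hmem J' hJ').1 hcc h; omega
          · have := hdisj2 J' (hmem J' hJ').1 J (hmem J hJ).1 hcc.symm h; omega
      · rw [dif_neg (by simp only []; omega)]
        rfl
  choose rr hrr hFF using hclass
  have hFF' : ∀ J ∈ good, ∃ F' ≤ winSub l J F,
      finrank ℂ (winSub l J F) ≤ finrank ℂ F' + rr (col J) J ∧
      ∀ f ∈ F', ‖shiftN (fun m => u (J + m)) n f -
        (winSub l J F).starProjection (shiftN (fun m => u (J + m)) n f)‖ ≤
          5 * Real.exp (-w) * ‖f‖ :=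
    fun J hJ => hFF (col J) J (Finset.mem_filter.2 ⟨hJ, rfl⟩)
  choose! F' hF1 hF2 hF3 using hFF'
  refine ⟨fun J => rr (col J) J, F', ?_, fun J hJ => ⟨hF1 J hJ, hF2 J hJ, hF3 J hJ⟩⟩
  have hsplit : ∑ s0 ∈ good, (rr (col s0) s0 : ℝ) =
      ∑ s0 ∈ good.filter (fun s0 => col s0 = true), (rr true s0 : ℝ) +
      ∑ s0 ∈ good.filter (fun s0 => col s0 = false), (rr false s0 : ℝ) := by
    rw [← Finset.sum_filter_add_sum_filter_not good (fun s0 => col s0 = true)]
    congr 1
    · refine Finset.sum_congr rfl fun J hJ => ?_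
      rw [(Finset.mem_filter.1 hJ).2]
    · have : good.filter (fun s0 => ¬ col s0 = true) = good.filter (fun s0 => col s0 = false) := by
        refine Finset.filter_congr fun J _ => ?_
        simp
      rw [this]
      refine Finset.sum_congr rfl fun J hJ => ?_
      rw [(Finset.mem_filter.1 hJ).2]
  push_cast
  rw [hsplit]
  have h1 := hrr true
  have h2 := hrr false
  linarith

end Crest.Agent.R113
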