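import Crest.Agent.R113.Defs

/-! # T02: auxiliary lemmas for `flux_window` (row 113) -/

set_option autoImplicit false

namespace Crest.Agent.R113.FW

open scoped BigOperators

section FluxAux


variable {ι : Type*} [Fintype ι] [DecidableEq ι]

/-- Block diagonal maps commute with the restriction to `B` on vectors vanishing on the windows
cut by `B`. -/
theorem restr_comm_of_vanish {κ' : Type*} [DecidableEq κ'] (win : ι → κ')
    (a : EuclideanSpace ℂ ι →ₗ[ℂ] EuclideanSpace ℂ ι) (ha : BlockDiag win a)
    (B : Set ι) [DecidablePred (· ∈ B)] (w : EuclideanSpace ℂ ι)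
    (hw : ∀ i j : ι, win i = win j → i ∈ B → j ∉ B → w i = 0 ∧ w j = 0) :
    restr B (a w) = a (restr B w) := by
  ext i
  rw [restr_apply]
  have hi : ∀ v : EuclideanSpace ℂ ι, (a v) i = (a (restr {k | win k = win i} v)) i := by
    intro v
    rw [ha (win i) v, restr_apply]
    simp
  rw [hi w, hi (restr B w)]
  by_cases hcut : ∃ j k : ι, win j = win i ∧ win k = win i ∧ j ∈ B ∧ k ∉ B
  · -- cut window: `w` vanishes on it
    obtain ⟨j, k, hj, hk, hjB, hkB⟩ := hcut
    have hz : ∀ m : ι, win m = win i → w m = 0 := by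
      intro m hm
      by_cases hmB : m ∈ B
      · exact (hw m k (hm.trans hk.symm) hmB hkB).1
      · exact (hw j m (hj.trans hm.symm) hjB hmB).2
    have h1 : restr {k | win k = win i} w = 0 := by
      ext m
      rw [restr_apply]
      by_cases hm : win m = win i
      · simp [hm, hz m hm]
      · simp [hm]
    have h2 : restr {k | win k = win i} (restr B w) = 0 := by
      ext m
      rw [restr_apply]
      by_cases hm : win m = win i
      · simp [hm, hz m hm]
      · simp [hm]
    rw [h1, h2]
    simp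
  · push Not at hcut
    by_cases hiB : i ∈ B
    · have h2 : restr {k | win k = win i} (restr B w) = restr {k | win k = win i} w := by
        ext m
        rw [restr_apply, restr_apply, restr_apply]
        by_cases hm : win m = win i
        · have : m ∈ B := by
            by_contra hmB
            exact hmB (hcut i m rfl hm hiB)
          simp [hm, this]
        · simp [hm]
      rw [h2]
      simp [hiB]
    · have h2 : restr {k | win k = win i} (restr B w) = 0 := by
        ext m
        rw [restr_apply, restr_apply]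
        by_cases hm : win m = win i
        · have : m ∉ B := by
            intro hmB
            exact hiB (hcut m i hm rfl hmB)
          simp [this]
        · simp [hm]
      rw [h2]
      simp [hiB]

theorem norm_sub_starProjection_le {ι : Type*} [Fintype ι] [DecidableEq ι]
    (X : Submodule ℂ (EuclideanSpace ℂ ι)) (v w : EuclideanSpace ℂ ι) (hw : w ∈ X) :
    ‖v - X.starProjection v‖ ≤ ‖v - w‖ := by
  have h1 : v - w = (v - X.starProjection v) + (X.starProjection v - w) := by abel
  have h2 : inner ℂ (v - X.starProjection v) (X.starProjection v - w) = 0 := by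
    have h3 : X.starProjection v - w ∈ X := X.sub_mem (by simp) hw
    have h4 : v - X.starProjection v ∈ Xᗮ := by simp
    exact Submodule.inner_left_of_mem_orthogonal h3 h4
  have h5 := norm_add_sq_eq_norm_sq_add_norm_sq_of_inner_eq_zero _ _ h2
  rw [← h1] at h5
  nlinarith [norm_nonneg (v - w), norm_nonneg (v - X.starProjection v),
    norm_nonneg (X.starProjection v - w)]

theorem norm_restr_le {ι : Type*} [Fintype ι] [DecidableEq ι] (A : Set ι) [DecidablePred (· ∈ A)]
    (v : EuclideanSpace ℂ ι) : ‖restr A v‖ ≤ ‖v‖ := by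
  have h : ‖restr A v‖ ^ 2 ≤ ‖v‖ ^ 2 := by
    rw [EuclideanSpace.norm_sq_eq, EuclideanSpace.norm_sq_eq]
    refine Finset.sum_le_sum fun i _ => ?_
    rw [restr_apply]
    split_ifs
    · exact le_rfl
    · simp
  exact le_of_sq_le_sq h (norm_nonneg _)

end FluxAux

section FluxShift


variable {q : ℕ}

theorem shiftN_apply_lt (u : ℤ → ℝ) (n : ℕ) (e : EuclideanSpace ℂ (Fin q)) (j : Fin q)
    (hj : (j : ℕ) < n) : shiftN u n e j = 0 := by
  have : ¬ n ≤ (j : ℕ) := by omega
  simp [shiftN, this]

theorem shiftN_apply_add (u : ℤ → ℝ) (n : ℕ) (e : EuclideanSpace ℂ (Fin q)) (i : Fin q)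
    (h : (i : ℕ) + n < q) :
    shiftN u n e ⟨(i : ℕ) + n, h⟩ = (Real.exp (-(wsum u (i : ℕ) n)) : ℂ) * e i := by
  have h1 : n ≤ (i : ℕ) + n := by omega
  have h2 : (((i : ℕ) + n : ℕ) : ℤ) - n = ((i : ℕ) : ℤ) := by push_cast; ring
  have h3 : (⟨(i : ℕ) + n - n, lt_of_le_of_lt (Nat.sub_le _ _) h⟩ : Fin q) = i := by
    ext; simp
  simp only [shiftN, LinearMap.coe_mk, AddHom.coe_mk, dif_pos h1, h2]
  rw [h3]

theorem sum_shift (n : ℕ) (f : Fin q → ℝ) (hf : ∀ j : Fin q, (j : ℕ) < n → f j = 0) :
    ∑ j, f j = ∑ i : Fin q, if h : (i : ℕ) + n < q then f ⟨(i : ℕ) + n, h⟩ else 0 := by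
  classical
  have h1 : ∑ j, f j = ∑ j ∈ Finset.univ.filter (fun j : Fin q => n ≤ (j : ℕ)), f j := by
    rw [Finset.sum_filter]
    refine Finset.sum_congr rfl fun j _ => ?_
    by_cases h : n ≤ (j : ℕ)
    · simp [h]
    · simp [h, hf j (by omega)]
  have h2 : (∑ i : Fin q, if h : (i : ℕ) + n < q then f ⟨(i : ℕ) + n, h⟩ else 0)
      = ∑ i ∈ Finset.univ.filter (fun i : Fin q => (i : ℕ) + n < q),
          (if h : (i : ℕ) + n < q then f ⟨(i : ℕ) + n, h⟩ else 0) := by
    rw [Finset.sum_filter]
    refine Finset.sum_congr rfl fun j _ => ?_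
    by_cases h : (j : ℕ) + n < q
    · simp [h]
    · simp [h]
  rw [h1, h2]
  refine Finset.sum_bij' (i := fun j _ => (⟨(j : ℕ) - n, by omega⟩ : Fin q))
    (j := fun i hi => (⟨(i : ℕ) + n, by simpa using hi⟩ : Fin q)) ?_ ?_ ?_ ?_ ?_
  · intro j hj
    simp only [Finset.mem_filter, Finset.mem_univ, true_and] at hj ⊢
    have := j.2
    omega
  · intro i hi
    simp only [Finset.mem_filter, Finset.mem_univ, true_and] at hi ⊢
    omega
  · intro j hj
    simp only [Finset.mem_filter, Finset.mem_univ, true_and] at hj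
    ext
    simp only
    omega
  · intro i hi
    ext
    simp
  · intro j hj
    simp only [Finset.mem_filter, Finset.mem_univ, true_and] at hj
    have h3 : (j : ℕ) - n + n < q := by have := j.2; omega
    have h4 : (j : ℕ) - n + n = (j : ℕ) := by omega
    simp only [h3, dif_pos]
    congr 1
    ext
    simp [h4]

theorem mem_fs {A : Set ℤ} [DecidablePred (· ∈ A)] (i : Fin q) :
    i ∈ fs q A ↔ (((i : ℕ) : ℤ) ∈ A) := by
  simp [fs]

/-- Upper bound for the part of `T^n e` in `A + n`. -/
theorem norm_restr_shiftN_le (u : ℤ → ℝ) (n : ℕ) (A : Set ℤ) [DecidablePred (· ∈ A)]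
    [DecidablePred (· ∈ {m : ℤ | m - n ∈ A})] (t : ℝ) (e : EuclideanSpace ℂ (Fin q))
    (h : ∀ i : Fin q, ((i : ℕ) : ℤ) ∈ A → e i ≠ 0 → (i : ℕ) + n < q → t ≤ wsum u (i : ℕ) n) :
    ‖restr (fs q {m : ℤ | m - n ∈ A} : Set (Fin q)) (shiftN u n e)‖
      ≤ Real.exp (-t) * ‖restr (fs q A : Set (Fin q)) e‖ := by
  have hsq : ‖restr (fs q {m : ℤ | m - n ∈ A} : Set (Fin q)) (shiftN u n e)‖ ^ 2
      ≤ (Real.exp (-t) * ‖restr (fs q A : Set (Fin q)) e‖) ^ 2 := by
    rw [mul_pow, EuclideanSpace.norm_sq_eq, EuclideanSpace.norm_sq_eq, Finset.mul_sum,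
      sum_shift n]
    · refine Finset.sum_le_sum fun i _ => ?_
      by_cases hi : (i : ℕ) + n < q
      · rw [dif_pos hi, restr_apply, restr_apply, shiftN_apply_add]
        by_cases hA : ((i : ℕ) : ℤ) ∈ A
        · have h1 : (⟨(i : ℕ) + n, hi⟩ : Fin q) ∈ (fs q {m : ℤ | m - n ∈ A} : Set (Fin q)) := by
            rw [Finset.mem_coe, mem_fs]
            simpa using hA
          have h2 : i ∈ (fs q A : Set (Fin q)) := by
            rw [Finset.mem_coe, mem_fs]; exact hA
          rw [if_pos h1, if_pos h2]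
          by_cases he : e i = 0
          · simp [he]
          · have h3 := h i hA he hi
            rw [norm_mul, mul_pow]
            refine mul_le_mul_of_nonneg_right ?_ (by positivity)
            rw [Complex.norm_real, Real.norm_eq_abs, Real.abs_exp]
            refine pow_le_pow_left₀ (Real.exp_pos _).le ?_ 2
            exact Real.exp_le_exp.mpr (by linarith)
        · have h1 : ¬ (⟨(i : ℕ) + n, hi⟩ : Fin q) ∈ (fs q {m : ℤ | m - n ∈ A} : Set (Fin q)) := by
            rw [Finset.mem_coe, mem_fs]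
            simpa using hA
          rw [if_neg h1, norm_zero, zero_pow two_ne_zero]
          exact mul_nonneg (by positivity) (by positivity)
      · rw [dif_neg hi]
        exact mul_nonneg (by positivity) (by positivity)
    · intro j hj
      rw [restr_apply, shiftN_apply_lt u n e j hj]
      simp
  exact le_of_sq_le_sq hsq (by positivity)

/-- Lower bound for the part of `T^n e` off `A + n`. -/
theorem le_norm_sub_restr_shiftN (u : ℤ → ℝ) (n : ℕ) (A : Set ℤ) [DecidablePred (· ∈ A)]
    [DecidablePred (· ∈ {m : ℤ | m - n ∈ A})] (t : ℝ) (e : EuclideanSpace ℂ (Fin q))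
    (h0 : ∀ i : Fin q, q ≤ (i : ℕ) + n → e i = 0)
    (h : ∀ i : Fin q, ((i : ℕ) : ℤ) ∉ A → e i ≠ 0 → (i : ℕ) + n < q → wsum u (i : ℕ) n ≤ t) :
    Real.exp (-t) * ‖e - restr (fs q A : Set (Fin q)) e‖ ≤
      ‖shiftN u n e - restr (fs q {m : ℤ | m - n ∈ A} : Set (Fin q)) (shiftN u n e)‖ := by
  have hsq : (Real.exp (-t) * ‖e - restr (fs q A : Set (Fin q)) e‖) ^ 2 ≤
      ‖shiftN u n e - restr (fs q {m : ℤ | m - n ∈ A} : Set (Fin q)) (shiftN u n e)‖ ^ 2 := by
    rw [mul_pow, EuclideanSpace.norm_sq_eq, EuclideanSpace.norm_sq_eq, Finset.mul_sum,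
      sum_shift n (fun j => ‖(shiftN u n e - restr (fs q {m : ℤ | m - n ∈ A} : Set (Fin q))
        (shiftN u n e)) j‖ ^ 2)]
    · refine Finset.sum_le_sum fun i _ => ?_
      by_cases hi : (i : ℕ) + n < q
      · rw [dif_pos hi, PiLp.sub_apply, PiLp.sub_apply, restr_apply, restr_apply,
          shiftN_apply_add]
        by_cases hA : ((i : ℕ) : ℤ) ∈ A
        · have h2 : i ∈ (fs q A : Set (Fin q)) := by
            rw [Finset.mem_coe, mem_fs]; exact hA
          rw [if_pos h2]
          simp only [sub_self, norm_zero, ne_eq, OfNat.ofNat_ne_zero, not_false_eq_true, zero_pow,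
            mul_zero]
          positivity
        · have h1 : ¬ (⟨(i : ℕ) + n, hi⟩ : Fin q) ∈ (fs q {m : ℤ | m - n ∈ A} : Set (Fin q)) := by
            rw [Finset.mem_coe, mem_fs]
            simpa using hA
          have h2 : ¬ i ∈ (fs q A : Set (Fin q)) := by
            rw [Finset.mem_coe, mem_fs]; exact hA
          rw [if_neg h1, if_neg h2, sub_zero, sub_zero]
          by_cases he : e i = 0
          · simp [he]
          · have h3 := h i hA he hi
            rw [norm_mul, mul_pow]
            refine mul_le_mul_of_nonneg_right ?_ (by positivity)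
            rw [Complex.norm_real, Real.norm_eq_abs, Real.abs_exp]
            refine pow_le_pow_left₀ (Real.exp_pos _).le ?_ 2
            exact Real.exp_le_exp.mpr (by linarith)
      · rw [dif_neg hi, PiLp.sub_apply, restr_apply, h0 i (by omega)]
        simp
    · intro j hj
      rw [PiLp.sub_apply, restr_apply, shiftN_apply_lt u n e j hj]
      simp
  exact le_of_sq_le_sq hsq (by positivity)

end FluxShift

end Crest.Agent.R113.FW
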