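import Crest.Agent.R113.CS
import Crest.Agent.R113.FluxLA
import Crest.Agent.R113.FluxWin

/-! # T02: key lemma, flux inequality (FI), moving inequality (MI) — blueprint 6835 (K),(FI),(MI) -/

set_option autoImplicit false

namespace Crest.Agent.R113

open scoped BigOperators

/-- (K) key lemma. -/
theorem key_lemma {ι : Type*} [Fintype ι] [DecidableEq ι]
    (X X' : Submodule ℂ (EuclideanSpace ℂ ι)) (A B : Finset ι)
    (N : EuclideanSpace ℂ ι →ₗ[ℂ] EuclideanSpace ℂ ι) (δ α β s d : ℝ)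
    (hδ : 0 ≤ δ) (hα : 0 ≤ α) (hβ : 0 < β) (hs : 0 < s) (hs1 : s ≤ 1)
    (hle : X' ≤ X) (hcod : (Module.finrank ℂ X : ℝ) ≤ Module.finrank ℂ X' + d)
    (h1 : ∀ v ∈ X', ‖N v - X.starProjection (N v)‖ ≤ δ * ‖v‖)
    (h2 : ∀ v ∈ X', ‖restr (B : Set ι) (N v)‖ ≤ α * ‖restr (A : Set ι) v‖)
    (h3 : ∀ v ∈ X', β * ‖v - restr (A : Set ι) v‖ ≤ ‖N v - restr (B : Set ι) (N v)‖) :
    ∃ Y : Submodule ℂ (EuclideanSpace ℂ ι), Y ≤ X ∧
      trOn X B - s * Module.finrank ℂ X - d ≤ Module.finrank ℂ Y ∧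
      ∀ v ∈ Y, ‖v - restr (A : Set ι) v‖ ≤
        (α / (β * Real.sqrt s)) * ‖restr (A : Set ι) v‖
          + ((1 / Real.sqrt s + 1) * δ / β) * ‖v‖ := by
  obtain ⟨Y, hY, hd, hb⟩ := key_lemma_aux X X' A B N δ α β s d hβ hs hcod h1 h2 h3
  exact ⟨Y, hY.trans hle, hd, hb⟩

/-- If `X` contains a subspace `Y` of vectors `ε`-localised in `A`, then the cut mass is small. -/
theorem cut_le_of_localised {ι : Type*} [Fintype ι] [DecidableEq ι]
    (X Y : Submodule ℂ (EuclideanSpace ℂ ι)) (A : Finset ι) (ε : ℝ) (hε : 0 ≤ ε) (hY : Y ≤ X)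
    (hloc : ∀ v ∈ Y, ‖v - restr (A : Set ι) v‖ ≤ ε * ‖v‖) :
    cut X A ≤ trOn X A - (1 - 2 * ε ^ 2) * Module.finrank ℂ Y :=
  cut_le_of_localised_aux X Y A ε hY hloc

theorem trOn_ge_of_localised {ι : Type*} [Fintype ι] [DecidableEq ι]
    (X Y : Submodule ℂ (EuclideanSpace ℂ ι)) (A : Finset ι) (ε : ℝ) (hε : 0 ≤ ε) (hY : Y ≤ X)
    (hloc : ∀ v ∈ Y, ‖v - restr (A : Set ι) v‖ ≤ ε * ‖v‖) :
    (1 - ε ^ 2) * Module.finrank ℂ Y ≤ trOn X A :=
  trOn_ge_of_localised_aux X Y A ε hY hloc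

open FW in
/-- The subspace `Y` of vectors of `X = aE` localised in `A`. -/
theorem flux_localised {q : ℕ} {κ' : Type*} [DecidableEq κ'] (win : Fin q → κ')
    (E E' : Submodule ℂ (EuclideanSpace ℂ (Fin q))) (u : ℤ → ℝ) (n : ℕ) (cs d : ℝ)
    (hinv : AppInv E E' u n (Real.exp (-cs)) d)
    (a : EuclideanSpace ℂ (Fin q) →ₗ[ℂ] EuclideanSpace ℂ (Fin q)) (ha : BlockDiag win a)
    (κ : ℝ) (hκ : 0 ≤ κ) (ha1 : ∀ v, ‖a v‖ ≤ ‖v‖) (ha2 : ∀ v, Real.exp (-κ) * ‖v‖ ≤ ‖a v‖)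
    (A : Set ℤ) [DecidablePred (· ∈ A)] [DecidablePred (· ∈ {m : ℤ | m - n ∈ A})]
    (Bd : Finset (Fin q)) (v0 γ : ℝ)
    (hγ0 : 0 < γ) (hγ : 8 * κ ≤ γ) (hcs : v0 + 5 * γ + 10 ≤ cs)
    (hcutA : ∀ i j : Fin q, win i = win j → ((i : ℕ) : ℤ) ∈ A → ((j : ℕ) : ℤ) ∉ A →
      i ∈ Bd ∧ j ∈ Bd)
    (hcutB : ∀ i j : Fin q, win i = win j → ((i : ℕ) : ℤ) - n ∈ A → ((j : ℕ) : ℤ) - n ∉ A →
      ∀ i' : Fin q, ((i' : ℕ) + n = i ∨ (i' : ℕ) + n = j) → i' ∈ Bd)
    (hA : ∀ i : Fin q, ((i : ℕ) : ℤ) ∈ A → i ∉ Bd → (i : ℕ) + n < q →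
      v0 + γ ≤ wsum u i n)
    (hAc : ∀ i : Fin q, ((i : ℕ) : ℤ) ∉ A → i ∉ Bd → (i : ℕ) + n < q → wsum u i n ≤ v0) :
    ∃ Y : Submodule ℂ (EuclideanSpace ℂ (Fin q)), Y ≤ E.map a ∧
      trOn (E.map a) (fs q {m : ℤ | m - n ∈ A}) - Real.exp (-γ / 4) * q - (d + Bd.card)
        ≤ Module.finrank ℂ Y ∧
      ∀ v ∈ Y, ‖v - restr (fs q A : Set (Fin q)) v‖ ≤
        (1.01 * Real.exp (-(5 * γ / 8))) * ‖v‖ := by
  -- `a` is bijective
  have hinj : Function.Injective a := by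
    rw [← LinearMap.ker_eq_bot, LinearMap.ker_eq_bot']
    intro v hv
    have h1 := ha2 v
    rw [hv, norm_zero] at h1
    have h2 : ‖v‖ ≤ 0 := by
      by_contra hne
      push Not at hne
      have := mul_pos (Real.exp_pos (-κ)) hne
      linarith
    exact norm_le_zero_iff.mp h2
  let ae : EuclideanSpace ℂ (Fin q) ≃ₗ[ℂ] EuclideanSpace ℂ (Fin q) :=
    LinearEquiv.ofInjectiveEndo a hinj
  have hae : ∀ v, ae.symm (a v) = v := fun v => by
    have : ae v = a v := rfl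
    rw [← this, LinearEquiv.symm_apply_apply]
  set N : EuclideanSpace ℂ (Fin q) →ₗ[ℂ] EuclideanSpace ℂ (Fin q) :=
    a ∘ₗ shiftN u n ∘ₗ ae.symm.toLinearMap with hN
  have hNa : ∀ e, N (a e) = a (shiftN u n e) := fun e => by
    simp only [hN, LinearMap.comp_apply, LinearEquiv.coe_coe, hae]
  set E2 : Submodule ℂ (EuclideanSpace ℂ (Fin q)) := E' ⊓ coordSub Bdᶜ with hE2
  have hE2le : E2 ≤ E := inf_le_left.trans hinv.le
  -- facts for `e ∈ E2`
  have hvan : ∀ e ∈ E2, ∀ i ∈ Bd, e i = 0 := by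
    intro e he i hi
    have h1 : e ∈ coordSub Bdᶜ := (Submodule.mem_inf.mp he).2
    exact h1 i (by simpa using hi)
  have hsupp : ∀ e ∈ E2, ∀ j : Fin q, q ≤ (j : ℕ) + n → e j = 0 := fun e he =>
    hinv.supp e (Submodule.mem_inf.mp he).1
  have hrA : ∀ e ∈ E2, restr (fs q A : Set (Fin q)) (a e) = a (restr (fs q A : Set (Fin q)) e) := by
    intro e he
    refine restr_comm_of_vanish win a ha _ e fun i j hij hi hj => ?_
    rw [Finset.mem_coe, mem_fs] at hi hj
    obtain ⟨h1, h2⟩ := hcutA i j hij hi hj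
    exact ⟨hvan e he i h1, hvan e he j h2⟩
  have hrB : ∀ e ∈ E2, restr (fs q {m : ℤ | m - n ∈ A} : Set (Fin q)) (a (shiftN u n e))
      = a (restr (fs q {m : ℤ | m - n ∈ A} : Set (Fin q)) (shiftN u n e)) := by
    intro e he
    refine restr_comm_of_vanish win a ha _ _ fun i j hij hi hj => ?_
    rw [Finset.mem_coe, mem_fs] at hi hj
    have key : ∀ k : Fin q, (k = i ∨ k = j) → shiftN u n e k = 0 := by
      intro k hk
      by_cases hkn : (k : ℕ) < n
      · exact shiftN_apply_lt u n e k hkn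
      · push Not at hkn
        have hk2 : (k : ℕ) - n < q := by have := k.2; omega
        have hk3 : (k : ℕ) - n + n < q := by have := k.2; omega
        have hk4 : k = ⟨(k : ℕ) - n + n, hk3⟩ := by ext; simp only; omega
        have h1 : (⟨(k : ℕ) - n, hk2⟩ : Fin q) ∈ Bd := by
          refine hcutB i j hij hi hj _ ?_
          rcases hk with rfl | rfl
          · left; simp only; omega
          · right; simp only; omega
        have h2 := shiftN_apply_add u n e ⟨(k : ℕ) - n, hk2⟩ hk3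
        rw [hk4]
        simp only at h2
        rw [h2, hvan e he _ h1, mul_zero]
    exact ⟨key i (Or.inl rfl), key j (Or.inr rfl)⟩
  have hnorm : ∀ e, ‖e‖ ≤ Real.exp κ * ‖a e‖ := by
    intro e
    have h1 := ha2 e
    have h2 : Real.exp κ * (Real.exp (-κ) * ‖e‖) = ‖e‖ := by
      rw [← mul_assoc, ← Real.exp_add]; simp
    calc ‖e‖ = Real.exp κ * (Real.exp (-κ) * ‖e‖) := h2.symm
      _ ≤ _ := mul_le_mul_of_nonneg_left h1 (Real.exp_pos _).le
  -- the key lemma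
  have hs : 0 < Real.exp (-γ / 4) := Real.exp_pos _
  have hs1 : Real.exp (-γ / 4) ≤ 1 := by
    rw [Real.exp_le_one_iff]; linarith
  have hrank : ∀ F : Submodule ℂ (EuclideanSpace ℂ (Fin q)),
      Module.finrank ℂ (F.map a) = Module.finrank ℂ F := fun F =>
    LinearEquiv.finrank_map_eq ae F
  have hcod : (Module.finrank ℂ (E.map a) : ℝ) ≤ Module.finrank ℂ (E2.map a) + (d + Bd.card) := by
    rw [hrank, hrank]
    have h1 := hinv.codim
    have h2 := finrank_inf_vanish E' Bd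
    have h3 : (Module.finrank ℂ E' : ℝ) ≤ Module.finrank ℂ E2 + Bd.card := by exact_mod_cast h2
    linarith
  have h1 : ∀ v ∈ E2.map a, ‖N v - (E.map a).starProjection (N v)‖
      ≤ Real.exp (-cs + κ) * ‖v‖ := by
    intro v hv
    obtain ⟨e, he, rfl⟩ := hv
    rw [hNa]
    have g1 : a (E.starProjection (shiftN u n e)) ∈ E.map a :=
      Submodule.mem_map_of_mem (by simp)
    calc ‖a (shiftN u n e) - (E.map a).starProjection (a (shiftN u n e))‖
        ≤ ‖a (shiftN u n e) - a (E.starProjection (shiftN u n e))‖ :=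
          norm_sub_starProjection_le _ _ _ g1
      _ = ‖a (shiftN u n e - E.starProjection (shiftN u n e))‖ := by rw [map_sub]
      _ ≤ ‖shiftN u n e - E.starProjection (shiftN u n e)‖ := ha1 _
      _ ≤ Real.exp (-cs) * ‖e‖ := hinv.inv e (Submodule.mem_inf.mp he).1
      _ ≤ Real.exp (-cs) * (Real.exp κ * ‖a e‖) :=
          mul_le_mul_of_nonneg_left (hnorm e) (Real.exp_pos _).le
      _ = Real.exp (-cs + κ) * ‖a e‖ := by rw [Real.exp_add]; ring
  have h2 : ∀ v ∈ E2.map a, ‖restr (fs q {m : ℤ | m - n ∈ A} : Set (Fin q)) (N v)‖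
      ≤ Real.exp (κ - v0 - γ) * ‖restr (fs q A : Set (Fin q)) v‖ := by
    intro v hv
    obtain ⟨e, he, rfl⟩ := hv
    rw [hNa, hrA e he, hrB e he]
    calc ‖a (restr (fs q {m : ℤ | m - n ∈ A} : Set (Fin q)) (shiftN u n e))‖
        ≤ ‖restr (fs q {m : ℤ | m - n ∈ A} : Set (Fin q)) (shiftN u n e)‖ := ha1 _
      _ ≤ Real.exp (-(v0 + γ)) * ‖restr (fs q A : Set (Fin q)) e‖ := by
          refine norm_restr_shiftN_le u n A (v0 + γ) e fun i hi he0 hin => ?_
          refine hA i hi (fun hiB => he0 (hvan e he i hiB)) hin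
      _ ≤ Real.exp (-(v0 + γ)) * (Real.exp κ * ‖a (restr (fs q A : Set (Fin q)) e)‖) :=
          mul_le_mul_of_nonneg_left (hnorm _) (Real.exp_pos _).le
      _ = Real.exp (κ - v0 - γ) * ‖a (restr (fs q A : Set (Fin q)) e)‖ := by
          rw [← mul_assoc, ← Real.exp_add]; congr 2; ring
  have h3 : ∀ v ∈ E2.map a, Real.exp (-κ - v0) * ‖v - restr (fs q A : Set (Fin q)) v‖
      ≤ ‖N v - restr (fs q {m : ℤ | m - n ∈ A} : Set (Fin q)) (N v)‖ := by
    intro v hv
    obtain ⟨e, he, rfl⟩ := hv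
    rw [hNa, hrA e he, hrB e he, ← map_sub, ← map_sub]
    calc Real.exp (-κ - v0) * ‖a (e - restr (fs q A : Set (Fin q)) e)‖
        ≤ Real.exp (-κ - v0) * ‖e - restr (fs q A : Set (Fin q)) e‖ :=
          mul_le_mul_of_nonneg_left (ha1 _) (Real.exp_pos _).le
      _ = Real.exp (-κ) * (Real.exp (-v0) * ‖e - restr (fs q A : Set (Fin q)) e‖) := by
          rw [← mul_assoc, ← Real.exp_add]; congr 2
      _ ≤ Real.exp (-κ) * ‖shiftN u n e
            - restr (fs q {m : ℤ | m - n ∈ A} : Set (Fin q)) (shiftN u n e)‖ := by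
          refine mul_le_mul_of_nonneg_left ?_ (Real.exp_pos _).le
          refine le_norm_sub_restr_shiftN u n A v0 e (hsupp e he) fun i hi he0 hin => ?_
          exact hAc i hi (fun hiB => he0 (hvan e he i hiB)) hin
      _ ≤ _ := ha2 _
  obtain ⟨Y, hY, hYdim, hYloc⟩ := key_lemma (E.map a) (E2.map a) (fs q A)
    (fs q {m : ℤ | m - n ∈ A}) N (Real.exp (-cs + κ)) (Real.exp (κ - v0 - γ))
    (Real.exp (-κ - v0)) (Real.exp (-γ / 4)) (d + Bd.card) (Real.exp_pos _).le (Real.exp_pos _).le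
    (Real.exp_pos _) hs hs1 (Submodule.map_mono hE2le)
    hcod h1 h2 h3
  refine ⟨Y, hY, ?_, fun v hv => ?_⟩
  · have g1 : (Module.finrank ℂ (E.map a) : ℝ) ≤ q := by
      have := Submodule.finrank_le (E.map a)
      rw [finrank_euclideanSpace_fin] at this
      exact_mod_cast this
    have g2 := mul_le_mul_of_nonneg_left g1 hs.le
    linarith
  · have g0 : ‖restr (fs q A : Set (Fin q)) v‖ ≤ ‖v‖ := norm_restr_le _ v
    have g1 := hYloc v hv
    have hsqrt : Real.sqrt (Real.exp (-γ / 4)) = Real.exp (-(γ / 8)) := by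
      rw [← Real.exp_half]; congr 1; ring
    rw [hsqrt] at g1
    have g2 : Real.exp (κ - v0 - γ) / (Real.exp (-κ - v0) * Real.exp (-(γ / 8)))
        ≤ Real.exp (-(5 * γ / 8)) := by
      rw [← Real.exp_add, ← Real.exp_sub]
      exact Real.exp_le_exp.mpr (by linarith)
    have g3 : (1 / Real.exp (-(γ / 8)) + 1) * Real.exp (-cs + κ) / Real.exp (-κ - v0)
        ≤ 0.01 * Real.exp (-(5 * γ / 8)) := by
      have k1 : 1 / Real.exp (-(γ / 8)) = Real.exp (γ / 8) := by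
        rw [Real.exp_neg, one_div, inv_inv]
      have k2 : (1 : ℝ) ≤ Real.exp (γ / 8) := Real.one_le_exp (by linarith)
      have k3 : Real.exp (-10) ≤ (0.005 : ℝ) := by
        have e1 := Real.exp_one_gt_d9
        have e2 : Real.exp (-10) = (Real.exp 1 ^ 10)⁻¹ := by
          rw [← Real.exp_nat_mul, Real.exp_neg]; norm_num
        have e3 : (2.7 : ℝ) ^ 10 ≤ Real.exp 1 ^ 10 :=
          pow_le_pow_left₀ (by norm_num) (by linarith) 10
        have e4 : (200 : ℝ) ≤ Real.exp 1 ^ 10 := le_trans (by norm_num) e3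
        rw [e2, inv_le_comm₀ (by positivity) (by norm_num)]
        exact le_trans (by norm_num) e4
      rw [k1]
      calc (Real.exp (γ / 8) + 1) * Real.exp (-cs + κ) / Real.exp (-κ - v0)
          ≤ (2 * Real.exp (γ / 8)) * Real.exp (-cs + κ) / Real.exp (-κ - v0) := by
            gcongr; linarith
        _ = 2 * Real.exp (γ / 8 + (-cs + κ) - (-κ - v0)) := by
            rw [Real.exp_sub (γ / 8 + (-cs + κ)) (-κ - v0), Real.exp_add (γ / 8)]; ring
        _ ≤ 2 * Real.exp (-10 + -(5 * γ / 8)) := by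
            gcongr; linarith
        _ = 2 * Real.exp (-10) * Real.exp (-(5 * γ / 8)) := by rw [Real.exp_add]; ring
        _ ≤ 2 * 0.005 * Real.exp (-(5 * γ / 8)) := by gcongr
        _ = _ := by norm_num
    calc ‖v - restr (fs q A : Set (Fin q)) v‖ ≤ _ := g1
      _ ≤ Real.exp (-(5 * γ / 8)) * ‖v‖ + 0.01 * Real.exp (-(5 * γ / 8)) * ‖v‖ := by
          refine add_le_add (mul_le_mul g2 g0 (norm_nonneg _) (Real.exp_pos _).le) ?_
          exact mul_le_mul_of_nonneg_right g3 (norm_nonneg _)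
      _ = _ := by ring

/-- (FI)+(MI), window form. `X = aE`, `a` window-block-diagonal with `e^{-κ} ≤ |a| ≤ 1`.
`Bd` contains the cut windows of `A`, the `n`-preimages of the windows cut by `A+n`, and the
positions violating the cost bounds. -/
theorem flux_window {q : ℕ} {κ' : Type*} [DecidableEq κ'] (win : Fin q → κ')
    (E E' : Submodule ℂ (EuclideanSpace ℂ (Fin q))) (u : ℤ → ℝ) (n : ℕ) (cs d : ℝ) (hd : 0 ≤ d)
    (hinv : AppInv E E' u n (Real.exp (-cs)) d)
    (a : EuclideanSpace ℂ (Fin q) →ₗ[ℂ] EuclideanSpace ℂ (Fin q)) (ha : BlockDiag win a)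
    (κ : ℝ) (hκ : 0 ≤ κ) (ha1 : ∀ v, ‖a v‖ ≤ ‖v‖) (ha2 : ∀ v, Real.exp (-κ) * ‖v‖ ≤ ‖a v‖)
    (A : Set ℤ) [DecidablePred (· ∈ A)] [DecidablePred (· ∈ {m : ℤ | m - n ∈ A})]
    (Bd : Finset (Fin q)) (v0 γ : ℝ)
    (hv0 : 0 ≤ v0) (hγ0 : 0 < γ) (hγ : 8 * κ ≤ γ) (hcs : v0 + 5 * γ + 10 ≤ cs)
    (hcutA : ∀ i j : Fin q, win i = win j → ((i : ℕ) : ℤ) ∈ A → ((j : ℕ) : ℤ) ∉ A →
      i ∈ Bd ∧ j ∈ Bd)
    (hcutB : ∀ i j : Fin q, win i = win j → ((i : ℕ) : ℤ) - n ∈ A → ((j : ℕ) : ℤ) - n ∉ A →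
      ∀ i' : Fin q, ((i' : ℕ) + n = i ∨ (i' : ℕ) + n = j) → i' ∈ Bd)
    (hA : ∀ i : Fin q, ((i : ℕ) : ℤ) ∈ A → i ∉ Bd → (i : ℕ) + n < q →
      v0 + γ ≤ wsum u i n)
    (hAc : ∀ i : Fin q, ((i : ℕ) : ℤ) ∉ A → i ∉ Bd → (i : ℕ) + n < q → wsum u i n ≤ v0) :
    cut (E.map a) (fs q A) ≤ trOn (E.map a) (fs q A) - trOn (E.map a) (fs q {m : ℤ | m - n ∈ A})
        + 10 * Real.exp (-γ / 4) * q + d + Bd.card ∧
    ∀ s : ℝ, 0 ≤ s → s ≤ γ / 4 →
      trOn (E.map a) (fs q A) - trOn ((E.map a).map (scal (fs q A) s)) (fs q A) ≤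
        trOn (E.map a) (fs q A) - trOn (E.map a) (fs q {m : ℤ | m - n ∈ A})
          + 10 * Real.exp (-γ / 4) * q + d + Bd.card := by
  obtain ⟨Y, hY, hYdim, hYloc⟩ := flux_localised win E E' u n cs d hinv a ha κ hκ ha1 ha2 A Bd v0 γ
    hγ0 hγ hcs hcutA hcutB hA hAc
  have hYq : (Module.finrank ℂ Y : ℝ) ≤ q := by
    have := Submodule.finrank_le Y
    rw [finrank_euclideanSpace_fin] at this
    exact_mod_cast this
  have hY0 : (0 : ℝ) ≤ Module.finrank ℂ Y := Nat.cast_nonneg _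
  have hq0 : (0 : ℝ) ≤ q := Nat.cast_nonneg _
  set t : ℝ := Real.exp (-γ / 4) with ht
  have ht0 : 0 < t := Real.exp_pos _
  refine ⟨?_, fun s hs hs2 => ?_⟩
  · have g1 := cut_le_of_localised (E.map a) Y (fs q A) (1.01 * Real.exp (-(5 * γ / 8)))
      (by positivity) hY hYloc
    have g2 : (1.01 * Real.exp (-(5 * γ / 8))) ^ 2 ≤ 1.1 * t := by
      rw [mul_pow, ← Real.exp_nat_mul]
      have : Real.exp (((2 : ℕ) : ℝ) * -(5 * γ / 8)) ≤ t :=
        Real.exp_le_exp.mpr (by push_cast; linarith)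
      nlinarith
    nlinarith [mul_le_mul g2 hYq hY0 (by positivity)]
  · have hinj : Function.Injective (scal (fs q A) s : EuclideanSpace ℂ (Fin q) →ₗ[ℂ] _) := by
      intro v w hvw
      ext i
      have h1 := congrArg (fun x : EuclideanSpace ℂ (Fin q) => x i) hvw
      simp only [scal, mulD_apply] at h1
      refine mul_left_cancel₀ ?_ h1
      split_ifs
      · exact_mod_cast (Real.exp_pos _).ne'
      · simp
    have hfr : Module.finrank ℂ (Y.map (scal (fs q A) s)) = Module.finrank ℂ Y :=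
      LinearEquiv.finrank_map_eq (LinearEquiv.ofInjectiveEndo _ hinj) Y
    have g1 := trOn_ge_of_localised ((E.map a).map (scal (fs q A) s)) (Y.map (scal (fs q A) s))
      (fs q A) (1.01 * Real.exp (-(3 * γ / 8))) (by positivity) (Submodule.map_mono hY) (by
        intro v' hv'
        obtain ⟨v, hv, rfl⟩ := hv'
        have k1 : scal (fs q A) s v - restr (fs q A : Set (Fin q)) (scal (fs q A) s v)
            = v - restr (fs q A : Set (Fin q)) v := by
          ext i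
          rw [PiLp.sub_apply, PiLp.sub_apply, restr_apply, restr_apply]
          by_cases hi : i ∈ fs q A
          · simp [hi]
          · simp [hi, scal]
        have k2 : ‖v‖ ≤ Real.exp s * ‖scal (fs q A) s v‖ := by
          have : ‖v‖ ^ 2 ≤ (Real.exp s * ‖scal (fs q A) s v‖) ^ 2 := by
            rw [mul_pow, EuclideanSpace.norm_sq_eq, EuclideanSpace.norm_sq_eq, Finset.mul_sum]
            refine Finset.sum_le_sum fun i _ => ?_
            simp only [scal, mulD_apply, norm_mul, mul_pow]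
            rw [← mul_assoc]
            refine le_mul_of_one_le_left (by positivity) ?_
            rw [← mul_pow]
            refine one_le_pow₀ ?_
            rw [Complex.norm_real, Real.norm_eq_abs]
            split_ifs
            · rw [Real.abs_exp, ← Real.exp_add]; simp
            · simp only [abs_one, mul_one]
              exact Real.one_le_exp hs
          exact le_of_sq_le_sq this (by positivity)
        rw [k1]
        calc ‖v - restr (fs q A : Set (Fin q)) v‖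
            ≤ (1.01 * Real.exp (-(5 * γ / 8))) * ‖v‖ := hYloc v hv
          _ ≤ (1.01 * Real.exp (-(5 * γ / 8))) * (Real.exp s * ‖scal (fs q A) s v‖) :=
              mul_le_mul_of_nonneg_left k2 (by positivity)
          _ = 1.01 * (Real.exp (-(5 * γ / 8)) * Real.exp s) * ‖scal (fs q A) s v‖ := by ring
          _ ≤ _ := by
              gcongr
              rw [← Real.exp_add]
              exact Real.exp_le_exp.mpr (by linarith))
    rw [hfr] at g1
    have g2 : (1.01 * Real.exp (-(3 * γ / 8))) ^ 2 ≤ 1.1 * t := by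
      rw [mul_pow, ← Real.exp_nat_mul]
      have : Real.exp (((2 : ℕ) : ℝ) * -(3 * γ / 8)) ≤ t :=
        Real.exp_le_exp.mpr (by push_cast; linarith)
      nlinarith
    nlinarith [mul_le_mul g2 hYq hY0 (by positivity)]

end Crest.Agent.R113
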