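import Crest.Agent.R113.CS

/-! # T07: window lemma — blueprint 6835 (WL) -/

set_option autoImplicit false

namespace Crest.Agent.R113

open scoped BigOperators

section WLaux

variable {ι : Type*} [Fintype ι] [DecidableEq ι]

lemma wl_mulD_comp (d e : ι → ℝ) :
    (mulD e).comp (mulD d) = mulD (fun i => e i * d i) := by
  ext v i
  simp [mul_assoc]

lemma wl_map_map (X : Submodule ℂ (EuclideanSpace ℂ ι)) (d e : ι → ℝ) :
    (X.map (mulD d)).map (mulD e) = X.map (mulD (fun i => e i * d i)) := by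
  rw [← Submodule.map_comp, wl_mulD_comp]

lemma wl_map_one (X : Submodule ℂ (EuclideanSpace ℂ ι)) (d : ι → ℝ) (hd : ∀ i, d i = 1) :
    X.map (mulD d) = X := by
  have : mulD d = (LinearMap.id : EuclideanSpace ℂ ι →ₗ[ℂ] EuclideanSpace ℂ ι) := by
    ext v i
    simp [hd i]
  rw [this, Submodule.map_id]

lemma wl_expand (b : EuclideanSpace ℂ ι) : b = ∑ j, b j • ev j := by
  ext i
  simp only [ev, PiLp.toLp_apply]
  rw [WithLp.ofLp_sum]
  simp [Finset.sum_apply, Pi.single_apply]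

lemma wl_cs (w : ι → EuclideanSpace ℂ ι) (b : EuclideanSpace ℂ ι) (B : Finset ι) :
    ‖∑ j ∈ B, b j • w j‖ ≤ Real.sqrt (∑ j ∈ B, ‖w j‖ ^ 2) * ‖b‖ := by
  calc ‖∑ j ∈ B, b j • w j‖ ≤ ∑ j ∈ B, ‖w j‖ * ‖b j‖ := by
        refine (norm_sum_le _ _).trans (Finset.sum_le_sum fun j _ => ?_)
        rw [norm_smul, mul_comm]
    _ ≤ Real.sqrt (∑ j ∈ B, ‖w j‖ ^ 2) * Real.sqrt (∑ j ∈ B, ‖b j‖ ^ 2) :=
        Real.sum_mul_le_sqrt_mul_sqrt _ _ _
    _ ≤ Real.sqrt (∑ j ∈ B, ‖w j‖ ^ 2) * ‖b‖ := by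
        gcongr
        rw [EuclideanSpace.norm_eq]
        apply Real.sqrt_le_sqrt
        exact Finset.sum_le_sum_of_subset_of_nonneg (Finset.subset_univ _)
          (fun _ _ _ => by positivity)

lemma wl_norm_ev (j : ι) : ‖(ev j : EuclideanSpace ℂ ι)‖ = 1 := by
  simp [ev]

lemma wl_sub_ev (X : Submodule ℂ (EuclideanSpace ℂ ι)) (j : ι) :
    ‖ev j - X.starProjection (ev j)‖ ^ 2 = 1 - dg X j := by
  have h := Submodule.norm_sq_eq_add_norm_sq_starProjection (ev j : EuclideanSpace ℂ ι) X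
  have h2 : Xᗮ.starProjection (ev j) = ev j - X.starProjection (ev j) := by
    rw [Submodule.starProjection_orthogonal_val]
  rw [wl_norm_ev, h2] at h
  unfold dg
  linarith

/-- `b` supported on `B` is close to its projection. -/
lemma wl_close (X : Submodule ℂ (EuclideanSpace ℂ ι)) (B : Finset ι) (b : EuclideanSpace ℂ ι)
    (hb : ∀ i, i ∉ B → b i = 0) :
    ‖b - X.starProjection b‖ ≤ Real.sqrt (∑ j ∈ B, (1 - dg X j)) * ‖b‖ := by
  have h1 : b - X.starProjection b = ∑ j ∈ B, b j • (ev j - X.starProjection (ev j)) := by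
    have h2 : b = ∑ j ∈ B, b j • ev j := by
      conv_lhs => rw [wl_expand b]
      symm
      apply Finset.sum_subset (Finset.subset_univ _)
      intro i _ hi
      rw [hb i hi, zero_smul]
    have h3 : X.starProjection b = ∑ j ∈ B, b j • X.starProjection (ev j) := by
      conv_lhs => rw [h2]
      rw [map_sum]
      exact Finset.sum_congr rfl fun j _ => by rw [map_smul]
    calc b - X.starProjection b
        = (∑ j ∈ B, b j • ev j) - ∑ j ∈ B, b j • X.starProjection (ev j) := by rw [h3, ← h2]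
      _ = ∑ j ∈ B, b j • (ev j - X.starProjection (ev j)) := by
        rw [← Finset.sum_sub_distrib]
        exact Finset.sum_congr rfl fun j _ => by rw [smul_sub]
  rw [h1]
  refine (wl_cs (fun j => ev j - X.starProjection (ev j)) b B).trans (le_of_eq ?_)
  congr 2
  exact Finset.sum_congr rfl fun j _ => wl_sub_ev X j

/-- the projection of a vector supported on `C` is small. -/
lemma wl_small (X : Submodule ℂ (EuclideanSpace ℂ ι)) (B : Finset ι) (b : EuclideanSpace ℂ ι)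
    (hb : ∀ i, i ∉ B → b i = 0) :
    ‖X.starProjection b‖ ≤ Real.sqrt (∑ j ∈ B, dg X j) * ‖b‖ := by
  have h3 : X.starProjection b = ∑ j ∈ B, b j • X.starProjection (ev j) := by
    have h2 : b = ∑ j ∈ B, b j • ev j := by
      conv_lhs => rw [wl_expand b]
      symm
      apply Finset.sum_subset (Finset.subset_univ _)
      intro i _ hi
      rw [hb i hi, zero_smul]
    conv_lhs => rw [h2]
    rw [map_sum]
    exact Finset.sum_congr rfl fun j _ => by rw [map_smul]
  rw [h3]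
  exact wl_cs (fun j => X.starProjection (ev j)) b B

end WLaux

section WLfin

variable {l : ℕ}

lemma wl_off_le (X : Submodule ℂ (EuclideanSpace ℂ (Fin l))) :
    ∑ m, dg X m * (1 - dg X m) ≤ 2 * ∑ m : Fin l, cut X (tailF l (l - m)) := by
  set f : Fin l → Fin l → ℝ := fun m j => ‖ent X m j‖ ^ 2 with hf
  have hfs : ∀ m j, f m j = f j m := fun m j => by simp only [hf, norm_ent_symm X m j]
  have hf0 : ∀ m j, 0 ≤ f m j := fun m j => by positivity
  have h1 : ∀ m, dg X m * (1 - dg X m) = (∑ j, if j < m then f m j else 0)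
      + ∑ j, if m < j then f m j else 0 := by
    intro m
    have h2 : ∑ j, f m j = dg X m := sum_ent_sq X m
    have h3 : f m m = dg X m ^ 2 := by
      simp only [hf, ent_self]
      rw [Complex.norm_real, Real.norm_eq_abs, sq_abs]
    have h4 : ∑ j, f m j = (∑ j, if j < m then f m j else 0)
      + (∑ j, if m < j then f m j else 0) + ∑ j, if j = m then f m j else 0 := by
      rw [← Finset.sum_add_distrib, ← Finset.sum_add_distrib]
      refine Finset.sum_congr rfl fun j _ => ?_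
      rcases lt_trichotomy j m with h | h | h
      · simp [h, h.ne, not_lt.2 h.le]
      · simp [h]
      · simp [h, h.ne', not_lt.2 h.le]
    rw [Finset.sum_ite_eq' Finset.univ m (fun j => f m j)] at h4
    simp only [Finset.mem_univ, if_true] at h4
    rw [h2, h3] at h4
    linarith
  have h5 : ∑ m, (∑ j, if m < j then f m j else 0) = ∑ m, ∑ j, if j < m then f m j else 0 := by
    rw [Finset.sum_comm]
    refine Finset.sum_congr rfl fun m _ => Finset.sum_congr rfl fun j _ => ?_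
    rw [hfs j m]
  have h6 : ∀ m : Fin l, (∑ j, if j < m then f m j else 0) ≤ cut X (tailF l (l - m)) := by
    intro m
    unfold cut
    have hm : m ∈ tailF l (l - m) := by
      simp only [tailF, Finset.mem_filter, Finset.mem_univ, true_and]
      omega
    refine le_trans ?_ (Finset.single_le_sum (f := fun i => ∑ j ∈ (tailF l (l - m))ᶜ, ‖ent X i j‖ ^ 2)
      (fun i _ => Finset.sum_nonneg fun j _ => by positivity) hm)
    rw [← Finset.sum_filter]
    refine Finset.sum_le_sum_of_subset_of_nonneg ?_ (fun j _ _ => by positivity)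
    intro j hj
    simp only [tailF, Finset.mem_filter, Finset.mem_univ, true_and, Finset.mem_compl] at hj ⊢
    omega
  calc ∑ m, dg X m * (1 - dg X m)
      = ∑ m, (∑ j, if j < m then f m j else 0) + ∑ m, ∑ j, (if m < j then f m j else 0) := by
        rw [← Finset.sum_add_distrib]
        exact Finset.sum_congr rfl fun m _ => h1 m
    _ = 2 * ∑ m, (∑ j, if j < m then f m j else 0) := by rw [h5]; ring
    _ ≤ _ := by
        gcongr with m
        exact h6 m

/-- The conjugating weights. -/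
noncomputable def wl_wd (l : ℕ) (a : ℤ → ℝ) (y : ℝ) (j : Fin l) : ℝ :=
  Real.exp (wsum a 0 j - y * (j : ℕ))

lemma wl_wd_pos (a : ℤ → ℝ) (y : ℝ) (j : Fin l) : 0 < wl_wd l a y j := Real.exp_pos _

lemma wl_wsum_split (a : ℤ → ℝ) (j n : ℕ) (h : n ≤ j) :
    wsum a 0 j = wsum a 0 (j - n) + wsum a ((j : ℤ) - n) n := by
  unfold wsum
  conv_lhs => rw [← Nat.sub_add_cancel h]
  rw [Finset.sum_range_add]
  congr 1
  refine Finset.sum_congr rfl fun x _ => ?_
  congr 1
  push_cast [Nat.cast_sub h]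
  ring

lemma wl_conj (a : ℤ → ℝ) (y : ℝ) (n : ℕ) (v : EuclideanSpace ℂ (Fin l)) :
    mulD (wl_wd l a y) (shiftN a n v) =
      ((Real.exp (-(y * n)) : ℝ) : ℂ) • shiftN (fun _ => 0) n (mulD (wl_wd l a y) v) := by
  ext j
  simp only [mulD_apply, PiLp.smul_apply, smul_eq_mul]
  by_cases h : n ≤ (j : ℕ)
  · simp only [shiftN, LinearMap.coe_mk, AddHom.coe_mk, PiLp.toLp_apply, h, dif_pos, mulD_apply]
    rw [← mul_assoc, ← mul_assoc, ← mul_assoc]
    congr 1
    rw [← Complex.ofReal_mul, ← Complex.ofReal_mul, ← Complex.ofReal_mul]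
    congr 1
    unfold wl_wd
    rw [← Real.exp_add, ← Real.exp_add, ← Real.exp_add]
    congr 1
    rw [wl_wsum_split a j n h]
    have : wsum (fun _ => (0 : ℝ)) ((j : ℤ) - n) n = 0 := by simp [wsum]
    rw [this]
    push_cast [Nat.cast_sub h]
    ring
  · simp [shiftN, h]

lemma wl_shift_norm (n : ℕ) (v : EuclideanSpace ℂ (Fin l)) :
    ‖shiftN (fun _ => 0) n v‖ ^ 2 = ∑ m : Fin l, if (m : ℕ) + n < l then ‖v m‖ ^ 2 else 0 := by
  rw [EuclideanSpace.norm_sq_eq]
  have h1 : ∀ j : Fin l, ‖(shiftN (fun _ => (0 : ℝ)) n v) j‖ ^ 2 =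
      if h : n ≤ (j : ℕ) then ‖v ⟨(j : ℕ) - n, lt_of_le_of_lt (Nat.sub_le _ _) j.2⟩‖ ^ 2 else 0 := by
    intro j
    have : wsum (fun _ => (0 : ℝ)) ((j : ℤ) - n) n = 0 := by simp [wsum]
    by_cases h : n ≤ (j : ℕ)
    · simp [shiftN, h, this]
    · simp [shiftN, h]
  simp_rw [h1]
  rw [← Finset.sum_filter]
  have h2 : (∑ j : Fin l, if h : n ≤ (j : ℕ) then
      ‖v ⟨(j : ℕ) - n, lt_of_le_of_lt (Nat.sub_le _ _) j.2⟩‖ ^ 2 else 0)
      = ∑ j ∈ Finset.univ.filter (fun j : Fin l => n ≤ (j : ℕ)),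
        ‖v ⟨(j : ℕ) - n, lt_of_le_of_lt (Nat.sub_le _ _) j.2⟩‖ ^ 2 := by
    rw [Finset.sum_filter]
    refine Finset.sum_congr rfl fun j _ => ?_
    by_cases h : n ≤ (j : ℕ) <;> simp [h]
  rw [h2]
  symm
  refine Finset.sum_bij (fun (m : Fin l) hm => (⟨(m : ℕ) + n, (Finset.mem_filter.1 hm).2⟩ : Fin l))
    ?_ ?_ ?_ ?_
  · intro m hm
    simp
  · intro m hm m' hm' h
    have := congrArg Fin.val h
    simp at this
    exact Fin.ext this
  · intro j hj
    have hj2 : n ≤ (j : ℕ) := (Finset.mem_filter.1 hj).2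
    refine ⟨⟨(j : ℕ) - n, lt_of_le_of_lt (Nat.sub_le _ _) j.2⟩, ?_, ?_⟩
    · simp only [Finset.mem_filter, Finset.mem_univ, true_and]
      have := j.2
      omega
    · ext
      simp only
      omega
  · intro m hm
    simp

lemma wl_shift_norm_le (n : ℕ) (v : EuclideanSpace ℂ (Fin l)) :
    ‖shiftN (fun _ => 0) n v‖ ≤ ‖v‖ := by
  have h : ‖shiftN (fun _ => 0) n v‖ ^ 2 ≤ ‖v‖ ^ 2 := by
    rw [wl_shift_norm, EuclideanSpace.norm_sq_eq]
    refine Finset.sum_le_sum fun m _ => ?_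
    split_ifs
    · exact le_rfl
    · positivity
  exact (sq_le_sq₀ (norm_nonneg _) (norm_nonneg _)).1 h

lemma wl_shift_norm_eq (n : ℕ) (v : EuclideanSpace ℂ (Fin l))
    (hv : ∀ m : Fin l, ¬ ((m : ℕ) + n < l) → v m = 0) :
    ‖shiftN (fun _ => 0) n v‖ = ‖v‖ := by
  have h : ‖shiftN (fun _ => 0) n v‖ ^ 2 = ‖v‖ ^ 2 := by
    rw [wl_shift_norm, EuclideanSpace.norm_sq_eq]
    refine Finset.sum_congr rfl fun m _ => ?_
    split_ifs with h
    · rfl
    · simp [hv m h]
  have := (sq_eq_sq₀ (norm_nonneg _) (norm_nonneg _)).1 h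
  exact this

/-- The projection complement. -/
lemma wl_Q_le {ι : Type*} [Fintype ι] [DecidableEq ι] (X : Submodule ℂ (EuclideanSpace ℂ ι))
    (w z : EuclideanSpace ℂ ι) (hz : z ∈ X) :
    ‖w - X.starProjection w‖ ≤ ‖w - z‖ := by
  have h1 : w - X.starProjection w = (w - z) - X.starProjection (w - z) := by
    rw [map_sub, Submodule.starProjection_eq_self_iff.2 hz]
    abel
  have h2 : Xᗮ.starProjection (w - z) = (w - z) - X.starProjection (w - z) := by
    rw [Submodule.starProjection_orthogonal_val]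
  rw [h1, ← h2]
  exact Submodule.norm_starProjection_apply_le _ _

lemma wl_mulD_norm_le {ι : Type*} [Fintype ι] [DecidableEq ι] (d : ι → ℝ) (C : ℝ) (hC : 0 ≤ C)
    (hd : ∀ i, |d i| ≤ C) (v : EuclideanSpace ℂ ι) : ‖mulD d v‖ ≤ C * ‖v‖ := by
  have h : ‖mulD d v‖ ^ 2 ≤ (C * ‖v‖) ^ 2 := by
    rw [mul_pow, EuclideanSpace.norm_sq_eq, EuclideanSpace.norm_sq_eq, Finset.mul_sum]
    refine Finset.sum_le_sum fun i _ => ?_
    rw [mulD_apply, norm_mul, mul_pow, Complex.norm_real, Real.norm_eq_abs]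
    have := hd i
    gcongr
  exact (sq_le_sq₀ (norm_nonneg _) (by positivity)).1 h

lemma wl_mulD_norm_ge {ι : Type*} [Fintype ι] [DecidableEq ι] (d : ι → ℝ) (C : ℝ) (hC : 0 ≤ C)
    (hd : ∀ i, C ≤ |d i|) (v : EuclideanSpace ℂ ι) : C * ‖v‖ ≤ ‖mulD d v‖ := by
  have h : (C * ‖v‖) ^ 2 ≤ ‖mulD d v‖ ^ 2 := by
    rw [mul_pow, EuclideanSpace.norm_sq_eq, EuclideanSpace.norm_sq_eq, Finset.mul_sum]
    refine Finset.sum_le_sum fun i _ => ?_
    rw [mulD_apply, norm_mul, mul_pow, Complex.norm_real, Real.norm_eq_abs]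
    have := hd i
    gcongr
  exact (sq_le_sq₀ (by positivity) (norm_nonneg _)).1 h

/-- Inversions of distance `n` are bounded by the codimension. -/
lemma wl_inv_count (a : ℤ → ℝ) (y δ : ℝ) (n r : ℕ) (hn : n < l) (hy : 0 ≤ y)
    (hw0 : ∀ j : Fin l, 0 ≤ wsum a 0 j) (hw1 : ∀ j : Fin l, wsum a 0 j ≤ y * (j : ℕ))
    (F F' : Submodule ℂ (EuclideanSpace ℂ (Fin l)))
    (hδ0 : 0 ≤ δ) (hδ : δ * Real.exp (2 * l * y) ≤ 1 / 100)
    (hF' : F' ≤ F) (hcod : Module.finrank ℂ F ≤ Module.finrank ℂ F' + r)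
    (hinv : ∀ v ∈ F', ‖shiftN a n v - F.starProjection (shiftN a n v)‖ ≤ δ * ‖v‖)
    (G : Finset (Fin l))
    (hG1 : ∑ j ∈ G, (1 - dg (F.map (mulD (wl_wd l a y))) j) ≤ 1 / 8)
    (hG2 : ∑ j ∈ Gᶜ, dg (F.map (mulD (wl_wd l a y))) j ≤ 1 / 8)
    (B : Finset (Fin l)) (hBG : B ⊆ G)
    (hB : ∀ j ∈ B, ∃ h : (j : ℕ) + n < l, (⟨(j : ℕ) + n, h⟩ : Fin l) ∉ G) :
    B.card ≤ r := by
  set X := F.map (mulD (wl_wd l a y)) with hX
  by_contra hlt
  push Not at hlt
  have hsq : Real.sqrt (1 / 8) ≤ 9 / 25 := by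
    rw [show (9 / 25 : ℝ) = Real.sqrt ((9 / 25) ^ 2) by rw [Real.sqrt_sq (by norm_num)]]
    apply Real.sqrt_le_sqrt
    norm_num
  -- closeness for vectors supported on `B`
  have hclose : ∀ b ∈ coordSub B, ‖b - X.starProjection b‖ ≤ 9 / 25 * ‖b‖ := by
    intro b hb
    refine (wl_close X B b hb).trans ?_
    gcongr
    refine (Real.sqrt_le_sqrt ?_).trans hsq
    refine le_trans (Finset.sum_le_sum_of_subset_of_nonneg hBG fun j _ _ => ?_) hG1
    linarith [dg_le_one X j]
  have hsmall : ∀ b ∈ coordSub Gᶜ, ‖X.starProjection b‖ ≤ 9 / 25 * ‖b‖ := by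
    intro b hb
    refine (wl_small X Gᶜ b hb).trans ?_
    gcongr
    exact (Real.sqrt_le_sqrt hG2).trans hsq
  -- the image of `coordSub B` under the projection
  set W : Submodule ℂ (EuclideanSpace ℂ (Fin l)) :=
    (coordSub B).map (X.starProjection : EuclideanSpace ℂ (Fin l) →ₗ[ℂ] EuclideanSpace ℂ (Fin l))
    with hW
  set X' := F'.map (mulD (wl_wd l a y)) with hX'
  have hWX : W ≤ X := by
    rintro _ ⟨b, _, rfl⟩
    exact Submodule.starProjection_apply_mem X b
  have hXX' : X' ≤ X := Submodule.map_mono hF'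
  have hdW : Module.finrank ℂ W = B.card := by
    rw [← finrank_coordSub B, hW, ← LinearMap.range_domRestrict]
    apply LinearMap.finrank_range_of_inj
    rw [← LinearMap.ker_eq_bot, LinearMap.ker_eq_bot']
    rintro ⟨b, hb⟩ hPb
    have h0 : X.starProjection b = 0 := hPb
    have h1 := hclose b hb
    rw [h0, sub_zero] at h1
    have h2 : ‖b‖ ≤ 0 := by nlinarith [norm_nonneg b]
    exact Subtype.ext (norm_le_zero_iff.1 h2)
  have hdX : Module.finrank ℂ X = Module.finrank ℂ F := finrank_map_mulD F _ (wl_wd_pos a y)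
  have hdX' : Module.finrank ℂ X' = Module.finrank ℂ F' := finrank_map_mulD F' _ (wl_wd_pos a y)
  have hpos : 0 < Module.finrank ℂ (W ⊓ X' : Submodule ℂ (EuclideanSpace ℂ (Fin l))) := by
    have h1 := Submodule.finrank_sup_add_finrank_inf_eq W X'
    have h2 : Module.finrank ℂ (W ⊔ X' : Submodule ℂ (EuclideanSpace ℂ (Fin l)))
        ≤ Module.finrank ℂ X := Submodule.finrank_mono (sup_le hWX hXX')
    omega
  obtain ⟨⟨f, hfW, hfX'⟩, hf0⟩ := Module.finrank_pos_iff_exists_ne_zero.1 hpos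
  have hf0' : f ≠ 0 := fun h => hf0 (by ext1; exact h)
  obtain ⟨b, hb, hbf⟩ := hfW
  obtain ⟨v, hv, hvf⟩ := hfX'
  have hbf' : X.starProjection b = f := hbf
  have hvf' : mulD (wl_wd l a y) v = f := hvf
  have hb0 : 0 < ‖b‖ := by
    rw [norm_pos_iff]
    rintro rfl
    apply hf0'
    rw [← hbf', map_zero]
  have hfb : ‖f‖ ≤ ‖b‖ := by
    rw [← hbf']
    exact Submodule.norm_starProjection_apply_le _ _
  -- weights
  have hwd1 : ∀ j, |wl_wd l a y j| ≤ 1 := by
    intro j
    rw [abs_of_pos (wl_wd_pos a y j)]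
    unfold wl_wd
    rw [Real.exp_le_one_iff]
    linarith [hw1 j]
  have hwd2 : ∀ j, Real.exp (-(y * l)) ≤ |wl_wd l a y j| := by
    intro j
    rw [abs_of_pos (wl_wd_pos a y j)]
    unfold wl_wd
    rw [Real.exp_le_exp]
    have h1 : y * (j : ℕ) ≤ y * l := by
      have : ((j : ℕ) : ℝ) ≤ l := by exact_mod_cast j.2.le
      gcongr
    linarith [hw0 j]
  have hvnorm : ‖v‖ ≤ Real.exp (y * l) * ‖f‖ := by
    have h1 := wl_mulD_norm_ge (wl_wd l a y) _ (Real.exp_pos _).le hwd2 v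
    rw [hvf'] at h1
    calc ‖v‖ = Real.exp (y * l) * (Real.exp (-(y * l)) * ‖v‖) := by
          rw [← mul_assoc, ← Real.exp_add]; simp
      _ ≤ _ := by gcongr
  -- the shifted vector is close to `X`
  set S : EuclideanSpace ℂ (Fin l) →ₗ[ℂ] EuclideanSpace ℂ (Fin l) := shiftN (fun _ => 0) n with hS
  have hconj : mulD (wl_wd l a y) (shiftN a n v) = ((Real.exp (-(y * n)) : ℝ) : ℂ) • S f := by
    rw [wl_conj, hvf']
  have hQ : ‖S f - X.starProjection (S f)‖ ≤ 1 / 100 * ‖b‖ := by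
    set z := mulD (wl_wd l a y) (F.starProjection (shiftN a n v)) with hz
    have hzX : z ∈ X := Submodule.mem_map_of_mem (Submodule.starProjection_apply_mem _ _)
    have h1 : ‖((Real.exp (-(y * n)) : ℝ) : ℂ) • S f - z‖ ≤ δ * ‖v‖ := by
      rw [← hconj, hz, ← map_sub]
      refine (wl_mulD_norm_le _ 1 zero_le_one hwd1 _).trans ?_
      rw [one_mul]
      exact hinv v hv
    have h2 : ‖S f - ((Real.exp (y * n) : ℝ) : ℂ) • z‖ ≤ Real.exp (y * n) * (δ * ‖v‖) := by
      have h3 : S f - ((Real.exp (y * n) : ℝ) : ℂ) • z = ((Real.exp (y * n) : ℝ) : ℂ) •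
          (((Real.exp (-(y * n)) : ℝ) : ℂ) • S f - z) := by
        rw [smul_sub, smul_smul, ← Complex.ofReal_mul, ← Real.exp_add]
        simp
      rw [h3, norm_smul, Complex.norm_real, Real.norm_eq_abs, abs_of_pos (Real.exp_pos _)]
      gcongr
    refine (wl_Q_le X (S f) _ (X.smul_mem _ hzX)).trans (h2.trans ?_)
    calc Real.exp (y * n) * (δ * ‖v‖)
        ≤ Real.exp (y * l) * (δ * (Real.exp (y * l) * ‖b‖)) := by
          have : (n : ℝ) ≤ l := by exact_mod_cast hn.le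
          have h4 : ‖v‖ ≤ Real.exp (y * l) * ‖b‖ := hvnorm.trans (by gcongr)
          gcongr
      _ = (δ * Real.exp (2 * l * y)) * ‖b‖ := by
          rw [show 2 * (l : ℝ) * y = y * l + y * l by ring, Real.exp_add]
          ring
      _ ≤ 1 / 100 * ‖b‖ := by gcongr
  -- the shifted `b` is almost orthogonal to `X`
  have hSb : ‖S b‖ = ‖b‖ := by
    refine wl_shift_norm_eq n b fun m hm => hb m fun hmB => hm ?_
    exact (hB m hmB).1
  have hSbG : S b ∈ coordSub Gᶜ := by
    intro i hi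
    have hiG : i ∈ G := by simpa using hi
    by_cases h : n ≤ (i : ℕ)
    · have h5 : b ⟨(i : ℕ) - n, lt_of_le_of_lt (Nat.sub_le _ _) i.2⟩ = 0 := by
        apply hb
        intro hmB
        obtain ⟨h6, h7⟩ := hB _ hmB
        apply h7
        convert hiG using 1
        ext
        simp only
        omega
      simp [hS, shiftN, h, h5]
    · simp [hS, shiftN, h]
  have h8 : ‖S f - S b‖ ≤ 9 / 25 * ‖b‖ := by
    rw [← map_sub]
    refine (wl_shift_norm_le n _).trans ?_
    rw [← norm_neg, neg_sub, ← hbf']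
    exact hclose b hb
  have h9 : ‖X.starProjection (S b)‖ ≤ 9 / 25 * ‖b‖ := by
    have := hsmall _ hSbG
    rwa [hSb] at this
  have h10 : ‖S b‖ ≤ ‖S f - X.starProjection (S f)‖ + ‖S f - S b‖ + ‖X.starProjection (S b)‖ := by
    have h11 : S b = (S f - X.starProjection (S f)) - ((S f - S b) - X.starProjection (S f - S b))
        + X.starProjection (S b) := by
      rw [map_sub]
      abel
    have h12 : ‖(S f - S b) - X.starProjection (S f - S b)‖ ≤ ‖S f - S b‖ := by
      have := wl_Q_le X (S f - S b) 0 X.zero_mem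
      simpa using this
    calc ‖S b‖ = ‖(S f - X.starProjection (S f)) - ((S f - S b) - X.starProjection (S f - S b))
        + X.starProjection (S b)‖ := by rw [← h11]
      _ ≤ ‖(S f - X.starProjection (S f)) - ((S f - S b) - X.starProjection (S f - S b))‖
        + ‖X.starProjection (S b)‖ := norm_add_le _ _
      _ ≤ ‖S f - X.starProjection (S f)‖ + ‖(S f - S b) - X.starProjection (S f - S b)‖
        + ‖X.starProjection (S b)‖ := by gcongr; exact norm_sub_le _ _
      _ ≤ _ := by gcongr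
  rw [hSb] at h10
  linarith

lemma wl_tail_card (k : ℕ) (hk : k ≤ l) : (tailF l k).card = k := by
  have h1 : tailF l k = (Finset.univ : Finset (Fin k)).map
      ⟨fun i : Fin k => (⟨l - k + (i : ℕ), by have := i.2; omega⟩ : Fin l), by
        intro i j h
        have := congrArg Fin.val h
        simp at this
        exact Fin.ext this⟩ := by
    ext j
    simp only [tailF, Finset.mem_filter, Finset.mem_univ, true_and, Finset.mem_map,
      Function.Embedding.coeFn_mk]
    constructor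
    · intro h
      refine ⟨⟨(j : ℕ) - (l - k), by have := j.2; omega⟩, ?_⟩
      ext
      simp only
      omega
    · rintro ⟨i, rfl⟩
      simp only
      omega
  rw [h1, Finset.card_map, Finset.card_univ, Fintype.card_fin]

/-- combinatorial part: a set `G` of size `k` with few inversions misses few tail elements. -/
lemma wl_comb (k : ℕ) (hk : k ≤ l) (G : Finset (Fin l)) (hG : G.card = k) (r : ℕ → ℕ)
    (h : ∀ n, 1 ≤ n → n < l →
      (G.filter (fun j : Fin l => ∃ h : (j : ℕ) + n < l, (⟨(j : ℕ) + n, h⟩ : Fin l) ∉ G)).card ≤ r n) :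
    (tailF l k \ G).card ^ 2 ≤ ∑ n ∈ Finset.Ico 1 l, r n := by
  have h1 : (G \ tailF l k).card = (tailF l k \ G).card :=
    Finset.card_sdiff_comm (by rw [hG, wl_tail_card k hk])
  calc (tailF l k \ G).card ^ 2 = ((G \ tailF l k) ×ˢ (tailF l k \ G)).card := by
        rw [Finset.card_product, h1]; ring
    _ ≤ ((Finset.Ico 1 l).sigma (fun n => G.filter
        (fun j : Fin l => ∃ h : (j : ℕ) + n < l, (⟨(j : ℕ) + n, h⟩ : Fin l) ∉ G))).card := by
        refine Finset.card_le_card_of_injOn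
          (fun p : Fin l × Fin l => (⟨(p.2 : ℕ) - (p.1 : ℕ), p.1⟩ : Σ _ : ℕ, Fin l)) ?_ ?_
        · rintro ⟨i, j⟩ hij
          simp only [Finset.coe_product, Set.mem_prod, Finset.mem_coe, Finset.mem_sdiff, tailF,
            Finset.mem_filter, Finset.mem_univ, true_and] at hij
          simp only [Finset.mem_coe, Finset.mem_sigma, Finset.mem_Ico, Finset.mem_filter]
          obtain ⟨⟨hiG, hi⟩, hj, hjG⟩ := hij
          have hj2 := j.2
          have hi2 := i.2
          refine ⟨⟨by omega, by omega⟩, hiG, by omega, ?_⟩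
          have h9 : (⟨(i : ℕ) + ((j : ℕ) - i), by omega⟩ : Fin l) = j := by
            ext
            simp only
            omega
          rwa [h9]
        · rintro ⟨i, j⟩ hij ⟨i', j'⟩ hij' heq
          simp only [Finset.coe_product, Set.mem_prod, Finset.mem_coe, Finset.mem_sdiff, tailF,
            Finset.mem_filter, Finset.mem_univ, true_and] at hij hij'
          simp only [Sigma.mk.injEq, heq_eq_eq] at heq
          obtain ⟨h2, h2'⟩ := heq
          subst h2'
          obtain ⟨⟨hiG, hi⟩, hj, hjG⟩ := hij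
          obtain ⟨⟨hiG', hi'⟩, hj', hjG'⟩ := hij'
          have : (j : ℕ) = j' := by omega
          have : j = j' := Fin.ext this
          rw [this]
    _ = ∑ n ∈ Finset.Ico 1 l, (G.filter
        (fun j : Fin l => ∃ h : (j : ℕ) + n < l, (⟨(j : ℕ) + n, h⟩ : Fin l) ∉ G)).card := by
        rw [Finset.card_sigma]
    _ ≤ ∑ n ∈ Finset.Ico 1 l, r n := by
        refine Finset.sum_le_sum fun n hn => ?_
        rw [Finset.mem_Ico] at hn
        exact h n hn.1 hn.2

theorem window_lemma {l : ℕ} (hl : 1 ≤ l) (a : ℤ → ℝ) (k0 : ℝ)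
    (ha0 : ∀ m : ℤ, 0 ≤ m → m < l → 0 ≤ a m) (ha1 : ∀ m : ℤ, 0 ≤ m → m < l → a m ≤ k0)
    (F : Submodule ℂ (EuclideanSpace ℂ (Fin l)))
    (F' : ℕ → Submodule ℂ (EuclideanSpace ℂ (Fin l))) (r : ℕ → ℕ) (δ : ℝ)
    (hδ : δ ≤ Real.exp (-(10 * l * (k0 + 100 * (l : ℝ) ^ 3))))
    (hF' : ∀ n, 1 ≤ n → n < l → F' n ≤ F)
    (hcod : ∀ n, 1 ≤ n → n < l → Module.finrank ℂ F ≤ Module.finrank ℂ (F' n) + r n)
    (hinv : ∀ n, 1 ≤ n → n < l → ∀ v ∈ F' n,
      ‖shiftN a n v - F.starProjection (shiftN a n v)‖ ≤ δ * ‖v‖) :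
    (Module.finrank ℂ F : ℝ) - trOn F (tailF l (Module.finrank ℂ F)) ≤
      Real.sqrt (∑ n ∈ Finset.Ico 1 l, (r n : ℝ)) + 1 / 8 := by
  classical
  have hlR : (1 : ℝ) ≤ l := by exact_mod_cast hl
  have hk0 : 0 ≤ k0 := by
    have h1 : (0 : ℤ) < l := by omega
    exact (ha0 0 le_rfl h1).trans (ha1 0 le_rfl h1)
  have hw0 : ∀ j : Fin l, 0 ≤ wsum a 0 j := by
    intro j
    refine Finset.sum_nonneg fun i hi => ?_
    have h1 := Finset.mem_range.1 hi
    have h2 := j.2
    exact ha0 _ (by omega) (by omega)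
  have hw1 : ∀ j : Fin l, wsum a 0 j ≤ k0 * (j : ℕ) := by
    intro j
    calc wsum a 0 j ≤ ∑ _i ∈ Finset.range (j : ℕ), k0 := by
          refine Finset.sum_le_sum fun i hi => ?_
          have h1 := Finset.mem_range.1 hi
          have h2 := j.2
          exact ha1 _ (by omega) (by omega)
      _ = k0 * (j : ℕ) := by simp [mul_comm]
  set Fi : ℕ → Submodule ℂ (EuclideanSpace ℂ (Fin l)) :=
    fun i => F.map (mulD (wl_wd l a (k0 + i))) with hFi
  set T : ℕ → ℝ := fun i => ∑ m, dg (Fi i) m * (m : ℕ) with hT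
  -- one step
  have hstep : ∀ i, Fi (i + 1) = (Fi i).map (mulD (fun j : Fin l => Real.exp (-((j : ℕ) : ℝ)))) := by
    intro i
    simp only [hFi]
    rw [wl_map_map]
    congr 2
    ext j
    unfold wl_wd
    rw [← Real.exp_add]
    congr 1
    push_cast
    ring
  have hexp : (3 / 4 : ℝ) ≤ 1 - Real.exp (-2) := by
    have h1 : (4 : ℝ) ≤ Real.exp 2 := by
      have h2 := Real.add_one_le_exp (1 : ℝ)
      have h3 : Real.exp 2 = Real.exp 1 * Real.exp 1 := by rw [← Real.exp_add]; norm_num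
      rw [h3]
      nlinarith
    have h4 : Real.exp (-2) ≤ 1 / 4 := by
      rw [Real.exp_neg, inv_eq_one_div]
      exact one_div_le_one_div_of_le (by norm_num) h1
    linarith
  have hdrop : ∀ i, 3 / 4 * ∑ m, dg (Fi i) m * (1 - dg (Fi i) m) ≤ 2 * (l * (T i - T (i + 1))) := by
    intro i
    have h1 := wl_off_le (Fi i)
    have h2 : ∀ m : Fin l, (1 - Real.exp (-2)) * cut (Fi i) (tailF l (l - m)) ≤ T i - T (i + 1) := by
      intro m
      have := drop_expJ (Fi i) (l - m)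
      rw [← hstep i] at this
      exact this
    have h3 : (1 - Real.exp (-2)) * ∑ m : Fin l, cut (Fi i) (tailF l (l - m)) ≤
        l * (T i - T (i + 1)) := by
      rw [Finset.mul_sum]
      calc ∑ m : Fin l, (1 - Real.exp (-2)) * cut (Fi i) (tailF l (l - m))
          ≤ ∑ _m : Fin l, (T i - T (i + 1)) := Finset.sum_le_sum fun m _ => h2 m
        _ = _ := by rw [Finset.sum_const, Finset.card_univ, Fintype.card_fin, nsmul_eq_mul]
    have h4 : 0 ≤ ∑ m : Fin l, cut (Fi i) (tailF l (l - m)) :=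
      Finset.sum_nonneg fun m _ => cut_nonneg _ _
    calc 3 / 4 * ∑ m, dg (Fi i) m * (1 - dg (Fi i) m)
        ≤ 3 / 4 * (2 * ∑ m : Fin l, cut (Fi i) (tailF l (l - m))) := by gcongr
      _ = 2 * (3 / 4 * ∑ m : Fin l, cut (Fi i) (tailF l (l - m))) := by ring
      _ ≤ 2 * ((1 - Real.exp (-2)) * ∑ m : Fin l, cut (Fi i) (tailF l (l - m))) := by gcongr
      _ ≤ _ := by gcongr
  have hT0 : T 0 ≤ l * l := by
    calc T 0 ≤ ∑ _m : Fin l, (l : ℝ) := by
          refine Finset.sum_le_sum fun m _ => ?_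
          have h1 := dg_le_one (Fi 0) m
          have h2 := dg_nonneg (Fi 0) m
          have h3 : ((m : ℕ) : ℝ) ≤ l := by exact_mod_cast m.2.le
          have h4 : (0 : ℝ) ≤ ((m : ℕ) : ℝ) := by positivity
          nlinarith
      _ = l * l := by simp
  have hTn : ∀ i, 0 ≤ T i := fun i =>
    Finset.sum_nonneg fun m _ => mul_nonneg (dg_nonneg _ _) (by positivity)
  -- pigeonhole
  obtain ⟨i, hi, hoff⟩ : ∃ i < 48 * l ^ 3,
      ∑ m, dg (Fi i) m * (1 - dg (Fi i) m) ≤ 1 / 16 := by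
    by_contra hcon
    push Not at hcon
    have h1 : ∑ i ∈ Finset.range (48 * l ^ 3), (3 / 4 * (1 / 16) : ℝ) ≤
        ∑ i ∈ Finset.range (48 * l ^ 3), 2 * (l * (T i - T (i + 1))) := by
      refine Finset.sum_le_sum fun i hi => ?_
      have := hcon i (Finset.mem_range.1 hi)
      refine le_trans ?_ (hdrop i)
      linarith
    rw [← Finset.mul_sum (Finset.range (48 * l ^ 3)) (fun i => (l : ℝ) * (T i - T (i + 1))),
      ← Finset.mul_sum (Finset.range (48 * l ^ 3)) (fun i => T i - T (i + 1)), Finset.sum_range_sub', Finset.sum_const,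
      Finset.card_range, nsmul_eq_mul] at h1
    push_cast at h1
    have h2 := hTn (48 * l ^ 3)
    have h3 : (l : ℝ) * (T 0 - T (48 * l ^ 3)) ≤ l * (l * l) := by
      gcongr
      linarith
    have h4 : (0 : ℝ) < (l : ℝ) ^ 3 := by positivity
    nlinarith
  -- the set `G`
  set X := Fi i with hX
  set h : Fin l → ℝ := dg X with hh
  have hh0 : ∀ m, 0 ≤ h m := dg_nonneg X
  have hh1 : ∀ m, h m ≤ 1 := dg_le_one X
  set G : Finset (Fin l) := Finset.univ.filter (fun m => 1 / 2 ≤ h m) with hG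
  have hsum : ∑ m ∈ G, (1 - h m) + ∑ m ∈ Gᶜ, h m ≤ 1 / 8 := by
    have h1 : ∑ m ∈ G, (1 - h m) ≤ ∑ m ∈ G, 2 * (h m * (1 - h m)) := by
      refine Finset.sum_le_sum fun m hm => ?_
      have h2 : 1 / 2 ≤ h m := (Finset.mem_filter.1 hm).2
      nlinarith [hh1 m]
    have h2 : ∑ m ∈ Gᶜ, h m ≤ ∑ m ∈ Gᶜ, 2 * (h m * (1 - h m)) := by
      refine Finset.sum_le_sum fun m hm => ?_
      have h3 : h m < 1 / 2 := by
        simpa [hG] using hm
      nlinarith [hh0 m]
    have h3 : ∑ m ∈ G, 2 * (h m * (1 - h m)) + ∑ m ∈ Gᶜ, 2 * (h m * (1 - h m)) =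
        2 * ∑ m, h m * (1 - h m) := by
      rw [Finset.sum_add_sum_compl, Finset.mul_sum]
    linarith
  have hs1 : 0 ≤ ∑ m ∈ G, (1 - h m) := Finset.sum_nonneg fun m _ => by linarith [hh1 m]
  have hs2 : 0 ≤ ∑ m ∈ Gᶜ, h m := Finset.sum_nonneg fun m _ => hh0 m
  set k := Module.finrank ℂ F with hk
  have hXk : Module.finrank ℂ X = k := finrank_map_mulD F _ (wl_wd_pos a _)
  have hsumh : ∑ m, h m = k := by
    rw [← hXk]
    exact sum_dg X
  have hGk : G.card = k := by
    have h1 : ∑ m ∈ G, h m + ∑ m ∈ Gᶜ, h m = k := by rw [Finset.sum_add_sum_compl, hsumh]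
    have h2 : ∑ m ∈ G, (1 - h m) = G.card - ∑ m ∈ G, h m := by
      rw [Finset.sum_sub_distrib]; simp
    have h3 : (G.card : ℝ) - k = ∑ m ∈ G, (1 - h m) - ∑ m ∈ Gᶜ, h m := by linarith
    have h4 : (G.card : ℝ) < k + 1 := by linarith
    have h5 : (k : ℝ) < G.card + 1 := by linarith
    have h6 : G.card < k + 1 := by exact_mod_cast h4
    have h7 : k < G.card + 1 := by exact_mod_cast h5
    omega
  have hkl : k ≤ l := by
    have := Finset.card_le_univ G
    rw [hGk, Fintype.card_fin] at this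
    exact this
  -- inversion counts
  have hyi : (i : ℝ) ≤ 48 * (l : ℝ) ^ 3 := by exact_mod_cast hi.le
  have hδ' : max δ 0 * Real.exp (2 * l * (k0 + i)) ≤ 1 / 100 := by
    have h1 : max δ 0 ≤ Real.exp (-(10 * l * (k0 + 100 * (l : ℝ) ^ 3))) :=
      max_le hδ (Real.exp_pos _).le
    calc max δ 0 * Real.exp (2 * l * (k0 + i))
        ≤ Real.exp (-(10 * l * (k0 + 100 * (l : ℝ) ^ 3))) * Real.exp (2 * l * (k0 + i)) := by
          gcongr
      _ = Real.exp (-(10 * l * (k0 + 100 * (l : ℝ) ^ 3)) + 2 * l * (k0 + i)) := by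
          rw [Real.exp_add]
      _ ≤ Real.exp (-904) := by
          apply Real.exp_le_exp.2
          have h2 : (1 : ℝ) ≤ (l : ℝ) ^ 4 := one_le_pow₀ hlR
          have h3 : (l : ℝ) * i ≤ l * (48 * (l : ℝ) ^ 3) := by gcongr
          have h4 : 0 ≤ (l : ℝ) * k0 := by positivity
          nlinarith
      _ ≤ 1 / 100 := by
          rw [Real.exp_neg, inv_eq_one_div]
          refine one_div_le_one_div_of_le (by norm_num) ?_
          linarith [Real.add_one_le_exp (904 : ℝ)]
  have hcount : ∀ n, 1 ≤ n → n < l →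
      (G.filter (fun j : Fin l => ∃ h : (j : ℕ) + n < l, (⟨(j : ℕ) + n, h⟩ : Fin l) ∉ G)).card ≤ r n := by
    intro n hn1 hn2
    refine wl_inv_count a (k0 + i) (max δ 0) n (r n) hn2 (by positivity) hw0 ?_ F (F' n)
      (le_max_right _ _) hδ' (hF' n hn1 hn2) (hcod n hn1 hn2) ?_ G ?_ ?_ _
      (Finset.filter_subset _ _) ?_
    · intro j
      have h1 := hw1 j
      have h2 : (0 : ℝ) ≤ (i : ℝ) * (j : ℕ) := by positivity
      nlinarith
    · intro v hv
      refine (hinv n hn1 hn2 v hv).trans ?_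
      gcongr
      exact le_max_left _ _
    · change ∑ m ∈ G, (1 - h m) ≤ 1 / 8
      linarith
    · change ∑ m ∈ Gᶜ, h m ≤ 1 / 8
      linarith
    · intro j hj
      exact (Finset.mem_filter.1 hj).2
  have hcomb := wl_comb k hkl G hGk r hcount
  set tl := tailF l k with htl
  have ht : ((tl \ G).card : ℝ) ≤ Real.sqrt (∑ n ∈ Finset.Ico 1 l, (r n : ℝ)) := by
    apply Real.le_sqrt_of_sq_le
    exact_mod_cast hcomb
  -- trace of `X` on the tail
  have htrX : (k : ℝ) - (tl \ G).card - 1 / 8 ≤ trOn X tl := by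
    have h1 : ∑ m ∈ tl ∩ G, h m ≤ trOn X tl := by
      unfold trOn
      exact Finset.sum_le_sum_of_subset_of_nonneg Finset.inter_subset_left
        (fun m _ _ => hh0 m)
    have h2 : ∑ m ∈ tl ∩ G, (1 - h m) ≤ ∑ m ∈ G, (1 - h m) :=
      Finset.sum_le_sum_of_subset_of_nonneg Finset.inter_subset_right
        (fun m _ _ => by linarith [hh1 m])
    have h3 : ∑ m ∈ tl ∩ G, (1 - h m) = (tl ∩ G).card - ∑ m ∈ tl ∩ G, h m := by
      rw [Finset.sum_sub_distrib]; simp
    have h4 : (tl ∩ G).card + (tl \ G).card = k := by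
      rw [add_comm, Finset.card_sdiff_add_card_inter, htl, wl_tail_card k hkl]
    have h5 : ((tl ∩ G).card : ℝ) + (tl \ G).card = k := by exact_mod_cast h4
    linarith
  -- monotone scaling
  have hmono : trOn X tl ≤ trOn F tl := by
    have h1 := mono_scale X (fun j => (wl_wd l a (k0 + i) j)⁻¹)
      (fun j => inv_pos.2 (wl_wd_pos a _ j)) ?_ k
    · have h2 : X.map (mulD (fun j => (wl_wd l a (k0 + i) j)⁻¹)) = F := by
        rw [hX, hFi]
        simp only
        rw [wl_map_map]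
        exact wl_map_one F _ fun j => inv_mul_cancel₀ (wl_wd_pos a _ j).ne'
      rw [h2] at h1
      exact h1
    · intro j j' hjj'
      simp only
      apply inv_anti₀ (wl_wd_pos a _ _)
      unfold wl_wd
      apply Real.exp_le_exp.2
      have hjn : (j : ℕ) ≤ j' := hjj'
      rw [wl_wsum_split a (j' : ℕ) ((j' : ℕ) - (j : ℕ)) (by omega)]
      have h3 : (j' : ℕ) - ((j' : ℕ) - (j : ℕ)) = j := by omega
      rw [h3]
      have h4 : wsum a (((j' : ℕ) : ℤ) - (((j' : ℕ) - (j : ℕ) : ℕ) : ℤ)) ((j' : ℕ) - (j : ℕ))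
          ≤ k0 * (((j' : ℕ) - (j : ℕ) : ℕ) : ℝ) := by
        calc wsum a (((j' : ℕ) : ℤ) - (((j' : ℕ) - (j : ℕ) : ℕ) : ℤ)) ((j' : ℕ) - (j : ℕ))
            ≤ ∑ _i ∈ Finset.range ((j' : ℕ) - (j : ℕ)), k0 := by
              refine Finset.sum_le_sum fun i hi => ?_
              have h1 := Finset.mem_range.1 hi
              have h2 := j'.2
              exact ha1 _ (by omega) (by omega)
          _ = _ := by
              rw [Finset.sum_const, Finset.card_range, nsmul_eq_mul, mul_comm]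
      have h8 : ((((j' : ℕ) - (j : ℕ) : ℕ)) : ℝ) = ((j' : ℕ) : ℝ) - ((j : ℕ) : ℝ) :=
        Nat.cast_sub hjn
      rw [h8] at h4
      have h6 : (0 : ℝ) ≤ ((j' : ℕ) : ℝ) - (j : ℕ) := by
        have : ((j : ℕ) : ℝ) ≤ (j' : ℕ) := by exact_mod_cast hjn
        linarith
      have h5 : (0 : ℝ) ≤ (i : ℝ) * (((j' : ℕ) : ℝ) - (j : ℕ)) := mul_nonneg (by positivity) h6
      have h7 : (k0 + (i : ℝ)) * ((j' : ℕ) : ℝ) = (k0 + (i : ℝ)) * ((j : ℕ) : ℝ)
          + k0 * (((j' : ℕ) : ℝ) - (j : ℕ)) + (i : ℝ) * (((j' : ℕ) : ℝ) - (j : ℕ)) := by ring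
      rw [h7]
      linarith
  linarith

end WLfin

end Crest.Agent.R113
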