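import Mathlib

/-!
Row 113, S0149, task T13 (transfer), definitions and the exact statement.

Input: `Fibres θ F P` (= output of T15, helper474's `exists_fibres`, with `F x = f (fourier 1 x)`).
Output: `Good …` for most `x` (theorem `transfer` in `Crest.Agent.R113.TransferMain`).
-/

set_option autoImplicit false

open MeasureTheory
open scoped InnerProductSpace

namespace Crest.Agent.R113.Transfer

noncomputable abbrev L2Z := lp (fun _ : ℤ => ℂ) 2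

/-- measurable covariant invariant field of projections over the circle (output of T15) -/
structure Fibres (θ : ℝ) (F : UnitAddCircle → ℝ) (P : UnitAddCircle → (L2Z →L[ℂ] L2Z)) : Prop where
  proj : ∀ x, IsStarProjection (P x)
  meas : ∀ m m' : ℤ, Measurable fun x => (P x (lp.single 2 m' (1 : ℂ)) : ℤ → ℂ) m
  cov : ∀ x (m m' : ℤ), (P (x + ((θ : ℝ) : UnitAddCircle)) (lp.single 2 m' (1 : ℂ)) : ℤ → ℂ) m =
    (P x (lp.single 2 (m' + 1) (1 : ℂ)) : ℤ → ℂ) (m + 1)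
  inv : ∀ x (T : L2Z →L[ℂ] L2Z), (∀ m : ℤ, T (lp.single 2 m (1 : ℂ)) =
      ((F (x + m • ((θ : ℝ) : UnitAddCircle)) : ℝ) : ℂ) • lp.single 2 (m + 1) (1 : ℂ)) →
    (1 - P x) * T * P x = 0

/-- the standard basis vector `δ_m` of `ℂ^q` -/
noncomputable abbrev dlt {q : ℕ} (m : Fin q) : EuclideanSpace ℂ (Fin q) := EuclideanSpace.single m 1

/-- diagonal `h_E(m) = ‖P_E δ_m‖²` as a function on `ℕ` (zero for `m ≥ q`) -/
noncomputable def hdiag {q : ℕ} (E : Submodule ℂ (EuclideanSpace ℂ (Fin q))) (m : ℕ) : ℝ :=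
  if h : m < q then ‖E.starProjection (dlt (⟨m, h⟩ : Fin q))‖ ^ 2 else 0

/-- `T^n` truncated to `ℂ^q`, for the weighted shift `T δ_m = F(x + mθ) δ_{m+1}`:
`(T^n v)(j) = (∏_{i<n} F(x + (j-n+i)θ)) v(j-n)` for `n ≤ j`, and `0` for `j < n`. -/
noncomputable def shiftPow (θ : ℝ) (F : UnitAddCircle → ℝ) (x : UnitAddCircle) (q n : ℕ)
    (v : EuclideanSpace ℂ (Fin q)) : EuclideanSpace ℂ (Fin q) :=
  WithLp.toLp 2 fun j : Fin q => if h : n ≤ (j : ℕ) then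
    ((∏ i ∈ Finset.range n, F (x + (((j : ℕ) - n + i : ℕ) : ℤ) • ((θ : ℝ) : UnitAddCircle)) : ℝ) : ℂ)
      * v ⟨(j : ℕ) - n, by have := j.2; omega⟩ else 0

/-- The conclusion of the transfer at the point `x` and length `q`. -/
def Good (θ : ℝ) (F : UnitAddCircle → ℝ) (ρ : ℝ) (η₁ : ℝ) (l' : ℕ) (η' : ℝ) (R : ℕ) (c : ℝ)
    (nstar : ℕ) (η : ℝ) (q : ℕ) (x : UnitAddCircle) : Prop :=
  ∃ E : Submodule ℂ (EuclideanSpace ℂ (Fin q)),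
    -- (E1)
    |(Module.finrank ℂ E : ℝ) - ρ * q| ≤ η * q ∧
    -- (E3)
    (∀ n ≤ nstar, ∃ E' : Submodule ℂ (EuclideanSpace ℂ (Fin q)), E' ≤ E ∧
      (Module.finrank ℂ E : ℝ) ≤ Module.finrank ℂ E' + η * q ∧
      ∀ v ∈ E', (∀ m : Fin q, q ≤ (m : ℕ) + n → v m = 0) ∧
        ‖shiftPow θ F x q n v - E.starProjection (shiftPow θ F x q n v)‖ ≤ Real.exp (-c) * ‖v‖) ∧
    -- (E4)
    (∑ m : Fin q, ∑ m' : Fin q, (if (R : ℤ) ≤ |((m : ℕ) : ℤ) - ((m' : ℕ) : ℤ)| then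
      ‖⟪dlt m, E.starProjection (dlt m')⟫_ℂ‖ ^ 2 else 0) ≤ η' * q) ∧
    -- (E5)
    (∑ m ∈ Finset.range (q - l'), |∑ i ∈ Finset.range l', (hdiag E (m + i) - ρ)| ≤ η₁ * l' * q)

/-- T13+T14: the transfer theorem. -/
def S_Transfer : Prop := ∀ (θ : ℝ), Irrational θ → ∀ (F : UnitAddCircle → ℝ), (∀ x, 0 ≤ F x) →
  (∀ x, F x ≤ 1) → ∀ (P : UnitAddCircle → (L2Z →L[ℂ] L2Z)), Fibres θ F P →
  ∀ ρ : ℝ, ρ = ∫ x, ‖P x (lp.single 2 (0 : ℤ) (1 : ℂ))‖ ^ 2 →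
  ∀ ε > (0 : ℝ), ∀ η₁ > (0 : ℝ), ∃ l0 : ℕ, ∀ l' ≥ l0, ∀ η' > (0 : ℝ), ∃ R : ℕ,
  ∀ (c : ℝ) (nstar : ℕ), ∀ η > (0 : ℝ), ∃ q0 : ℕ, ∀ q ≥ q0,
    volume {x : UnitAddCircle | ¬ Good θ F ρ η₁ l' η' R c nstar η q x} ≤ ENNReal.ofReal ε

open Classical in
/-- Markov lemma for finitely many counts along the orbit. -/
def S_Counts : Prop := ∀ (θ : ℝ) (ι : Type) (s : Finset ι) (B : ι → Set UnitAddCircle)
  (_ : ∀ i ∈ s, MeasurableSet (B i)) (mu ζ : ι → ℝ) (_ : ∀ i ∈ s, 0 < ζ i)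
  (_ : ∀ i ∈ s, 0 ≤ mu i) (_ : ∀ i ∈ s, volume (B i) ≤ ENNReal.ofReal (mu i)) (N q : ℕ) (_ : 2 * N + 1 ≤ q),
  volume {x : UnitAddCircle | ∃ i ∈ s, ζ i * q <
      (((Finset.Icc (-(N : ℤ)) (q + N)).filter
        (fun m => x + m • ((θ : ℝ) : UnitAddCircle) ∈ B i)).card : ℝ)} ≤
    ENNReal.ofReal (∑ i ∈ s, 2 * mu i / ζ i)

end Crest.Agent.R113.Transfer
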