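import Mathlib

set_option linter.unusedSectionVars false

/-!
R113 / T17: existence of the pair balanced words of the blueprint of S0149.
-/

namespace Crest.Agent.R113.Words

open Finset

section count

variable {ι : Type*} [Fintype ι] [DecidableEq ι]

/-- flip the bit at `x` -/
def flip (x : ι) (β : ι → Bool) : ι → Bool := Function.update β x (!β x)

theorem flip_invol (x : ι) : Function.Involutive (flip x) := by
  intro β
  unfold flip
  simp

theorem flip_same (x : ι) (β : ι → Bool) : flip x β x = !β x := by simp [flip]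

theorem flip_ne {x y : ι} (h : y ≠ x) (β : ι → Bool) : flip x β y = β y := by
  simp [flip, h]

theorem sum_prod_matching (O : Finset ℕ) (s u : ℕ → ι) (hu : Set.InjOn u O)
    (hsu : ∀ t ∈ O, ∀ t' ∈ O, s t ≠ u t') (φ : Bool → ℕ) :
    2 ^ O.card * ∑ β : ι → Bool, ∏ t ∈ O, φ (xor (β (s t)) (β (u t)))
      = (φ false + φ true) ^ O.card * 2 ^ Fintype.card ι := by
  classical
  induction O using Finset.induction_on with
  | empty => simp
  | insert a O ha ih =>
    have ih' := ih (hu.mono (by simp)) (fun t ht t' ht' =>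
      hsu t (mem_insert_of_mem ht) t' (mem_insert_of_mem ht'))
    set F : (ι → Bool) → ℕ := fun β => ∏ t ∈ O, φ (xor (β (s t)) (β (u t))) with hF
    have hFinv : ∀ β, F (flip (u a) β) = F β := by
      intro β
      simp only [hF]
      apply Finset.prod_congr rfl
      intro t ht
      have h1 : s t ≠ u a := hsu t (mem_insert_of_mem ht) a (mem_insert_self _ _)
      have h2 : u t ≠ u a := by
        intro h
        have := hu (by simp [ht]) (by simp) h
        subst this
        exact ha ht
      rw [flip_ne h1, flip_ne h2]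
    have key : 2 * ∑ β : ι → Bool, φ (xor (β (s a)) (β (u a))) * F β
        = (φ false + φ true) * ∑ β : ι → Bool, F β := by
      have e : ∑ β : ι → Bool, φ (xor (β (s a)) (β (u a))) * F β
          = ∑ β : ι → Bool, φ (!(xor (β (s a)) (β (u a)))) * F β := by
        rw [← Equiv.sum_comp (flip_invol (u a)).toPerm]
        apply Finset.sum_congr rfl
        intro β _
        have h1 : s a ≠ u a := hsu a (mem_insert_self _ _) a (mem_insert_self _ _)
        simp only [Function.Involutive.coe_toPerm, hFinv, flip_same, flip_ne h1]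
        congr 2
        cases β (s a) <;> cases β (u a) <;> rfl
      rw [two_mul]
      nth_rewrite 2 [e]
      rw [← Finset.sum_add_distrib, Finset.mul_sum]
      apply Finset.sum_congr rfl
      intro β _
      rw [← add_mul]
      congr 1
      cases (xor (β (s a)) (β (u a))) <;> simp [add_comm]
    rw [card_insert_of_notMem ha, pow_succ, pow_succ]
    have e2 : ∀ β : ι → Bool, ∏ t ∈ insert a O, φ (xor (β (s t)) (β (u t)))
        = φ (xor (β (s a)) (β (u a))) * F β := by
      intro β
      rw [Finset.prod_insert ha]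
    simp only [e2]
    calc 2 ^ O.card * 2 * ∑ β : ι → Bool, φ (xor (β (s a)) (β (u a))) * F β
        = 2 ^ O.card * (2 * ∑ β : ι → Bool, φ (xor (β (s a)) (β (u a))) * F β) := by ring
      _ = 2 ^ O.card * ((φ false + φ true) * ∑ β : ι → Bool, F β) := by rw [key]
      _ = (φ false + φ true) * (2 ^ O.card * ∑ β : ι → Bool, F β) := by ring
      _ = (φ false + φ true) * ((φ false + φ true) ^ O.card * 2 ^ Fintype.card ι) := by
          rw [← ih']
      _ = (φ false + φ true) ^ O.card * (φ false + φ true) * 2 ^ Fintype.card ι := by ring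

/-- large deviation bound: few `β` have less than `R` indices `t ∈ O` with
`xor (β (s t)) (β (u t)) = v`. -/
theorem card_bad (O : Finset ℕ) (s u : ℕ → ι) (hu : Set.InjOn u O)
    (hsu : ∀ t ∈ O, ∀ t' ∈ O, s t ≠ u t') (R : ℕ) (hO : O.card = 16 * R) (v : Bool) :
    ((univ : Finset (ι → Bool)).filter
      (fun β => (O.filter (fun t => xor (β (s t)) (β (u t)) = v)).card < R)).card * 2 ^ (10 * R)
      ≤ 2 ^ Fintype.card ι := by
  classical
  set bad := (univ : Finset (ι → Bool)).filter
      (fun β => (O.filter (fun t => xor (β (s t)) (β (u t)) = v)).card < R) with hbad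
  set φ : Bool → ℕ := fun b => if b = v then 1 else 16 with hφ
  have hsum := sum_prod_matching O s u hu hsu φ
  have hφs : φ false + φ true = 17 := by
    simp only [hφ]; cases v <;> simp
  rw [hφs, hO] at hsum
  have hlow : bad.card * 16 ^ (15 * R) ≤ ∑ β : ι → Bool, ∏ t ∈ O, φ (xor (β (s t)) (β (u t))) := by
    calc bad.card * 16 ^ (15 * R) = ∑ β ∈ bad, 16 ^ (15 * R) := by simp
      _ ≤ ∑ β ∈ bad, ∏ t ∈ O, φ (xor (β (s t)) (β (u t))) := by
          apply Finset.sum_le_sum
          intro β hβ
          simp only [hbad, mem_filter, mem_univ, true_and] at hβ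
          have : ∏ t ∈ O, φ (xor (β (s t)) (β (u t)))
              = 16 ^ (O.filter (fun t => ¬ xor (β (s t)) (β (u t)) = v)).card := by
            rw [← Finset.prod_filter_mul_prod_filter_not O
              (fun t => xor (β (s t)) (β (u t)) = v)]
            have h1 : ∏ t ∈ O.filter (fun t => xor (β (s t)) (β (u t)) = v),
                φ (xor (β (s t)) (β (u t))) = 1 := by
              apply Finset.prod_eq_one
              intro t ht
              simp only [hφ, mem_filter] at ht ⊢
              simp [ht.2]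
            have h2 : ∏ t ∈ O.filter (fun t => ¬ xor (β (s t)) (β (u t)) = v),
                φ (xor (β (s t)) (β (u t)))
                = 16 ^ (O.filter (fun t => ¬ xor (β (s t)) (β (u t)) = v)).card := by
              rw [← Finset.prod_const]
              apply Finset.prod_congr rfl
              intro t ht
              simp only [hφ, mem_filter] at ht ⊢
              simp [ht.2]
            rw [h1, h2, one_mul]
          rw [this]
          apply Nat.pow_le_pow_right (by norm_num)
          have hc := Finset.card_filter_add_card_filter_not (s := O)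
            (fun t => xor (β (s t)) (β (u t)) = v)
          omega
      _ ≤ ∑ β : ι → Bool, ∏ t ∈ O, φ (xor (β (s t)) (β (u t))) :=
          Finset.sum_le_sum_of_subset (subset_univ _)
  -- arithmetic
  have h17 : 17 ^ (16 * R) ≤ 2 ^ (66 * R) := by
    rw [pow_mul, pow_mul]
    exact Nat.pow_le_pow_left (by norm_num) R
  have h3 : bad.card * 2 ^ (10 * R) * 2 ^ (66 * R) ≤ 2 ^ Fintype.card ι * 2 ^ (66 * R) := by
    calc bad.card * 2 ^ (10 * R) * 2 ^ (66 * R)
        = 2 ^ (16 * R) * (bad.card * 16 ^ (15 * R)) := by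
          have : (16 : ℕ) ^ (15 * R) = 2 ^ (60 * R) := by
            rw [show (16 : ℕ) = 2 ^ 4 by norm_num, ← pow_mul]; congr 1; ring
          rw [this]
          have e1 : (2:ℕ) ^ (10 * R) * 2 ^ (66 * R) = 2 ^ (16 * R) * 2 ^ (60 * R) := by
            rw [← pow_add, ← pow_add]; congr 1; ring
          calc bad.card * 2 ^ (10 * R) * 2 ^ (66 * R)
              = bad.card * (2 ^ (10 * R) * 2 ^ (66 * R)) := by ring
            _ = bad.card * (2 ^ (16 * R) * 2 ^ (60 * R)) := by rw [e1]
            _ = _ := by ring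
      _ ≤ 2 ^ (16 * R) * ∑ β : ι → Bool, ∏ t ∈ O, φ (xor (β (s t)) (β (u t))) :=
          Nat.mul_le_mul_left _ hlow
      _ = 17 ^ (16 * R) * 2 ^ Fintype.card ι := hsum
      _ ≤ 2 ^ (66 * R) * 2 ^ Fintype.card ι := Nat.mul_le_mul_right _ h17
      _ = _ := by ring
  exact Nat.le_of_mul_le_mul_right h3 (by positivity)

end count

/-- half of the numbers below `L` have an even quotient by `δ` -/
theorem card_even_blocks (L δ : ℕ) (hδ : 0 < δ) :
    L ≤ 2 * ((range L).filter (fun x => (x / δ) % 2 = 0)).card := by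
  have h : ((range L).filter (fun x => ¬ (x / δ) % 2 = 0)).card
      ≤ ((range L).filter (fun x => (x / δ) % 2 = 0)).card := by
    apply Finset.card_le_card_of_injOn (fun x => x - δ)
    · intro x hx
      simp only [coe_filter, mem_range, Set.mem_ofPred_eq] at hx ⊢
      have h1 : δ ≤ x := by
        by_contra hlt
        push Not at hlt
        have : x / δ = 0 := Nat.div_eq_of_lt hlt
        omega
      have h2 : (x - δ) / δ = x / δ - 1 := by
        obtain ⟨y, rfl⟩ := Nat.exists_eq_add_of_le h1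
        have : (δ + y) / δ = y / δ + 1 := by
          rw [Nat.add_div_left _ hδ]
        rw [this]; simp
      constructor
      · omega
      · rw [h2]; omega
    · intro x hx y hy hxy
      simp only [coe_filter, mem_range, Set.mem_ofPred_eq] at hx hy hxy
      have h1 : δ ≤ x := by
        by_contra hlt
        push Not at hlt
        have : x / δ = 0 := Nat.div_eq_of_lt hlt
        omega
      have h2 : δ ≤ y := by
        by_contra hlt
        push Not at hlt
        have : y / δ = 0 := Nat.div_eq_of_lt hlt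
        omega
      omega
  have hc := Finset.card_filter_add_card_filter_not (s := range L) (fun x => (x / δ) % 2 = 0)
  simp only [card_range] at hc
  omega

/-- the word of the block bits `β` -/
def word (m : ℕ) [NeZero m] (β : Fin m → Bool) (n : ℕ) : Bool :=
  xor (β (Fin.ofNat m (n / 2))) (decide (n % 2 = 1))

theorem word_pair (m : ℕ) [NeZero m] (β : Fin m → Bool) (s : ℕ) :
    word m β (2 * s + 1) = !(word m β (2 * s)) := by
  unfold word
  have h1 : (2 * s + 1) / 2 = s := by omega
  have h2 : (2 * s) / 2 = s := by omega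
  have h3 : (2 * s + 1) % 2 = 1 := by omega
  rw [h1, h2]
  simp [h3]

theorem word_period (m : ℕ) [NeZero m] (β : Fin m → Bool) (n : ℕ) :
    word m β (n + 2 * m) = word m β n := by
  unfold word
  have h1 : (n + 2 * m) / 2 = n / 2 + m := by omega
  have h2 : (n + 2 * m) % 2 = n % 2 := by omega
  rw [h1, h2]
  congr 2
  apply Fin.ext
  simp [Fin.ofNat]

/-- the difference of a word at `i+t` and `j+t`. -/
theorem word_xor (m : ℕ) [NeZero m] (β : Fin m → Bool) (i j t : ℕ) :
    xor (word m β (i + t)) (word m β (j + t))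
      = xor (xor (β (Fin.ofNat m ((i + t) / 2))) (β (Fin.ofNat m ((j + t) / 2))))
          (decide ((i + j) % 2 = 1)) := by
  unfold word
  have : (decide ((i + j) % 2 = 1)) = xor (decide ((i + t) % 2 = 1)) (decide ((j + t) % 2 = 1)) := by
    rcases Nat.mod_two_eq_zero_or_one (i + t) with h | h <;>
    rcases Nat.mod_two_eq_zero_or_one (j + t) with h' | h' <;>
    · simp only [h, h']
      have : (i + j) % 2 = ((i + t) % 2 + (j + t) % 2) % 2 := by omega
      rw [this, h, h']
      decide
  rw [this]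
  cases β (Fin.ofNat m ((i + t) / 2)) <;> cases β (Fin.ofNat m ((j + t) / 2)) <;>
    cases (decide ((i + t) % 2 = 1)) <;> cases (decide ((j + t) % 2 = 1)) <;> rfl

/-- one pair: asymmetrical version, with the block difference `≤ m/2`. -/
theorem exists_matching_aux (m R a δ e : ℕ) [NeZero m] (hm : 64 * R ≤ m) (hδ0 : 0 < δ)
    (hδ : 2 * δ ≤ m) (he : e < 2) :
    ∃ O : Finset ℕ, O ⊆ range (64 * R) ∧ O.card = 16 * R ∧ (∀ t ∈ O, t % 2 = e) ∧
      Set.InjOn (fun t => Fin.ofNat m ((t - e) / 2 + (a + δ))) O ∧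
      ∀ t ∈ O, ∀ t' ∈ O, Fin.ofNat m ((t - e) / 2 + a) ≠ Fin.ofNat m ((t' - e) / 2 + (a + δ)) := by
  have hc := card_even_blocks (32 * R) δ hδ0
  obtain ⟨X, hX, hXc⟩ := Finset.exists_subset_card_eq
    (s := (range (32 * R)).filter (fun x => (x / δ) % 2 = 0)) (n := 16 * R) (by omega)
  have hXm : ∀ x ∈ X, x < 32 * R ∧ (x / δ) % 2 = 0 := by
    intro x hx
    have := hX hx
    simpa using this
  refine ⟨X.image (fun x => 2 * x + e), ?_, ?_, ?_, ?_, ?_⟩
  · intro t ht
    simp only [mem_image] at ht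
    obtain ⟨x, hx, rfl⟩ := ht
    have := (hXm x hx).1
    simp only [mem_range]; omega
  · rw [Finset.card_image_of_injective, hXc]
    intro x y h
    simp only at h
    omega
  · intro t ht
    simp only [mem_image] at ht
    obtain ⟨x, hx, rfl⟩ := ht
    omega
  · intro t ht t' ht' h
    simp only [coe_image, Set.mem_image, mem_coe] at ht ht'
    obtain ⟨x, hx, rfl⟩ := ht
    obtain ⟨y, hy, rfl⟩ := ht'
    simp only at h
    have hx' := (hXm x hx).1
    have hy' := (hXm y hy).1
    have e1 : (2 * x + e - e) / 2 = x := by omega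
    have e2 : (2 * y + e - e) / 2 = y := by omega
    rw [e1, e2] at h
    have h' : (x + (a + δ)) ≡ (y + (a + δ)) [MOD m] := by
      have := congrArg Fin.val h
      simpa [Fin.ofNat, Nat.ModEq] using this
    have h'' : x ≡ y [MOD m] := Nat.ModEq.add_right_cancel' _ h'
    have : x = y := Nat.ModEq.eq_of_lt_of_lt h'' (by omega) (by omega)
    rw [this]
  · intro t ht t' ht' h
    simp only [mem_image] at ht ht'
    obtain ⟨x, hx, rfl⟩ := ht
    obtain ⟨y, hy, rfl⟩ := ht'
    have hx' := hXm x hx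
    have hy' := hXm y hy
    have e1 : (2 * x + e - e) / 2 = x := by omega
    have e2 : (2 * y + e - e) / 2 = y := by omega
    rw [e1, e2] at h
    have h' : (x + a) ≡ (y + δ + a) [MOD m] := by
      have := congrArg Fin.val h
      have h2 : (x + a) % m = (y + (a + δ)) % m := by simpa [Fin.ofNat] using this
      have e3 : y + δ + a = y + (a + δ) := by ring
      rw [Nat.ModEq, e3]; exact h2
    have h'' : x ≡ y + δ [MOD m] := Nat.ModEq.add_right_cancel' _ h'
    have hlt : y + δ < m ∨ y + δ = m := by omega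
    have hRpos : 0 < R := by
      rcases Nat.eq_zero_or_pos R with h0 | h0
      · subst h0; omega
      · exact h0
    have hxy : x = y + δ := by
      apply Nat.ModEq.eq_of_lt_of_lt h'' (by omega) (by omega)
    have : x / δ = y / δ + 1 := by
      rw [hxy, Nat.add_div_right _ hδ0]
    omega


/-- the block difference of two distinct residues -/
theorem exists_delta (m a b : ℕ) [NeZero m] (h : ¬ a ≡ b [MOD m]) :
    ∃ δ, 0 < δ ∧ δ < m ∧ a + δ ≡ b [MOD m] ∧ b + (m - δ) ≡ a [MOD m] := by
  have hm : 0 < m := Nat.pos_of_ne_zero (NeZero.ne m)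
  have ha : a % m < m := Nat.mod_lt _ hm
  have hb : b % m < m := Nat.mod_lt _ hm
  have hne : a % m ≠ b % m := h
  have ha' : a % m ≡ a [MOD m] := Nat.mod_modEq a m
  have hb' : b % m ≡ b [MOD m] := Nat.mod_modEq b m
  rcases Nat.lt_or_ge (a % m) (b % m) with hlt | hge
  · refine ⟨b % m - a % m, by omega, by omega, ?_, ?_⟩
    · have h1 : a % m + (b % m - a % m) = b % m := by omega
      calc a + (b % m - a % m) ≡ a % m + (b % m - a % m) [MOD m] :=
            (Nat.ModEq.add_right _ ha').symm
        _ = b % m := h1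
        _ ≡ b [MOD m] := hb'
    · have h1 : b % m + (m - (b % m - a % m)) = a % m + m := by omega
      calc b + (m - (b % m - a % m)) ≡ b % m + (m - (b % m - a % m)) [MOD m] :=
            (Nat.ModEq.add_right _ hb').symm
        _ = a % m + m := h1
        _ ≡ a % m [MOD m] := by simp [Nat.ModEq]
        _ ≡ a [MOD m] := ha'
  · refine ⟨b % m + m - a % m, by omega, by omega, ?_, ?_⟩
    · have h1 : a % m + (b % m + m - a % m) = b % m + m := by omega
      calc a + (b % m + m - a % m) ≡ a % m + (b % m + m - a % m) [MOD m] :=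
            (Nat.ModEq.add_right _ ha').symm
        _ = b % m + m := h1
        _ ≡ b % m [MOD m] := by simp [Nat.ModEq]
        _ ≡ b [MOD m] := hb'
    · have h1 : b % m + (m - (b % m + m - a % m)) = a % m := by omega
      calc b + (m - (b % m + m - a % m)) ≡ b % m + (m - (b % m + m - a % m)) [MOD m] :=
            (Nat.ModEq.add_right _ hb').symm
        _ = a % m := h1
        _ ≡ a [MOD m] := ha'

theorem ofNat_eq_of_modEq (m : ℕ) [NeZero m] {x y : ℕ} (h : x ≡ y [MOD m]) :
    Fin.ofNat m x = Fin.ofNat m y := by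
  apply Fin.ext
  simpa [Fin.ofNat, Nat.ModEq] using h

/-- parity choice -/
theorem exists_parity (m i j : ℕ) (hm : 1 < m) (hij : ¬ i ≡ j [MOD (2 * m)]) :
    ∃ e, e < 2 ∧ ¬ (i + e) / 2 ≡ (j + e) / 2 [MOD m] := by
  by_contra hcon
  push Not at hcon
  have h0 := hcon 0 (by norm_num)
  have h1 := hcon 1 (by norm_num)
  apply hij
  simp only [add_zero] at h0
  have h01 : ¬ (0 : ℕ) ≡ 1 [MOD m] := by
    intro h
    have := (Nat.modEq_iff_dvd' (by norm_num)).1 h
    simp at this
    omega
  have key : ∀ n, n % (2 * m) = 2 * ((n / 2) % m) + n % 2 := by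
    intro n
    have := Nat.mod_mul (x := n) (a := 2) (b := m)
    omega
  have h0' : (i / 2) % m = (j / 2) % m := h0
  have goal : i % (2 * m) = j % (2 * m) := by
    rw [key i, key j, h0']
    rcases Nat.mod_two_eq_zero_or_one i with hi2 | hi2 <;>
    rcases Nat.mod_two_eq_zero_or_one j with hj2 | hj2
    · omega
    · exfalso
      have e1 : (i + 1) / 2 = i / 2 := by omega
      have e2 : (j + 1) / 2 = j / 2 + 1 := by omega
      rw [e1, e2] at h1
      have h2 : j / 2 + 0 ≡ j / 2 + 1 [MOD m] := by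
        simpa using h0.symm.trans h1
      exact h01 (Nat.ModEq.add_left_cancel' (j / 2) h2)
    · exfalso
      have e1 : (i + 1) / 2 = i / 2 + 1 := by omega
      have e2 : (j + 1) / 2 = j / 2 := by omega
      rw [e1, e2] at h1
      have h2 : i / 2 + 0 ≡ i / 2 + 1 [MOD m] := by
        simpa using h0.trans h1.symm
      exact h01 (Nat.ModEq.add_left_cancel' (i / 2) h2)
    · omega
  exact goal

/-- for two distinct residues modulo `2m` there is a good matching. -/
theorem exists_matching (m R i j : ℕ) [NeZero m] (hR : 0 < R) (hm : 64 * R ≤ m)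
    (hij : ¬ i ≡ j [MOD (2 * m)]) :
    ∃ O : Finset ℕ, O ⊆ range (64 * R) ∧ O.card = 16 * R ∧
      ∃ s u : ℕ → Fin m, Set.InjOn u O ∧ (∀ t ∈ O, ∀ t' ∈ O, s t ≠ u t') ∧
      ∀ t ∈ O, ∀ β : Fin m → Bool,
        xor (β (Fin.ofNat m ((i + t) / 2))) (β (Fin.ofNat m ((j + t) / 2)))
          = xor (β (s t)) (β (u t)) := by
  obtain ⟨e, he, hne⟩ := exists_parity m i j (by omega) hij
  obtain ⟨δ, hδ0, hδm, hab, hba⟩ := exists_delta m _ _ hne
  have hshift : ∀ n t, t % 2 = e → (n + t) / 2 = (t - e) / 2 + (n + e) / 2 := by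
    intro n t ht
    omega
  rcases Nat.lt_or_ge m (2 * δ) with hbig | hsmall
  · obtain ⟨O, hO1, hO2, hO3, hO4, hO5⟩ :=
      exists_matching_aux m R ((j + e) / 2) (m - δ) e hm (by omega) (by omega) he
    refine ⟨O, hO1, hO2, _, _, hO4, hO5, ?_⟩
    intro t ht β
    have h2 : Fin.ofNat m ((i + t) / 2) = Fin.ofNat m ((t - e) / 2 + ((j + e) / 2 + (m - δ))) := by
      apply ofNat_eq_of_modEq
      rw [hshift i t (hO3 t ht)]
      exact Nat.ModEq.add_left _ hba.symm
    have h3 : Fin.ofNat m ((j + t) / 2) = Fin.ofNat m ((t - e) / 2 + (j + e) / 2) := by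
      rw [hshift j t (hO3 t ht)]
    rw [h2, h3, Bool.xor_comm]
  · obtain ⟨O, hO1, hO2, hO3, hO4, hO5⟩ :=
      exists_matching_aux m R ((i + e) / 2) δ e hm hδ0 hsmall he
    refine ⟨O, hO1, hO2, _, _, hO4, hO5, ?_⟩
    intro t ht β
    have h2 : Fin.ofNat m ((j + t) / 2) = Fin.ofNat m ((t - e) / 2 + ((i + e) / 2 + δ)) := by
      apply ofNat_eq_of_modEq
      rw [hshift j t (hO3 t ht)]
      exact Nat.ModEq.add_left _ hab.symm
    have h3 : Fin.ofNat m ((i + t) / 2) = Fin.ofNat m ((t - e) / 2 + (i + e) / 2) := by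
      rw [hshift i t (hO3 t ht)]
    rw [h2, h3]

/-- bad bit strings for a pair of positions -/
def badSet (m R : ℕ) [NeZero m] (i j : ℕ) (v : Bool) : Finset (Fin m → Bool) :=
  univ.filter (fun β =>
    ((range (64 * R)).filter (fun t => xor (word m β (i + t)) (word m β (j + t)) = v)).card < R)

theorem card_badSet (m R i j : ℕ) [NeZero m] (hR : 0 < R) (hm : 64 * R ≤ m)
    (hij : ¬ i ≡ j [MOD (2 * m)]) (v : Bool) :
    (badSet m R i j v).card * 2 ^ (10 * R) ≤ 2 ^ m := by
  obtain ⟨O, hO1, hO2, s, u, hu, hsu, hx⟩ := exists_matching m R i j hR hm hij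
  have h := card_bad O s u hu hsu R hO2 (xor v (decide ((i + j) % 2 = 1)))
  rw [Fintype.card_fin] at h
  refine le_trans (Nat.mul_le_mul_right _ (Finset.card_le_card ?_)) h
  intro β hβ
  simp only [badSet, mem_filter, mem_univ, true_and] at hβ ⊢
  refine lt_of_le_of_lt (Finset.card_le_card ?_) hβ
  intro t ht
  simp only [mem_filter] at ht ⊢
  refine ⟨hO1 ht.1, ?_⟩
  rw [word_xor, hx t ht.1 β, ht.2]
  cases v <;> cases (decide ((i + j) % 2 = 1)) <;> rfl

/-- existence of the words, with general parameters -/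
theorem exists_word (m R : ℕ) (hR : 0 < R) (hm : 64 * R ≤ m)
    (hcount : (2 * m) ^ 2 * 2 < 2 ^ (10 * R)) :
    ∃ w : ℕ → Bool, (∀ n, w (n + 2 * m) = w n) ∧ (∀ s, w (2 * s + 1) = !(w (2 * s))) ∧
      ∀ i j, ¬ i ≡ j [MOD (2 * m)] →
        R ≤ ((range (64 * R)).filter (fun t => w (i + t) = w (j + t))).card ∧
        R ≤ ((range (64 * R)).filter (fun t => w (i + t) ≠ w (j + t))).card := by
  classical
  have : NeZero m := ⟨by omega⟩
  set I : Finset ((ℕ × ℕ) × Bool) :=
    (((range (2 * m)) ×ˢ (range (2 * m))) ×ˢ (univ : Finset Bool)).filter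
      (fun p => ¬ p.1.1 ≡ p.1.2 [MOD (2 * m)]) with hI
  have hIcard : I.card ≤ (2 * m) ^ 2 * 2 := by
    refine le_trans (Finset.card_filter_le _ _) ?_
    simp [Finset.card_product, sq]
  have hex : ∃ β : Fin m → Bool, ∀ p ∈ I, β ∉ badSet m R p.1.1 p.1.2 p.2 := by
    by_contra hcon
    push Not at hcon
    have hsub : (univ : Finset (Fin m → Bool)) ⊆ I.biUnion (fun p => badSet m R p.1.1 p.1.2 p.2) := by
      intro β _
      obtain ⟨p, hp, hβ⟩ := hcon β
      exact mem_biUnion.2 ⟨p, hp, hβ⟩
    have h1 : 2 ^ m ≤ ∑ p ∈ I, (badSet m R p.1.1 p.1.2 p.2).card := by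
      calc 2 ^ m = (univ : Finset (Fin m → Bool)).card := by simp
        _ ≤ _ := Finset.card_le_card hsub
        _ ≤ _ := Finset.card_biUnion_le
    have h2 : 2 ^ m * 2 ^ (10 * R) ≤ 2 ^ m * ((2 * m) ^ 2 * 2) := by
      calc 2 ^ m * 2 ^ (10 * R) ≤ (∑ p ∈ I, (badSet m R p.1.1 p.1.2 p.2).card) * 2 ^ (10 * R) :=
            Nat.mul_le_mul_right _ h1
        _ = ∑ p ∈ I, (badSet m R p.1.1 p.1.2 p.2).card * 2 ^ (10 * R) := by rw [Finset.sum_mul]
        _ ≤ ∑ p ∈ I, 2 ^ m := by
            apply Finset.sum_le_sum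
            intro p hp
            simp only [hI, mem_filter] at hp
            exact card_badSet m R _ _ hR hm hp.2 _
        _ = I.card * 2 ^ m := by simp
        _ ≤ (2 * m) ^ 2 * 2 * 2 ^ m := Nat.mul_le_mul_right _ hIcard
        _ = _ := by ring
    have h3 : 2 ^ (10 * R) ≤ (2 * m) ^ 2 * 2 := Nat.le_of_mul_le_mul_left h2 (by positivity)
    omega
  obtain ⟨β, hβ⟩ := hex
  have hper : ∀ n, word m β (n % (2 * m)) = word m β n := by
    intro n
    conv_rhs => rw [← Nat.mod_add_div n (2 * m)]
    generalize n / (2 * m) = k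
    induction k with
    | zero => simp
    | succ k ih =>
      rw [ih]
      have : n % (2 * m) + 2 * m * (k + 1) = (n % (2 * m) + 2 * m * k) + 2 * m := by ring
      rw [this, word_period]
  refine ⟨word m β, word_period m β, word_pair m β, ?_⟩
  intro i j hij
  have hi : ∀ t, word m β (i + t) = word m β (i % (2 * m) + t) := by
    intro t
    rw [← hper (i + t), ← hper (i % (2 * m) + t)]
    congr 1
    simp [Nat.add_mod]
  have hj : ∀ t, word m β (j + t) = word m β (j % (2 * m) + t) := by
    intro t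
    rw [← hper (j + t), ← hper (j % (2 * m) + t)]
    congr 1
    simp [Nat.add_mod]
  have hmem : ∀ v, ((i % (2 * m), j % (2 * m)), v) ∈ I := by
    intro v
    simp only [hI, mem_filter, mem_product, mem_range, mem_univ, and_true]
    have hpos : 0 < 2 * m := by omega
    refine ⟨⟨Nat.mod_lt _ hpos, Nat.mod_lt _ hpos⟩, ?_⟩
    intro h
    apply hij
    unfold Nat.ModEq at h ⊢
    simpa using h
  have hf := hβ _ (hmem false)
  have ht := hβ _ (hmem true)
  simp only [badSet, mem_filter, mem_univ, true_and, not_lt] at hf ht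
  simp only [hi, hj]
  constructor
  · refine le_trans hf (le_of_eq ?_)
    congr 1
    apply Finset.filter_congr
    intro t _
    cases word m β (i % (2 * m) + t) <;> cases word m β (j % (2 * m) + t) <;> simp
  · refine le_trans ht (le_of_eq ?_)
    congr 1
    apply Finset.filter_congr
    intro t _
    cases word m β (i % (2 * m) + t) <;> cases word m β (j % (2 * m) + t) <;> simp

theorem numeric (b : ℕ) (hb : 1 ≤ b) : 12000 * b ^ 2 + 21 < 10 * 2 ^ (30 * b - 6) := by
  obtain ⟨c, rfl⟩ := Nat.exists_eq_add_of_le hb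
  have h1 : 30 * (1 + c) - 6 = 24 + 30 * c := by omega
  rw [h1, pow_add]
  have h2 : c + 1 ≤ 2 ^ c := Nat.lt_two_pow_self
  have h3 : (1 + c) ^ 2 ≤ 2 ^ (30 * c) := by
    calc (1 + c) ^ 2 ≤ (2 ^ c) ^ 2 := Nat.pow_le_pow_left (by omega) 2
      _ = 2 ^ (c * 2) := by rw [← pow_mul]
      _ ≤ 2 ^ (30 * c) := Nat.pow_le_pow_right (by norm_num) (by omega)
  have h4 : 1 ≤ (1 + c) ^ 2 := Nat.one_le_pow _ _ (by omega)
  have h5 : (2 : ℕ) ^ 24 = 16777216 := by norm_num
  rw [h5]
  calc 12000 * (1 + c) ^ 2 + 21 ≤ 12021 * (1 + c) ^ 2 := by omega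
    _ < 10 * 16777216 * (1 + c) ^ 2 := by omega
    _ ≤ 10 * 16777216 * 2 ^ (30 * c) := Nat.mul_le_mul_left _ h3
    _ = _ := by ring

/-- **T17**: the words of section 2 of the blueprint of S0149. -/
theorem exists_blueprint_word (b : ℕ) (hb : 1 ≤ b) :
    ∃ w : ℕ → Bool, (∀ n, w (n + 2 ^ (6000 * b ^ 2 + 10)) = w n) ∧
      (∀ s, w (2 * s + 1) = !(w (2 * s))) ∧
      ∀ i j, ¬ i ≡ j [MOD (2 ^ (6000 * b ^ 2 + 10))] →
        2 ^ (30 * b) ≤ 64 * ((range (2 ^ (30 * b))).filter (fun t => w (i + t) = w (j + t))).card ∧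
        2 ^ (30 * b) ≤ 64 * ((range (2 ^ (30 * b))).filter (fun t => w (i + t) ≠ w (j + t))).card := by
  have hm : 2 * 2 ^ (6000 * b ^ 2 + 9) = 2 ^ (6000 * b ^ 2 + 10) := by
    rw [← pow_succ']
  have hR : 64 * 2 ^ (30 * b - 6) = 2 ^ (30 * b) := by
    have : (64 : ℕ) = 2 ^ 6 := by norm_num
    rw [this, ← pow_add]; congr 1; omega
  have hb2 : b ≤ b ^ 2 := by nlinarith
  obtain ⟨w, h1, h2, h3⟩ := exists_word (2 ^ (6000 * b ^ 2 + 9)) (2 ^ (30 * b - 6))
    (by positivity)
    (by rw [hR]; exact Nat.pow_le_pow_right (by norm_num) (by omega))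
    (by
      rw [hm, ← pow_mul, ← pow_succ]
      apply Nat.pow_lt_pow_right (by norm_num)
      have := numeric b hb
      omega)
  rw [hm] at h1 h3
  rw [hR] at h3
  refine ⟨w, h1, h2, ?_⟩
  intro i j hij
  obtain ⟨h4, h5⟩ := h3 i j hij
  constructor <;> omega

/-- **T17**, all block numbers at once (nothing is claimed for `b = 0`). -/
theorem exists_words : ∃ w : ℕ → ℕ → Bool, ∀ b, 1 ≤ b →
    (∀ n, w b (n + 2 ^ (6000 * b ^ 2 + 10)) = w b n) ∧
    (∀ s, w b (2 * s + 1) = !(w b (2 * s))) ∧
    ∀ i j, ¬ i ≡ j [MOD (2 ^ (6000 * b ^ 2 + 10))] →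
      2 ^ (30 * b) ≤
        64 * ((range (2 ^ (30 * b))).filter (fun t => w b (i + t) = w b (j + t))).card ∧
      2 ^ (30 * b) ≤
        64 * ((range (2 ^ (30 * b))).filter (fun t => w b (i + t) ≠ w b (j + t))).card := by
  classical
  refine ⟨fun b => if h : 1 ≤ b then (exists_blueprint_word b h).choose else fun _ => false, ?_⟩
  intro b hb
  have := (exists_blueprint_word b hb).choose_spec
  simpa only [hb, dif_pos] using this

end Crest.Agent.R113.Words
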