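import Crest.Agent.R113.Defs
import Crest.Agent.R113.WordsCore

/-! # T17: existence of the words — blueprint 6834 sec. 2 (proof by helper355 in `WordsCore.lean`) -/

set_option autoImplicit false

namespace Crest.Agent.R113

open scoped BigOperators

theorem exists_words : ∃ w : ℕ → ℕ → Bool, IsWords w := by
  obtain ⟨w, hw⟩ := Words.exists_words
  refine ⟨fun b n => if b = 0 then decide (n % 2 = 1) else w b n, ?_, ?_, ?_, ?_⟩
  · intro b a
    rcases Nat.eq_zero_or_pos b with rfl | hb
    · simp only [if_true]
      congr 1
      rw [show Pib 0 = 2 * 2 ^ 9 from by norm_num [Pib], Nat.add_mul_mod_self_left]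
    · simp only [hb.ne', if_false]
      exact (hw b hb).1 a
  · intro b s
    rcases Nat.eq_zero_or_pos b with rfl | hb
    · simp only [if_true]
      have h1 : (2 * s + 1) % 2 = 1 := by omega
      have h2 : ¬ (2 * s) % 2 = 1 := by omega
      simp [h1, h2]
    · simp only [hb.ne', if_false]
      exact (hw b hb).2.1 s
  · intro b hb i j hij
    have hb' : b ≠ 0 := by omega
    simp only [hb', if_false]
    exact ((hw b hb).2.2 i j hij).1
  · intro b hb i j hij
    have hb' : b ≠ 0 := by omega
    simp only [hb', if_false]
    exact ((hw b hb).2.2 i j hij).2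

end Crest.Agent.R113
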