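import Crest.Agent.R113.Defs
import Crest.Agent.R113.Design
import Crest.Agent.R113.TransferDefs
import Crest.Agent.R113.Words
import Crest.Prelude.Def_RotationRep

/-!
# Row 113, T18: S0149 from the finite dimensional theorem, the design, the transfer and the fibres
-/

set_option autoImplicit false

namespace Crest.Agent.R113

open scoped BigOperators
open MeasureTheory

/-- T12: the finite dimensional theorem. -/
def S_FD : Prop :=
  ∀ w : ℕ → ℕ → Bool, IsWords w → ∀ (c e : ℕ → ℝ) (g : ℕ → ℕ), IsGrowth c e g →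
  ∀ ρ : ℝ, 0 < ρ → ρ < 1 → ∃ η1 : ℝ, 0 < η1 ∧ ∀ l0 : ℕ, ∃ lh : ℕ, l0 ≤ lh ∧ 1 ≤ lh ∧
  ∃ η' : ℝ, 0 < η' ∧ ∀ R : ℕ, ∃ (B J N : ℕ) (cs η : ℝ) (q0 : ℕ), 10 ≤ B ∧ 0 < η ∧
  ∀ q : ℕ, q0 ≤ q → ∀ (u : ℤ → ℝ) (lev : ℕ → ℤ → ℕ) (bad : ℕ → Set ℤ),
  OrbitData w c e g u lev bad → OrbitCounts q N B J lev bad →
  ∀ E : Submodule ℂ (EuclideanSpace ℂ (Fin q)),
  |(Module.finrank ℂ E : ℝ) - ρ * q| ≤ η * q →
  (∀ n ≤ N, ∃ E' : Submodule ℂ (EuclideanSpace ℂ (Fin q)),
    AppInv E E' u n (Real.exp (-cs)) (η * q)) →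
  (∑ i : Fin q, ∑ j : Fin q,
    if (R : ℤ) ≤ |((i : ℕ) : ℤ) - ((j : ℕ) : ℤ)| then ‖ent E i j‖ ^ 2 else 0) ≤ η' * q →
  (∑ m ∈ Finset.range (q - lh),
    |∑ i ∈ Finset.range lh, ((if h : m + i < q then dg E ⟨m + i, h⟩ else 0) - ρ)|)
      ≤ η1 * lh * q →
  False

/-- T15: the fibre extraction. -/
def S_Fibres : Prop :=
  ∀ (θ : ℝ) (f : ℂ → ℝ) (_ : Continuous f)
    (U V p : lp (fun _ : ℤ × ℤ => ℂ) 2 →L[ℂ] lp (fun _ : ℤ × ℤ => ℂ) 2)
    (_ : Crest.AnalysisR.RotationRep.IsRotationPair θ U V)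
    (_ : p ∈ Crest.AnalysisR.RotationRep.vonNeumannGenerated {U, V}) (_ : IsStarProjection p)
    (_ : (1 - p) * (U * cfc (fun z : ℂ => (f z : ℂ)) V) * p = 0),
    ∃ P : UnitAddCircle → (Transfer.L2Z →L[ℂ] Transfer.L2Z),
      Transfer.Fibres θ (fun x => f (fourier 1 x)) P ∧
      (∫ x, ‖P x (lp.single 2 (0 : ℤ) (1 : ℂ))‖ ^ 2 = ‖p (lp.single 2 (0, 0) (1 : ℂ))‖ ^ 2) ∧
      (‖p (lp.single 2 (0, 0) (1 : ℂ))‖ ^ 2 = 0 → p = 0) ∧
      (‖p (lp.single 2 (0, 0) (1 : ℂ))‖ ^ 2 = 1 → p = 1)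

section conv

variable {θ : ℝ} {w : ℕ → ℕ → Bool}

/-- Orbit point. -/
noncomputable def opt (θ : ℝ) (x : UnitAddCircle) (m : ℤ) : UnitAddCircle :=
  x + m • ((θ : ℝ) : UnitAddCircle)

theorem opt_add (θ : ℝ) (x : UnitAddCircle) (m n : ℤ) :
    opt θ (opt θ x m) n = opt θ x (m + n) := by
  simp [opt, add_smul, add_assoc]

/-- Orbit data from a design. -/
theorem orbitData_of_design (D : Design θ w) (x : UnitAddCircle) :
    OrbitData w D.c D.e D.g (fun m => D.u (opt θ x m)) (fun b m => D.lev b (opt θ x m))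
      (fun b => {m | opt θ x m ∈ D.Bad b}) where
  u_nonneg m := D.u_nonneg _
  lev_step b m hb := by
    have := D.d1 b hb (opt θ x m)
    have h2 : opt θ x m + ((θ : ℝ) : UnitAddCircle) = opt θ x (m + 1) := by
      simp [opt, add_smul, add_assoc]
    rwa [h2] at this
  run_low b hb m hm := by
    have := (D.d2 b hb (opt θ x m) hm).1
    simpa [mul_assoc] using this
  run b hb m hm i hi := by
    have := (D.d2 b hb (opt θ x m) hm).2 i (by simpa [mul_assoc] using hi)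
    have h2 : opt θ x m + i • ((θ : ℝ) : UnitAddCircle) = opt θ x (m + i) := by
      simp [opt, add_smul, add_assoc]
    rwa [h2] at this
  cost_low b hb m hm n hn h1 h2 := by
    have := (D.d3 b hb (opt θ x m) hm n hn h1 h2).1
    have h3 : ∀ i : ℕ, opt θ x m + i • ((θ : ℝ) : UnitAddCircle) = opt θ x (m + i) := by
      intro i; simp [opt, add_smul, add_assoc]
    simpa only [h3, idealCost, wsum, bv, epsw] using this
  cost_high b hb m hm n hn h1 h2 := by
    have := (D.d3 b hb (opt θ x m) hm n hn h1 h2).2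
    have h3 : ∀ i : ℕ, opt θ x m + i • ((θ : ℝ) : UnitAddCircle) = opt θ x (m + i) := by
      intro i; simp [opt, add_smul, add_assoc]
    simpa only [h3, idealCost, wsum, bv, epsw] using this

open Classical in
/-- Counts in the form needed by `S_FD`. -/
theorem orbitCounts_of_not_mem (D : Design θ w) (x : UnitAddCircle) (q N B J : ℕ)
    (h : ¬ ∃ i ∈ (Finset.Icc B J ×ˢ (Finset.univ : Finset Bool)),
      (fun i : ℕ × Bool => if i.2 then zb i.1 else zb i.1 / (Pib i.1 * Mb i.1)) i * q <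
      (((Finset.Icc (-(N : ℤ)) (q + N)).filter
        (fun m => x + m • ((θ : ℝ) : UnitAddCircle) ∈
          (fun i : ℕ × Bool => if i.2 then {x : UnitAddCircle | ∃ j : ℤ, |j| ≤ 2 * (Mb i.1 : ℤ) ∧
            x + j • (θ : UnitAddCircle) ∈ D.Bad i.1} else {x | D.lev i.1 x = 0}) i)).card : ℝ)) :
    OrbitCounts q N B J (fun b m => D.lev b (opt θ x m))
      (fun b => {m | opt θ x m ∈ D.Bad b}) where
  bad_count b h1 h2 := by
    classical
    have h3 := fun hh => h ⟨(b, true), by simp [h1, h2], hh⟩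
    simp only [if_true] at h3
    refine le_trans (le_of_eq ?_) (not_lt.1 h3)
    congr 2
    ext m
    simp only [Finset.mem_filter, Set.mem_setOf_eq, opt]
    constructor
    · rintro ⟨h4, i, h5, h6⟩
      exact ⟨h4, i, h5, by simpa [add_smul, add_assoc] using h6⟩
    · rintro ⟨h4, i, h5, h6⟩
      exact ⟨h4, i, h5, by simpa [add_smul, add_assoc] using h6⟩
  reset_count b h1 h2 := by
    classical
    have h3 := fun hh => h ⟨(b, false), by simp [h1, h2], hh⟩
    simp only [Bool.false_eq_true, if_false] at h3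
    have hpos : (0 : ℝ) < (Pib b : ℝ) * Mb b := by
      have := Pib_pos b
      have := Mb_pos b
      positivity
    have h4 : zb b / (Pib b * Mb b) * q * (Pib b * Mb b) = zb b * q := by
      rw [mul_right_comm, div_mul_cancel₀ _ hpos.ne']
    rw [← h4]
    refine mul_le_mul_of_nonneg_right (le_trans (le_of_eq ?_) (not_lt.1 h3)) hpos.le
    congr 2

/-- The orbit of almost every point avoids `0`. -/
theorem ae_orbit_ne_zero (θ : ℝ) :
    volume {x : UnitAddCircle | ∃ m : ℤ, opt θ x m = 0} = 0 := by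
  have : {x : UnitAddCircle | ∃ m : ℤ, opt θ x m = 0} =
      ⋃ m : ℤ, {-(m • ((θ : ℝ) : UnitAddCircle))} := by
    ext x
    simp only [Set.mem_setOf_eq, Set.mem_iUnion, Set.mem_singleton_iff, opt]
    constructor
    · rintro ⟨m, hm⟩; exact ⟨m, eq_neg_of_add_eq_zero_left hm⟩
    · rintro ⟨m, hm⟩; exact ⟨m, by rw [hm]; simp⟩
  rw [this, measure_iUnion_null_iff]
  intro m
  have h1 := AddCircle.volume_closedBall (T := (1 : ℝ)) (x := -(m • ((θ : ℝ) : UnitAddCircle))) 0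
  simpa using h1

theorem shiftPow_eq (D : Design θ w) (F : UnitAddCircle → ℝ)
    (hF : ∀ x, F x = if x = 0 then (0 : ℝ) else Real.exp (-D.u x))
    (x : UnitAddCircle) (hx : ∀ m : ℤ, opt θ x m ≠ 0) (q n : ℕ) (v : EuclideanSpace ℂ (Fin q)) :
    Transfer.shiftPow θ F x q n v = shiftN (fun m => D.u (opt θ x m)) n v := by
  ext j
  rw [shiftN_apply]
  unfold Transfer.shiftPow
  by_cases h : n ≤ (j : ℕ)
  · simp only [h, dif_pos]
    congr 2
    rw [wsum, ← Finset.sum_neg_distrib, Real.exp_sum]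
    refine Finset.prod_congr rfl fun i _ => ?_
    have h1 : x + (((j : ℕ) - n + i : ℕ) : ℤ) • ((θ : ℝ) : UnitAddCircle) =
        opt θ x (((j : ℕ) : ℤ) - n + i) := by
      simp only [opt]
      congr 2
      push_cast [Nat.cast_sub h]
      ring
    rw [h1, hF, if_neg (hx _)]
  · simp only [h, dif_neg, not_false_eq_true]

end conv

/-- The set sum in the count lemma is small. -/
theorem sum_ratio_le (B J : ℕ) (hB : 10 ≤ B) :
    ∑ i ∈ (Finset.Icc B J ×ˢ (Finset.univ : Finset Bool)),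
      2 * (fun i : ℕ × Bool => if i.2 then (1 / 4 : ℝ) ^ i.1
        else 1 / (4 ^ i.1 * (10 * (Pib i.1 * Mb i.1)))) i /
        (fun i : ℕ × Bool => if i.2 then zb i.1 else zb i.1 / (Pib i.1 * Mb i.1)) i ≤ 1 / 4 := by
  rw [Finset.sum_product]
  have h1 : ∀ b ∈ Finset.Icc B J, ∑ y : Bool,
      2 * (fun i : ℕ × Bool => if i.2 then (1 / 4 : ℝ) ^ i.1
        else 1 / (4 ^ i.1 * (10 * (Pib i.1 * Mb i.1)))) (b, y) /
        (fun i : ℕ × Bool => if i.2 then zb i.1 else zb i.1 / (Pib i.1 * Mb i.1)) (b, y) ≤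
        3 * (1 / 2 : ℝ) ^ b := by
    intro b _
    have hpos : (0 : ℝ) < (Pib b : ℝ) * Mb b := by
      have := Pib_pos b
      have := Mb_pos b
      positivity
    have h4 : (4 : ℝ) ^ b = 2 ^ b * 2 ^ b := by
      rw [← mul_pow]; norm_num
    simp only [Fintype.sum_bool, if_true, Bool.false_eq_true, if_false, zb, one_div, inv_pow]
    have h2 : (0 : ℝ) < 2 ^ b := by positivity
    rw [h4]
    have e1 : 2 * ((2 : ℝ) ^ b * 2 ^ b)⁻¹ / ((2 : ℝ) ^ b)⁻¹ = 2 * (2 ^ b)⁻¹ := by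
      field_simp
    have e2 : 2 * ((2 : ℝ) ^ b * 2 ^ b * (10 * ((Pib b : ℝ) * Mb b)))⁻¹ /
        (((2 : ℝ) ^ b)⁻¹ / ((Pib b : ℝ) * Mb b)) = (1 / 5) * (2 ^ b)⁻¹ := by
      generalize (Pib b : ℝ) * Mb b = y at hpos ⊢
      field_simp
      norm_num
    rw [e1, e2]
    have : (0 : ℝ) < (2 ^ b)⁻¹ := by positivity
    linarith
  refine (Finset.sum_le_sum h1).trans ?_
  rw [← Finset.mul_sum]
  have h2 : ∑ b ∈ Finset.Icc B J, (1 / 2 : ℝ) ^ b ≤ 2 * (1 / 2 : ℝ) ^ B := by
    rcases le_or_gt B J with hBJ | hBJ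
    · have : ∀ k : ℕ, ∑ b ∈ Finset.Icc B (B + k), (1 / 2 : ℝ) ^ b
          = 2 * (1 / 2 : ℝ) ^ B - (1 / 2 : ℝ) ^ (B + k) := by
        intro k
        induction k with
        | zero => simp; ring
        | succ k ih =>
          rw [← Nat.add_assoc, ← Finset.insert_Icc_right_eq_Icc_add_one (by omega),
            Finset.sum_insert (by simp), ih, pow_succ]
          ring
      obtain ⟨k, rfl⟩ := Nat.exists_eq_add_of_le hBJ
      rw [this k]
      have : (0 : ℝ) < (1 / 2 : ℝ) ^ (B + k) := by positivity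
      linarith
    · rw [Finset.Icc_eq_empty (by omega)]
      simp
  have h3 : (1 / 2 : ℝ) ^ B ≤ (1 / 2 : ℝ) ^ 10 :=
    pow_le_pow_of_le_one (by norm_num) (by norm_num) hB
  norm_num at h3 ⊢
  linarith

theorem isGrowth_of_design {θ : ℝ} {w : ℕ → ℕ → Bool} (D : Design θ w) :
    IsGrowth D.c D.e D.g where
  e_nonneg := D.e_nonneg
  c_ge b hb := D.d4 b hb
  g_le b hb := D.g_le b hb

theorem bad_meas' {θ : ℝ} {w : ℕ → ℕ → Bool} (D : Design θ w) (b : ℕ) :
    MeasurableSet {x : UnitAddCircle | ∃ j : ℤ, |j| ≤ 2 * (Mb b : ℤ) ∧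
      x + j • (θ : UnitAddCircle) ∈ D.Bad b} := by
  have : {x : UnitAddCircle | ∃ j : ℤ, |j| ≤ 2 * (Mb b : ℤ) ∧
      x + j • (θ : UnitAddCircle) ∈ D.Bad b} =
      ⋃ j : ℤ, ⋃ _ : |j| ≤ 2 * (Mb b : ℤ),
        (fun x : UnitAddCircle => x + j • (θ : UnitAddCircle)) ⁻¹' D.Bad b := by
    ext x; simp
  rw [this]
  refine MeasurableSet.iUnion fun j => MeasurableSet.iUnion fun _ => ?_
  exact (measurable_add_const _) (D.bad_meas b)

/-- The trace of an invariant covariant field of projections is `0` or `1`. -/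
theorem not_between (hFD : S_FD) (hT : Transfer.S_Transfer) (hC : Transfer.S_Counts)
    {θ : ℝ} (hθ : Irrational θ) {w : ℕ → ℕ → Bool} (hw : IsWords w) (D : Design θ w)
    (F : UnitAddCircle → ℝ) (hF : ∀ x, F x = if x = 0 then (0 : ℝ) else Real.exp (-D.u x))
    (P : UnitAddCircle → (Transfer.L2Z →L[ℂ] Transfer.L2Z)) (hP : Transfer.Fibres θ F P)
    (ρ : ℝ) (hρ : ρ = ∫ x, ‖P x (lp.single 2 (0 : ℤ) (1 : ℂ))‖ ^ 2)
    (h0 : 0 < ρ) (h1 : ρ < 1) : False := by
  classical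
  obtain ⟨η1, hη1, H1⟩ := hFD w hw D.c D.e D.g (isGrowth_of_design D) ρ h0 h1
  have hF0 : ∀ x, 0 ≤ F x := by
    intro x; rw [hF]; split_ifs
    · exact le_rfl
    · exact (Real.exp_pos _).le
  have hF1 : ∀ x, F x ≤ 1 := by
    intro x; rw [hF]; split_ifs
    · exact zero_le_one
    · exact Real.exp_le_one_iff.2 (neg_nonpos.2 (D.u_nonneg x))
  obtain ⟨l0, H2⟩ := hT θ hθ F hF0 hF1 P hP ρ hρ (1 / 4) (by norm_num) η1 hη1
  obtain ⟨lh, hlh, -, η', hη', H3⟩ := H1 l0
  obtain ⟨R, H4⟩ := H2 lh hlh η' hη'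
  obtain ⟨B, J, N, cs, η, q0, hB, hη, H5⟩ := H3 R
  obtain ⟨q0', H6⟩ := H4 cs N η hη
  set q : ℕ := max (max q0 q0') (2 * N + 1) with hq
  have hq1 : q0 ≤ q := (le_max_left _ _).trans (le_max_left _ _)
  have hq2 : q0' ≤ q := (le_max_right _ _).trans (le_max_left _ _)
  have hq3 : 2 * N + 1 ≤ q := le_max_right _ _
  have V1 := H6 q hq2
  have V2 := hC θ (ℕ × Bool) (Finset.Icc B J ×ˢ (Finset.univ : Finset Bool))
    (fun i : ℕ × Bool => if i.2 then {x : UnitAddCircle | ∃ j : ℤ, |j| ≤ 2 * (Mb i.1 : ℤ) ∧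
            x + j • (θ : UnitAddCircle) ∈ D.Bad i.1} else {x | D.lev i.1 x = 0})
    (by
      rintro ⟨b, t⟩ -
      cases t
      · simp only [Bool.false_eq_true, if_false]
        exact D.lev_meas b (measurableSet_singleton 0)
      · simp only [if_true]
        exact bad_meas' D b)
    (fun i : ℕ × Bool => if i.2 then (1 / 4 : ℝ) ^ i.1
        else 1 / (4 ^ i.1 * (10 * (Pib i.1 * Mb i.1))))
    (fun i : ℕ × Bool => if i.2 then zb i.1 else zb i.1 / (Pib i.1 * Mb i.1))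
    (by
      rintro ⟨b, t⟩ -
      have hpos : (0 : ℝ) < (Pib b : ℝ) * Mb b := by
        have := Pib_pos b
        have := Mb_pos b
        positivity
      have hz : 0 < zb b := by unfold zb; positivity
      cases t
      · simp only [Bool.false_eq_true, if_false]
        positivity
      · simp only [if_true]
        exact hz)
    (by
      rintro ⟨b, t⟩ -
      cases t
      · simp only [Bool.false_eq_true, if_false]
        positivity
      · simp only [if_true]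
        positivity)
    (by
      rintro ⟨b, t⟩ hb
      have hb1 : 1 ≤ b := by
        simp only [Finset.mem_product, Finset.mem_Icc] at hb
        omega
      cases t
      · simp only [Bool.false_eq_true, if_false]
        exact D.d1vol b hb1
      · simp only [if_true]
        exact D.d2vol b hb1)
    N q hq3
  have V3 := ae_orbit_ne_zero θ
  have V2' := V2.trans (ENNReal.ofReal_le_ofReal (sum_ratio_le B J hB))
  -- choose a good point
  have hex : ∃ x : UnitAddCircle,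
      Transfer.Good θ F ρ η1 lh η' R cs N η q x ∧
      (¬ ∃ i ∈ (Finset.Icc B J ×ˢ (Finset.univ : Finset Bool)),
      (fun i : ℕ × Bool => if i.2 then zb i.1 else zb i.1 / (Pib i.1 * Mb i.1)) i * q <
      (((Finset.Icc (-(N : ℤ)) (q + N)).filter
        (fun m => x + m • ((θ : ℝ) : UnitAddCircle) ∈
          (fun i : ℕ × Bool => if i.2 then {x : UnitAddCircle | ∃ j : ℤ, |j| ≤ 2 * (Mb i.1 : ℤ) ∧
            x + j • (θ : UnitAddCircle) ∈ D.Bad i.1} else {x | D.lev i.1 x = 0}) i)).card : ℝ)) ∧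
      (∀ m : ℤ, opt θ x m ≠ 0) := by
    by_contra hcon
    push Not at hcon
    have hcov : (Set.univ : Set UnitAddCircle) ⊆
        {x | ¬ Transfer.Good θ F ρ η1 lh η' R cs N η q x} ∪
        ({x : UnitAddCircle | ∃ i ∈ (Finset.Icc B J ×ˢ (Finset.univ : Finset Bool)),
      (fun i : ℕ × Bool => if i.2 then zb i.1 else zb i.1 / (Pib i.1 * Mb i.1)) i * q <
      (((Finset.Icc (-(N : ℤ)) (q + N)).filter
        (fun m => x + m • ((θ : ℝ) : UnitAddCircle) ∈
          (fun i : ℕ × Bool => if i.2 then {x : UnitAddCircle | ∃ j : ℤ, |j| ≤ 2 * (Mb i.1 : ℤ) ∧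
            x + j • (θ : UnitAddCircle) ∈ D.Bad i.1} else {x | D.lev i.1 x = 0}) i)).card : ℝ)} ∪
        {x : UnitAddCircle | ∃ m : ℤ, opt θ x m = 0}) := by
      intro x _
      by_cases hx1 : Transfer.Good θ F ρ η1 lh η' R cs N η q x
      · right
        by_cases hx2 : ∃ i ∈ (Finset.Icc B J ×ˢ (Finset.univ : Finset Bool)),
          (fun i : ℕ × Bool => if i.2 then zb i.1 else zb i.1 / (Pib i.1 * Mb i.1)) i * q <
          (((Finset.Icc (-(N : ℤ)) (q + N)).filter
            (fun m => x + m • ((θ : ℝ) : UnitAddCircle) ∈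
            (fun i : ℕ × Bool => if i.2 then {x : UnitAddCircle | ∃ j : ℤ, |j| ≤ 2 * (Mb i.1 : ℤ) ∧
            x + j • (θ : UnitAddCircle) ∈ D.Bad i.1} else {x | D.lev i.1 x = 0}) i)).card : ℝ)
        · left; exact hx2
        · right
          refine hcon x hx1 ?_
          intro i hi
          by_contra hlt
          exact hx2 ⟨i, hi, not_le.1 hlt⟩
      · left; exact hx1
    have hm := measure_mono (μ := (volume : Measure UnitAddCircle)) hcov
    have hone : (volume : Measure UnitAddCircle) Set.univ = 1 := by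
      simp
    rw [hone] at hm
    have h2 := hm.trans ((measure_union_le _ _).trans
      (add_le_add V1 ((measure_union_le _ _).trans (add_le_add V2' V3.le))))
    rw [add_zero, ← ENNReal.ofReal_add (by norm_num) (by norm_num)] at h2
    have h3 : ENNReal.ofReal (1 / 4 + 1 / 4) < 1 := by
      rw [ENNReal.ofReal_lt_one]; norm_num
    exact absurd (h2.trans_lt h3) (lt_irrefl _)
  obtain ⟨x, hx1, hx2, hx3⟩ := hex
  obtain ⟨E, hE1, hE3, hE4, hE5⟩ := hx1
  refine H5 q hq1 _ _ _ (orbitData_of_design D x) (orbitCounts_of_not_mem D x q N B J hx2) E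
    hE1 ?_ ?_ ?_
  · intro n hn
    obtain ⟨E', hle, hcod, hE'⟩ := hE3 n hn
    refine ⟨E', ⟨hle, hcod, fun v hv => (hE' v hv).1, fun v hv => ?_⟩⟩
    have := (hE' v hv).2
    rwa [shiftPow_eq D F hF x hx3] at this
  · exact hE4
  · exact hE5

end Crest.Agent.R113
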