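import Crest.Agent.R113.FD.Orbit
import Crest.Agent.R113.FD.Final

/-!
# T12/A2 (helper251), part 1: the fluxes of window-constant sets at `E` are small (from E5)
-/

set_option autoImplicit false

namespace Crest.Agent.R113.FluxE

open Finset
open Crest.Agent.R113.FD (Tiling tile_sum)
open Crest.Agent.R113.Orb (ind flux)

section Tile

/-- sum over a function which is constant on the tiles, up to an uncovered set `U` -/
theorem tile_bound {q l : ℕ} {W G : Finset ℕ} (hW : Tiling q l W) (hG : G ⊆ W) (x ψ : ℕ → ℝ)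
    (hx : ∀ m, |x m| ≤ 1) (hψ : ∀ m, |ψ m| ≤ 1)
    (hconst : ∀ s ∈ G, ∀ i < l, ψ (s + i) = ψ s) (U : Finset ℕ)
    (hcov : ∀ m < q, m ∉ U → ∃ s ∈ G, s ≤ m ∧ m < s + l) :
    |∑ m ∈ range q, x m * ψ m| ≤ ∑ s ∈ W, |∑ i ∈ range l, x (s + i)| + U.card := by
  classical
  set V : Finset ℕ := G.biUnion (fun s => Ico s (s + l)) with hV
  have hVq : V ⊆ range q := by
    intro m hm
    rw [hV, mem_biUnion] at hm
    obtain ⟨s, hs, hm⟩ := hm
    rw [mem_Ico] at hm
    rw [mem_range]
    have := hW.le s (hG hs)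
    omega
  have hdis : (G : Set ℕ).PairwiseDisjoint (fun s => Ico s (s + l)) := by
    intro s hs t ht hst
    have h2 := hW.sep s (hG hs) t (hG ht)
    have h3 := hW.sep t (hG ht) s (hG hs)
    change Disjoint (Ico s (s + l)) (Ico t (t + l))
    rw [Finset.disjoint_left]
    intro m hm hm'
    rw [mem_Ico] at hm hm'
    rcases lt_or_gt_of_ne hst with h | h
    · have := h2 h; omega
    · have := h3 h; omega
  have h1 : ∑ m ∈ V, x m * ψ m = ∑ s ∈ G, ψ s * ∑ i ∈ range l, x (s + i) := by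
    rw [hV, Finset.sum_biUnion hdis]
    refine Finset.sum_congr rfl fun s hs => ?_
    rw [Finset.sum_Ico_eq_sum_range, Finset.mul_sum]
    simp only [add_tsub_cancel_left]
    refine Finset.sum_congr rfl fun i hi => ?_
    rw [hconst s hs i (mem_range.mp hi), mul_comm]
  have h2 : |∑ m ∈ V, x m * ψ m| ≤ ∑ s ∈ W, |∑ i ∈ range l, x (s + i)| := by
    rw [h1]
    refine (Finset.abs_sum_le_sum_abs _ _).trans ?_
    refine le_trans ?_ (Finset.sum_le_sum_of_subset_of_nonneg hG (fun _ _ _ => abs_nonneg _))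
    refine Finset.sum_le_sum fun s _ => ?_
    rw [abs_mul]
    exact mul_le_of_le_one_left (abs_nonneg _) (hψ s)
  have h3 : |∑ m ∈ range q \ V, x m * ψ m| ≤ U.card := by
    refine (Finset.abs_sum_le_sum_abs _ _).trans ?_
    have h4 : ∀ m ∈ range q \ V, |x m * ψ m| ≤ 1 := by
      intro m _
      rw [abs_mul]
      exact mul_le_one₀ (hx m) (abs_nonneg _) (hψ m)
    refine (Finset.sum_le_card_nsmul _ _ 1 h4).trans ?_
    rw [nsmul_eq_mul, mul_one]
    have : range q \ V ⊆ U := by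
      intro m hm
      rw [mem_sdiff, mem_range] at hm
      by_contra hmU
      obtain ⟨s, hs, h5, h6⟩ := hcov m hm.1 hmU
      apply hm.2
      rw [hV, mem_biUnion]
      exact ⟨s, hs, mem_Ico.mpr ⟨h5, h6⟩⟩
    exact_mod_cast Finset.card_le_card this
  rw [← Finset.sum_sdiff hVq]
  calc _ ≤ |∑ m ∈ range q \ V, x m * ψ m| + |∑ m ∈ V, x m * ψ m| := abs_add_le _ _
    _ ≤ _ := by linarith

/-- telescoping -/
theorem abs_sum_shift_le (f : ℤ → ℝ) (h0 : ∀ m, 0 ≤ f m) (h1 : ∀ m, f m ≤ 1) (q n : ℕ) :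
    |∑ m ∈ range q, (f m - f ((m : ℤ) - n))| ≤ n := by
  induction n with
  | zero => simp
  | succ n ih =>
    have h2 : ∑ m ∈ range q, (f m - f ((m : ℤ) - (n + 1 : ℕ))) =
        ∑ m ∈ range q, (f m - f ((m : ℤ) - n)) +
        (f ((q : ℤ) - (n + 1)) - f (-(n + 1 : ℤ))) := by
      have h3 : ∑ m ∈ range q, (f ((m : ℤ) - n) - f ((m : ℤ) - (n + 1 : ℕ))) =
          f ((q : ℤ) - (n + 1)) - f (-(n + 1 : ℤ)) := by
        have := Finset.sum_range_sub (fun m : ℕ => f ((m : ℤ) - (n + 1))) q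
        rw [show ((0 : ℕ) : ℤ) - (n + 1 : ℤ) = -(n + 1 : ℤ) by push_cast; ring] at this
        rw [← this]
        refine Finset.sum_congr rfl fun m _ => ?_
        push_cast
        ring_nf
      rw [← h3, ← Finset.sum_add_distrib]
      refine Finset.sum_congr rfl fun m _ => ?_
      ring
    rw [h2]
    have h4 : |f ((q : ℤ) - (n + 1)) - f (-(n + 1 : ℤ))| ≤ 1 := by
      rw [abs_le]
      constructor <;> linarith [h0 ((q : ℤ) - (n + 1)), h1 ((q : ℤ) - (n + 1)),
        h0 (-(n + 1 : ℤ)), h1 (-(n + 1 : ℤ))]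
    calc _ ≤ _ := abs_add_le _ _
      _ ≤ (n : ℝ) + 1 := add_le_add ih h4
      _ = _ := by push_cast; ring

end Tile

section Orbit

variable {w : ℕ → ℕ → Bool} {c e : ℕ → ℝ} {g : ℕ → ℕ} {u : ℤ → ℝ} {lev : ℕ → ℤ → ℕ}
  {bad : ℕ → Set ℤ}

/-- going backwards inside a column -/
theorem lev_sub (hO : OrbitData w c e g u lev bad) {b : ℕ} (hb : 1 ≤ b) (m : ℤ) (t : ℕ)
    (ht : t ≤ lev b m) : lev b (m - t) + t = lev b m := by
  induction t with
  | zero => simp
  | succ t ih =>
    have h1 := ih (by omega)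
    have h2 := hO.lev_step b (m - (t + 1 : ℕ)) hb
    have h3 : m - ((t + 1 : ℕ) : ℤ) + 1 = m - t := by push_cast; ring
    rw [h3] at h2
    omega

/-- around a non-bad position the level is linear in both directions -/
theorem lev_near (hO : OrbitData w c e g u lev bad) {b : ℕ} (hb : 1 ≤ b) {m : ℤ}
    (hm : m ∉ bad b) (t : ℤ) (h1 : -((2 * Pib b * Mb b : ℕ) : ℤ) ≤ t)
    (h2 : t ≤ ((2 * Pib b * Mb b : ℕ) : ℤ)) :
    (lev b (m + t) : ℤ) = lev b m + t := by
  have h3 := hO.run_low b hb m hm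
  have h4 := hO.run b hb m hm
  generalize 2 * Pib b * Mb b = L at h1 h2 h3 h4
  rcases le_total 0 t with h | h
  · obtain ⟨i, rfl⟩ := Int.eq_ofNat_of_zero_le h
    have := h4 i (by exact_mod_cast h2)
    rw [this]
    push_cast
    ring
  · obtain ⟨i, hi⟩ := Int.eq_ofNat_of_zero_le (show 0 ≤ -t by omega)
    have hi' : i ≤ lev b m := by omega
    have := lev_sub hO hb m i hi'
    have h5 : m + t = m - i := by omega
    rw [h5]
    omega

open Classical in
/-- the set of starts of full windows inside `[0,q)` -/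
noncomputable def fullW (lev : ℕ → ℤ → ℕ) (b l q : ℕ) : Finset ℕ :=
  (range q).filter (fun s => s + l ≤ q ∧ lev b s % l = 0 ∧
    ∀ i < l, lev b ((s : ℤ) + i) = lev b s + i)

theorem mem_fullW {b l q s : ℕ} : s ∈ fullW lev b l q ↔ s < q ∧ s + l ≤ q ∧ lev b s % l = 0 ∧
    ∀ i < l, lev b ((s : ℤ) + i) = lev b s + i := by
  classical
  rw [fullW, mem_filter, mem_range]

theorem tiling_fullW {b l q : ℕ} : Tiling q l (fullW lev b l q) := by
  constructor
  · intro s hs
    exact (mem_fullW.mp hs).2.1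
  · intro s hs t ht hst
    obtain ⟨-, -, h1, h2⟩ := mem_fullW.mp hs
    obtain ⟨-, -, h3, -⟩ := mem_fullW.mp ht
    by_contra hcon
    have h4 := h2 (t - s) (by omega)
    have h5 : (s : ℤ) + ((t - s : ℕ) : ℤ) = t := by omega
    rw [h5] at h4
    rw [h4, Nat.add_mod, h1, zero_add, Nat.mod_mod] at h3
    have h6 : (t - s) % l = t - s := Nat.mod_eq_of_lt (by omega)
    omega

/-- positions away from the ends which are not bad lie in a full window -/
theorem exists_fullW (hO : OrbitData w c e g u lev bad) {b l q m : ℕ} (hb : 1 ≤ b) (hl : 0 < l)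
    (hlM : l ≤ 2 * Pib b * Mb b) (hm : (m : ℤ) ∉ bad b) (h1 : l ≤ m) (h2 : m + l ≤ q) :
    ∃ s ∈ fullW lev b l q, s ≤ m ∧ m < s + l ∧ m - s = lev b m % l := by
  have hr : lev b m % l < l := Nat.mod_lt _ hl
  have hle : lev b m % l ≤ lev b m := Nat.mod_le _ _
  set r := lev b m % l with hrdef
  refine ⟨m - r, ?_, by omega, by omega, by omega⟩
  rw [mem_fullW]
  have hlev : ∀ i : ℕ, i < l → (lev b (((m - r : ℕ) : ℤ) + i) : ℤ) = lev b m + (i - r) := by
    intro i hi
    have := lev_near hO hb hm (i - r : ℤ) (by omega) (by omega)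
    have h5 : ((m - r : ℕ) : ℤ) + i = m + (i - r : ℤ) := by omega
    rw [h5, this]
  have h0 := hlev 0 hl
  simp only [Nat.cast_zero, add_zero, zero_sub] at h0
  refine ⟨by omega, by omega, ?_, ?_⟩
  · have h6 : lev b ((m - r : ℕ) : ℤ) = lev b m - r := by omega
    rw [h6]
    have h7 := Nat.div_add_mod (lev b m) l
    have h8 : lev b m - r = l * (lev b m / l) := by omega
    rw [h8]
    exact Nat.mul_mod_right _ _
  · intro i hi
    have := hlev i hi
    omega

open Classical in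
theorem card_bad_le {q N B J b : ℕ} (hC : OrbitCounts q N B J lev bad) (hB : B ≤ b) (hJ : b ≤ J)
    (n : ℕ) (hn : n ≤ N) :
    (((range q).filter (fun m : ℕ => (m : ℤ) - n ∈ bad b)).card : ℝ) ≤ zb b * q := by
  refine le_trans ?_ (hC.bad_count b hB hJ)
  apply Nat.cast_le.mpr
  refine Finset.card_le_card_of_injOn (fun m : ℕ => (m : ℤ) - n) ?_ ?_
  · intro m hm
    rw [Finset.mem_coe, mem_filter, mem_range] at hm
    rw [Finset.mem_coe, mem_filter, mem_Icc]
    obtain ⟨hm1, hm2⟩ := hm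
    refine ⟨⟨?_, ?_⟩, 0, by simp, ?_⟩
    · change -(N : ℤ) ≤ (m : ℤ) - n
      omega
    · change (m : ℤ) - n ≤ (q + N : ℤ)
      omega
    · change (m : ℤ) - n + 0 ∈ bad b
      rw [add_zero]
      exact hm2
  · intro m _ m' _ h
    simp only at h
    omega

/-- fluxes at `E` of window-constant sets -/
theorem flux_E_le (hO : OrbitData w c e g u lev bad) {q N B J b l n : ℕ}
    (hC : OrbitCounts q N B J lev bad) (hB : B ≤ b) (hJ : b ≤ J) (hb : 1 ≤ b) (hl : 0 < l)
    (hlM : l ≤ Pib b * Mb b) (hln : l ∣ n) (hn : n ≤ Pib b * Mb b) (hnN : n ≤ N) (h : ℕ → ℝ)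
    (h0 : ∀ m, 0 ≤ h m) (h1 : ∀ m, h m ≤ 1) {ρ η₁ : ℝ} (hρ0 : 0 ≤ ρ) (hρ1 : ρ ≤ 1) {l2 : ℕ}
    (hl2 : 0 < l2) (hl2l : l2 ≤ l)
    (hE5 : ∑ m ∈ range (q - l2), |∑ i ∈ range l2, (h (m + i) - ρ)| ≤ η₁ * l2 * q)
    (φ : ℕ → Prop) :
    |flux (fun m : Fin q => h m) {m : ℤ | φ (lev b m / l)} n| ≤
      2 * (η₁ * q + l2 * (q / l)) + 4 * l + 3 * (zb b * q) + n := by
  classical
  have hlM2 : l ≤ 2 * Pib b * Mb b := by rw [mul_assoc]; omega
  have hn2 : n ≤ 2 * Pib b * Mb b := by rw [mul_assoc]; omega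
  have hnl2 : n + l ≤ 2 * Pib b * Mb b := by rw [mul_assoc]; omega
  set A : Set ℤ := {m : ℤ | φ (lev b m / l)} with hA
  set x : ℕ → ℝ := fun m => h m - ρ with hxdef
  have hx : ∀ m, |x m| ≤ 1 := by
    intro m
    rw [abs_le]
    constructor <;> simp only [hxdef] <;> linarith [h0 m, h1 m]
  have hind0 : ∀ m, 0 ≤ ind A m := by
    intro m
    unfold ind
    exact Set.indicator_nonneg (fun _ _ => zero_le_one) m
  have hind1 : ∀ m, ind A m ≤ 1 := by
    intro m
    unfold ind
    exact Set.indicator_le_self' (fun _ _ => zero_le_one) m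
  have hind : ∀ m, |ind A m| ≤ 1 := fun m => by
    rw [abs_of_nonneg (hind0 m)]
    exact hind1 m
  have hiff : ∀ m m' : ℤ, lev b m / l = lev b m' / l → ind A m = ind A m' := by
    intro m m' hmm
    have : m ∈ A ↔ m' ∈ A := by simp only [hA, Set.mem_ofPred_eq, hmm]
    unfold ind
    by_cases hm : m ∈ A
    · rw [Set.indicator_of_mem hm, Set.indicator_of_mem (this.mp hm)]
    · rw [Set.indicator_of_notMem hm, Set.indicator_of_notMem (fun h => hm (this.mpr h))]
  have hW := tiling_fullW (lev := lev) (b := b) (l := l) (q := q)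
  have htile : ∑ s ∈ fullW lev b l q, |∑ i ∈ range l, x (s + i)| ≤ η₁ * q + l2 * (q / l) := by
    refine (tile_sum hW hl2 hl2l x hx η₁ hE5).trans ?_
    have h2 := hW.card_mul_le
    have h3 : ((fullW lev b l q).card : ℝ) ≤ q / l := by
      rw [le_div_iff₀ (by exact_mod_cast hl)]
      exact_mod_cast h2
    have h4 : (0 : ℝ) ≤ l2 := by positivity
    nlinarith
  have hdivl : ∀ (s : ℕ) (i : ℕ), lev b s % l = 0 → i < l →
      (lev b s + i) / l = lev b s / l := by
    intro s i hs hi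
    obtain ⟨k, hk⟩ := Nat.dvd_of_mod_eq_zero hs
    rw [hk, Nat.mul_add_div hl, Nat.div_eq_of_lt hi, Nat.mul_div_cancel_left _ hl, add_zero]
  -- bad sets
  set B0 : Finset ℕ := (range q).filter (fun m : ℕ => (m : ℤ) - (0 : ℕ) ∈ bad b) with hB0
  set Bn : Finset ℕ := (range q).filter (fun m : ℕ => (m : ℤ) - n ∈ bad b) with hBn
  have hB0c : (B0.card : ℝ) ≤ zb b * q := by
    have := card_bad_le hC hB hJ 0 (Nat.zero_le _)
    convert this
  have hBnc : (Bn.card : ℝ) ≤ zb b * q := by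
    have := card_bad_le hC hB hJ n hnN
    convert this
  set En : Finset ℕ := range l ∪ Ico (q - l) q with hEn
  have hEnc : (En.card : ℝ) ≤ 2 * l := by
    have h3 : En.card ≤ l + l := by
      refine (Finset.card_union_le _ _).trans ?_
      rw [card_range, Nat.card_Ico]
      omega
    have h4 : (En.card : ℝ) ≤ ((l + l : ℕ) : ℝ) := by exact_mod_cast h3
    push_cast at h4
    linarith
  -- first sum
  have hS1 : |∑ m ∈ range q, x m * ind A (m : ℤ)| ≤
      (η₁ * q + l2 * (q / l)) + (2 * l + zb b * q) := by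
    have h2 := tile_bound hW (Finset.Subset.refl _) x (fun m => ind A (m : ℤ)) hx
      (fun m => hind _) (fun s hs i hi => ?_) (En ∪ B0) (fun m hm hmU => ?_)
    · refine h2.trans ?_
      have h3 : ((En ∪ B0).card : ℝ) ≤ En.card + B0.card := by
        exact_mod_cast Finset.card_union_le _ _
      linarith
    · obtain ⟨-, -, h3, h4⟩ := mem_fullW.mp hs
      apply hiff
      have := h4 i hi
      push_cast
      rw [this]
      exact hdivl s i h3 hi
    · simp only [mem_union, not_or, hEn, hB0, mem_filter, mem_range, mem_Ico, not_and,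
        not_lt, Nat.cast_zero, sub_zero] at hmU
      obtain ⟨s, hs, h3, h4, -⟩ := exists_fullW hO hb hl hlM2 (q := q) (m := m) (hmU.2 hm)
        hmU.1.1 (by have := hmU.1.2; omega)
      exact ⟨s, hs, h3, h4⟩
  have hS2 : |∑ m ∈ range q, x m * ind A ((m : ℤ) - n)| ≤
      (η₁ * q + l2 * (q / l)) + (2 * l + 2 * (zb b * q)) := by
    set G : Finset ℕ := (fullW lev b l q).filter
      (fun s => ∀ i < l, ind A (((s + i : ℕ) : ℤ) - n) = ind A ((s : ℤ) - n)) with hG
    have h2 := tile_bound hW (Finset.filter_subset _ _ : G ⊆ _) x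
      (fun m => ind A ((m : ℤ) - n)) hx
      (fun m => hind _) (fun s hs i hi => ?_) (En ∪ B0 ∪ Bn) (fun m hm hmU => ?_)
    · refine h2.trans ?_
      have h3 : ((En ∪ B0 ∪ Bn).card : ℝ) ≤ En.card + B0.card + Bn.card := by
        have h4 : ((En ∪ B0 ∪ Bn).card : ℝ) ≤ (En ∪ B0).card + Bn.card := by
          exact_mod_cast Finset.card_union_le _ _
        have h5 : ((En ∪ B0).card : ℝ) ≤ En.card + B0.card := by
          exact_mod_cast Finset.card_union_le _ _
        linarith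
      linarith
    · exact (mem_filter.mp hs).2 i hi
    · simp only [mem_union, not_or, hEn, hB0, hBn, mem_filter, mem_range, mem_Ico, not_and,
        not_lt, Nat.cast_zero, sub_zero] at hmU
      obtain ⟨s, hs, h3, h4, h5⟩ := exists_fullW hO hb hl hlM2 (q := q) (m := m) (hmU.1.2 hm)
        hmU.1.1.1 (by have := hmU.1.1.2; omega)
      refine ⟨s, ?_, h3, h4⟩
      refine mem_filter.mpr ⟨hs, ?_⟩
      have hmn : (m : ℤ) - n ∉ bad b := hmU.2 hm
      -- level at `m` from the level at `m - n`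
      have h6 := lev_near hO hb hmn (n : ℤ) (by omega) (by exact_mod_cast hn2)
      rw [sub_add_cancel] at h6
      obtain ⟨k, hk⟩ := hln
      have hmod : lev b ((m : ℤ) - n) % l = lev b m % l := by
        have h7 : lev b m = lev b ((m : ℤ) - n) + l * k := by
          rw [← hk]; omega
        rw [h7, Nat.add_mul_mod_self_left]
      have hr : lev b m % l < l := Nat.mod_lt _ hl
      have hle : lev b ((m : ℤ) - n) % l ≤ lev b ((m : ℤ) - n) := Nat.mod_le _ _
      have hbase : ∀ i : ℕ, i < l → lev b (((s + i : ℕ) : ℤ) - n) / l =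
          lev b ((m : ℤ) - n) / l := by
        intro i hi
        have h8 := lev_near hO hb hmn ((s : ℤ) + i - m) (by omega) (by omega)
        have h9 : (m : ℤ) - n + ((s : ℤ) + i - m) = ((s + i : ℕ) : ℤ) - n := by
          push_cast; ring
        rw [h9] at h8
        have h10 := Nat.div_add_mod (lev b ((m : ℤ) - n)) l
        have h11 : lev b (((s + i : ℕ) : ℤ) - n) =
            l * (lev b ((m : ℤ) - n) / l) + i := by
          omega
        rw [h11, Nat.mul_add_div hl, Nat.div_eq_of_lt hi, add_zero]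
      intro i hi
      apply hiff
      have h12 := hbase 0 hl
      rw [add_zero] at h12
      rw [hbase i hi, h12]
  have hcount := abs_sum_shift_le (fun m => ind A m) hind0 hind1 q n
  have hflux : flux (fun m : Fin q => h m) A n =
      ∑ m ∈ range q, x m * ind A (m : ℤ) - ∑ m ∈ range q, x m * ind A ((m : ℤ) - n) +
        ρ * ∑ m ∈ range q, (ind A (m : ℤ) - ind A ((m : ℤ) - n)) := by
    unfold flux
    rw [Fin.sum_univ_eq_sum_range (fun m : ℕ => h m * (ind A (m : ℤ) - ind A ((m : ℤ) - n))) q,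
      Finset.mul_sum, ← Finset.sum_sub_distrib, ← Finset.sum_add_distrib]
    refine Finset.sum_congr rfl fun m _ => ?_
    simp only [hxdef]
    ring
  rw [hflux]
  have h9 : |ρ * ∑ m ∈ range q, (ind A (m : ℤ) - ind A ((m : ℤ) - n))| ≤ n := by
    rw [abs_mul, abs_of_nonneg hρ0]
    calc ρ * _ ≤ 1 * _ := mul_le_mul_of_nonneg_right hρ1 (abs_nonneg _)
      _ ≤ n := by rw [one_mul]; exact hcount
  calc _ ≤ |∑ m ∈ range q, x m * ind A (m : ℤ) - ∑ m ∈ range q, x m * ind A ((m : ℤ) - n)| +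
        |ρ * ∑ m ∈ range q, (ind A (m : ℤ) - ind A ((m : ℤ) - n))| := abs_add_le _ _
    _ ≤ (|∑ m ∈ range q, x m * ind A (m : ℤ)| + |∑ m ∈ range q, x m * ind A ((m : ℤ) - n)|) + n :=
        add_le_add (abs_sub _ _) h9
    _ ≤ _ := by linarith

end Orbit

end Crest.Agent.R113.FluxE
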