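import Mathlib
import Crest.Prelude.Def_RotationRep

/-!
# Row 113, S0149, task T15 (fibre extraction): functional calculus of `V` in the Fourier picture

`H2 = ℓ²(ℤ × ℤ)`, `H1 = ℓ²(ℤ)`; `F η k ∈ L²(circle)` has Fourier coefficients `b ↦ η (k, b)`;
`F (cfc f V η) k = f(e(x + k θ)) F η k`.
-/

set_option autoImplicit false

namespace Crest.Agent.R113.FibCfc

open MeasureTheory AddCircle Complex Crest.AnalysisR.RotationRep
open scoped ENNReal InnerProductSpace ComplexConjugate Topology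

noncomputable section

/-- `ℓ²(ℤ × ℤ)` -/
abbrev H2 := lp (fun _ : ℤ × ℤ => ℂ) 2
/-- `ℓ²(ℤ)` -/
abbrev H1 := lp (fun _ : ℤ => ℂ) 2
/-- Haar probability measure -/
abbrev μT : Measure UnitAddCircle := haarAddCircle (T := (1 : ℝ))
/-- `L²` of the circle of length `1` -/
abbrev L2T := Lp ℂ 2 μT

/-- basis vectors -/
abbrev dl (i : ℤ × ℤ) : H2 := lp.single 2 i (1 : ℂ)

/-! ### rows and the Fourier transform -/

theorem summable_sq (η : H2) : Summable fun i => ‖η i‖ ^ 2 := by
  have := (lp.memℓp η).summable (by norm_num)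
  simpa using this

theorem memlp_two {ι : Type*} {f : ι → ℂ} (hf : Summable fun i => ‖f i‖ ^ 2) :
    Memℓp f 2 := by
  refine memℓp_gen ?_
  simpa using hf

theorem norm_sq_eq (η : H2) : ‖η‖ ^ 2 = ∑' i, ‖η i‖ ^ 2 := by
  have := lp.norm_rpow_eq_tsum (p := 2) (by norm_num) η
  simpa using this

theorem norm_sq_eq1 (η : H1) : ‖η‖ ^ 2 = ∑' i, ‖η i‖ ^ 2 := by
  have := lp.norm_rpow_eq_tsum (p := 2) (by norm_num) η
  simpa using this

/-- the `k`-th row -/
def row (η : H2) (k : ℤ) : H1 :=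
  ⟨fun b => η (k, b), memlp_two ((summable_sq η).comp_injective (fun a b h => by simpa using h))⟩

@[simp] theorem row_apply (η : H2) (k b : ℤ) : row η k b = η (k, b) := rfl

theorem row_add (η ζ : H2) (k : ℤ) : row (η + ζ) k = row η k + row ζ k := by
  ext b; simp

theorem row_sub (η ζ : H2) (k : ℤ) : row (η - ζ) k = row η k - row ζ k := by
  ext b; simp

theorem row_smul (c : ℂ) (η : H2) (k : ℤ) : row (c • η) k = c • row η k := by
  ext b; simp

/-- the Fourier transform of the `k`-th row -/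
def F (η : H2) (k : ℤ) : L2T := (fourierBasis (T := (1 : ℝ))).repr.symm (row η k)

theorem F_add (η ζ : H2) (k : ℤ) : F (η + ζ) k = F η k + F ζ k := by
  unfold F; rw [row_add, map_add]

theorem F_sub (η ζ : H2) (k : ℤ) : F (η - ζ) k = F η k - F ζ k := by
  unfold F; rw [row_sub, map_sub]

theorem F_smul (c : ℂ) (η : H2) (k : ℤ) : F (c • η) k = c • F η k := by
  unfold F; rw [row_smul, map_smul]

theorem norm_F (η : H2) (k : ℤ) : ‖F η k‖ = ‖row η k‖ := LinearIsometryEquiv.norm_map _ _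

theorem hasSum_norm_row (η : H2) : HasSum (fun k => ‖row η k‖ ^ 2) (‖η‖ ^ 2) := by
  have h1 := (summable_sq η).hasSum
  rw [← norm_sq_eq] at h1
  refine h1.prod_fiberwise (fun k => ?_)
  have h2 : Summable fun b => ‖row η k b‖ ^ 2 :=
    (summable_sq η).comp_injective (fun a b h => by simpa using h)
  have h3 := h2.hasSum
  rw [← norm_sq_eq1] at h3
  exact h3

theorem norm_F_le (η : H2) (k : ℤ) : ‖F η k‖ ≤ ‖η‖ := by
  rw [norm_F]
  have h1 : ‖row η k‖ ^ 2 ≤ ‖η‖ ^ 2 :=
    le_hasSum (hasSum_norm_row η) k (fun j _ => sq_nonneg _)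
  exact (pow_le_pow_iff_left₀ (norm_nonneg _) (norm_nonneg _) (by norm_num)).mp h1

theorem fourierCoeff_F (η : H2) (k b : ℤ) : fourierCoeff (F η k) b = η (k, b) := by
  rw [← fourierBasis_repr]
  unfold F
  rw [LinearIsometryEquiv.apply_symm_apply]
  rfl

/-- two square integrable functions with the same Fourier coefficients agree -/
theorem eq_of_fourierCoeff {g h : L2T} (H : ∀ n, fourierCoeff g n = fourierCoeff h n) : g = h := by
  apply (fourierBasis (T := (1 : ℝ))).repr.injective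
  ext n
  rw [fourierBasis_repr, fourierBasis_repr, H]

/-! ### multiplication by continuous functions -/

/-- multiplication operator -/
def mulC (φ : C(UnitAddCircle, ℂ)) (h : L2T) : L2T :=
  ((ContinuousMap.toLp ∞ μT ℂ φ : Lp ℂ ∞ μT) • h : Lp ℂ 2 μT)

theorem coe_mulC (φ : C(UnitAddCircle, ℂ)) (h : L2T) :
    mulC φ h =ᵐ[μT] fun x => φ x * h x := by
  unfold mulC
  refine (Lp.coeFn_lpSMul _ _).trans ?_
  filter_upwards [ContinuousMap.coeFn_toLp (p := ∞) (𝕜 := ℂ) μT φ] with x hx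
  simp only [Pi.smul_apply', smul_eq_mul]
  rw [hx]

theorem norm_mulC_le (φ : C(UnitAddCircle, ℂ)) (h : L2T) : ‖mulC φ h‖ ≤ ‖φ‖ * ‖h‖ := by
  unfold mulC
  refine (Lp.norm_smul_le _ _).trans (mul_le_mul_of_nonneg_right ?_ (norm_nonneg _))
  have h1 := (ContinuousMap.toLp ∞ μT ℂ : C(UnitAddCircle, ℂ) →L[ℂ] Lp ℂ ∞ μT).le_opNorm φ
  have h2 := ContinuousMap.toLp_norm_le (p := ∞) (μ := μT) (𝕜 := ℂ) (E := ℂ) (α := UnitAddCircle)
  simp only [ENNReal.toReal_top, inv_zero, Real.rpow_zero] at h2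
  nlinarith [norm_nonneg φ]

theorem mulC_sub (φ ψ : C(UnitAddCircle, ℂ)) (h : L2T) :
    mulC φ h - mulC ψ h = mulC (φ - ψ) h := by
  refine Lp.ext ?_
  filter_upwards [Lp.coeFn_sub (mulC φ h) (mulC ψ h), coe_mulC φ h, coe_mulC ψ h,
    coe_mulC (φ - ψ) h] with x h1 h2 h3 h4
  rw [h1, Pi.sub_apply, h2, h3, h4]
  simp; ring

theorem mulC_add (φ ψ : C(UnitAddCircle, ℂ)) (h : L2T) :
    mulC (φ + ψ) h = mulC φ h + mulC ψ h := by
  refine Lp.ext ?_
  filter_upwards [Lp.coeFn_add (mulC φ h) (mulC ψ h), coe_mulC φ h, coe_mulC ψ h,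
    coe_mulC (φ + ψ) h] with x h1 h2 h3 h4
  rw [h1, Pi.add_apply, h2, h3, h4]
  simp; ring

theorem mulC_mul (φ ψ : C(UnitAddCircle, ℂ)) (h : L2T) :
    mulC (φ * ψ) h = mulC φ (mulC ψ h) := by
  refine Lp.ext ?_
  filter_upwards [coe_mulC φ (mulC ψ h), coe_mulC ψ h, coe_mulC (φ * ψ) h] with x h1 h2 h3
  rw [h1, h2, h3]
  simp; ring

theorem mulC_const (c : ℂ) (h : L2T) : mulC (ContinuousMap.const _ c) h = c • h := by
  refine Lp.ext ?_
  filter_upwards [coe_mulC (ContinuousMap.const _ c) h, Lp.coeFn_smul c h] with x h1 h2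
  rw [h1, h2]
  simp

/-! ### the operator `V` -/

/-- the phase `e(a θ)` -/
def ph (θ : ℝ) (a : ℤ) : ℂ := Complex.exp (2 * Real.pi * Complex.I * θ * a)

theorem ph_conj (θ : ℝ) (a : ℤ) : ph θ a * conj (ph θ a) = 1 := by
  rw [Complex.mul_conj, Complex.normSq_eq_norm_sq]
  have : ‖ph θ a‖ = 1 := by
    unfold ph
    have e : (2 * (Real.pi : ℂ) * Complex.I * θ * a) = ((2 * Real.pi * θ * a : ℝ) : ℂ) * Complex.I := by
      push_cast; ring
    rw [e, Complex.norm_exp_ofReal_mul_I]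
  rw [this]; simp

theorem fourier_one_coe (θ : ℝ) (a : ℤ) :
    (fourier 1 (((a * θ : ℝ)) : UnitAddCircle) : ℂ) = ph θ a := by
  rw [fourier_coe_apply]
  unfold ph
  congr 1
  push_cast; ring

theorem inner_dl_left (i : ℤ × ℤ) (η : H2) : ⟪dl i, η⟫_ℂ = η i := by
  rw [lp.inner_single_left]; simp

variable {θ : ℝ} {U V : H2 →L[ℂ] H2}

theorem coe_dl (i j : ℤ × ℤ) : dl i j = if j = i then 1 else 0 := by
  rw [lp.single_apply]
  by_cases h : j = i
  · subst h; simp
  · simp [h]

theorem V_apply (hUV : IsRotationPair θ U V) (η : H2) (a b : ℤ) :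
    V η (a, b) = ph θ a * η (a, b - 1) := by
  have h1 : HasSum (fun i => lp.single 2 i (η i)) η := lp.hasSum_single (by norm_num) η
  have h2 := (h1.mapL V).mapL (innerSL ℂ (dl (a, b)))
  have e : ∀ i : ℤ × ℤ, innerSL ℂ (dl (a, b)) (V (lp.single 2 i (η i)))
      = if i = (a, b - 1) then ph θ a * η (a, b - 1) else 0 := by
    rintro ⟨a', b'⟩
    have e1 : (lp.single 2 (a', b') (η (a', b')) : H2) = η (a', b') • dl (a', b') := by
      rw [← lp.single_smul]; simp
    rw [e1, map_smul, hUV.2 a' b', innerSL_apply_apply, inner_smul_right, inner_smul_right,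
      inner_dl_left, coe_dl]
    by_cases h : (a', b') = (a, b - 1)
    · rw [if_pos h]
      obtain ⟨rfl, rfl⟩ := Prod.mk.inj h
      rw [if_pos (by simp)]
      unfold ph; ring
    · rw [if_neg h, if_neg]
      · ring
      · intro h2
        apply h
        obtain ⟨h3, h4⟩ := Prod.mk.inj h2
        ext
        · exact h3.symm
        · show b' = b - 1
          omega
  simp_rw [e] at h2
  rw [innerSL_apply_apply, inner_dl_left] at h2
  exact h2.unique (hasSum_ite_eq _ _)

theorem V_star_apply (hUV : IsRotationPair θ U V) (η : H2) (a b : ℤ) :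
    (star V) η (a, b) = conj (ph θ a) * η (a, b + 1) := by
  rw [← inner_dl_left, ContinuousLinearMap.star_eq_adjoint,
    ContinuousLinearMap.adjoint_inner_right, hUV.2 a b, inner_smul_left, inner_dl_left]
  rfl

theorem V_unitary (hUV : IsRotationPair θ U V) : V ∈ unitary (H2 →L[ℂ] H2) := by
  rw [Unitary.mem_iff]
  constructor
  · ext η ⟨a, b⟩
    show (star V) (V η) (a, b) = η (a, b)
    rw [V_star_apply hUV, V_apply hUV, add_sub_cancel_right, ← mul_assoc, mul_comm (conj _),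
      ph_conj, one_mul]
  · ext η ⟨a, b⟩
    show V ((star V) η) (a, b) = η (a, b)
    rw [V_apply hUV, V_star_apply hUV, sub_add_cancel, ← mul_assoc, ph_conj, one_mul]

theorem V_normal (hUV : IsRotationPair θ U V) : IsStarNormal V := by
  have h := Unitary.mem_iff.mp (V_unitary hUV)
  exact ⟨by rw [commute_iff_eq, h.1, h.2]⟩

theorem norm_fourier_one (x : UnitAddCircle) : ‖(fourier 1 x : ℂ)‖ = 1 := by
  rw [fourier_apply]; exact Circle.norm_coe _

/-! ### the main property -/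

/-- the function `x ↦ f (e(x + k θ))` -/
def phi (θ : ℝ) (f : C(ℂ, ℂ)) (k : ℤ) : C(UnitAddCircle, ℂ) :=
  ⟨fun x => f (fourier 1 (x + ((k * θ : ℝ) : UnitAddCircle))), by fun_prop⟩

@[simp] theorem phi_apply (θ : ℝ) (f : C(ℂ, ℂ)) (k : ℤ) (x : UnitAddCircle) :
    phi θ f k x = f (fourier 1 (x + ((k * θ : ℝ) : UnitAddCircle))) := rfl

/-- fibre formula for `cfc f V` -/
def Q (θ : ℝ) (V : H2 →L[ℂ] H2) (f : C(ℂ, ℂ)) : Prop :=
  ∀ (η : H2) (k : ℤ), F (cfc f V η) k = mulC (phi θ f k) (F η k)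

theorem phi_const (θ : ℝ) (c : ℂ) (k : ℤ) :
    phi θ (ContinuousMap.const _ c) k = ContinuousMap.const _ c := by
  ext x; simp

theorem Q_const (hUV : IsRotationPair θ U V) (c : ℂ) : Q θ V (ContinuousMap.const _ c) := by
  intro η k
  have hn : IsStarNormal V := V_normal hUV
  have e : cfc (⇑(ContinuousMap.const ℂ c)) V = c • (1 : H2 →L[ℂ] H2) := by
    have := cfc_const c V
    rw [ContinuousMap.coe_const]
    show cfc (fun _ => c) V = _
    rw [this, Algebra.algebraMap_eq_smul_one]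
  rw [e, phi_const, mulC_const]
  show F (c • η) k = _
  rw [F_smul]

theorem fourierCoeff_mulC_phi_id (η : H2) (k n : ℤ) :
    fourierCoeff (mulC (phi θ (ContinuousMap.id ℂ) k) (F η k)) n = ph θ k * η (k, n - 1) := by
  rw [fourierCoeff_congr_ae (coe_mulC _ _), ← fourierCoeff_F]
  unfold fourierCoeff
  rw [← integral_const_mul]
  refine integral_congr_ae (Filter.Eventually.of_forall fun x => ?_)
  simp only [phi_apply, ContinuousMap.id_apply, smul_eq_mul]
  have e1 : (fourier 1 (x + ((k * θ : ℝ) : UnitAddCircle)) : ℂ)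
      = fourier 1 x * ph θ k := by
    rw [← fourier_one_coe]
    rw [fourier_apply, fourier_apply, fourier_apply]
    simp only [one_smul]
    rw [toCircle_add]
    simp
  have e2 : (fourier (-(n - 1)) x : ℂ) = fourier (-n) x * fourier 1 x := by
    rw [← fourier_add]; congr 2; ring
  rw [e1, e2]; ring

theorem Q_id (hUV : IsRotationPair θ U V) : Q θ V (ContinuousMap.id ℂ) := by
  intro η k
  have hn : IsStarNormal V := V_normal hUV
  have e : cfc (⇑(ContinuousMap.id ℂ)) V = V := by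
    rw [ContinuousMap.coe_id]; exact cfc_id ℂ V
  rw [e]
  refine eq_of_fourierCoeff (fun n => ?_)
  rw [fourierCoeff_mulC_phi_id, fourierCoeff_F, V_apply hUV]

theorem Q_star (hUV : IsRotationPair θ U V) : Q θ V (star (ContinuousMap.id ℂ)) := by
  intro η k
  have hn : IsStarNormal V := V_normal hUV
  have e : cfc (⇑(star (ContinuousMap.id ℂ))) V = star V := by
    have h1 := cfc_star_id (R := ℂ) V
    exact h1
  rw [e]
  -- multiply by `phi id`
  have h1 := Q_id hUV (star V η) k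
  have e2 : cfc (⇑(ContinuousMap.id ℂ)) V = V := by
    rw [ContinuousMap.coe_id]; exact cfc_id ℂ V
  rw [e2] at h1
  have e3 : V (star V η) = η := by
    have := (Unitary.mem_iff.mp (V_unitary hUV)).2
    exact DFunLike.congr_fun this η
  rw [e3] at h1
  rw [h1, ← mulC_mul]
  have e4 : phi θ (star (ContinuousMap.id ℂ)) k * phi θ (ContinuousMap.id ℂ) k
      = ContinuousMap.const _ 1 := by
    ext x
    simp only [ContinuousMap.mul_apply, phi_apply, ContinuousMap.star_apply, ContinuousMap.id_apply,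
      ContinuousMap.const_apply]
    have h2 := norm_fourier_one (x + ((k * θ : ℝ) : UnitAddCircle))
    generalize (fourier 1 (x + ((k * θ : ℝ) : UnitAddCircle)) : ℂ) = z at h2
    rw [RCLike.star_def, Complex.conj_mul', h2]; simp
  rw [e4, mulC_const, one_smul]

theorem Q_add (hUV : IsRotationPair θ U V) {f g : C(ℂ, ℂ)} (hf : Q θ V f) (hg : Q θ V g) :
    Q θ V (f + g) := by
  intro η k
  have hn : IsStarNormal V := V_normal hUV
  have e : cfc (⇑(f + g)) V = cfc f V + cfc g V :=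
    cfc_add (a := V) (fun x => f x) (fun x => g x) f.continuous.continuousOn g.continuous.continuousOn
  have e2 : phi θ (f + g) k = phi θ f k + phi θ g k := by ext x; simp
  rw [e, _root_.add_apply, F_add, hf, hg, e2, mulC_add]

theorem Q_mul (hUV : IsRotationPair θ U V) {f g : C(ℂ, ℂ)} (hf : Q θ V f) (hg : Q θ V g) :
    Q θ V (f * g) := by
  intro η k
  have hn : IsStarNormal V := V_normal hUV
  have e : cfc (⇑(f * g)) V = cfc f V * cfc g V :=
    cfc_mul (fun x => f x) (fun x => g x) V f.continuous.continuousOn g.continuous.continuousOn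
  have e2 : phi θ (f * g) k = phi θ f k * phi θ g k := by ext x; simp
  rw [e, mul_apply_eq_comp, hf, hg, e2, mulC_mul]

theorem spectrum_sub (hUV : IsRotationPair θ U V) {z : ℂ} (hz : z ∈ spectrum ℂ V) :
    ‖z‖ = 1 := by
  have := (spectrum.subset_circle_of_unitary (𝕜 := ℂ) (V_unitary hUV)) hz
  simpa using this

theorem Q_congr (hUV : IsRotationPair θ U V) {f g : C(ℂ, ℂ)} (hf : Q θ V f)
    (h : ∀ z : ℂ, ‖z‖ = 1 → f z = g z) : Q θ V g := by
  intro η k
  have e : cfc (⇑g) V = cfc (⇑f) V := cfc_congr (fun z hz => (h z (spectrum_sub hUV hz)).symm)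
  have e2 : phi θ g k = phi θ f k := by
    ext x
    simp only [phi_apply]
    exact (h _ (norm_fourier_one _)).symm
  rw [e, e2]; exact hf η k

theorem Q_lim (hUV : IsRotationPair θ U V) {f : C(ℂ, ℂ)}
    (h : ∀ ε : ℝ, 0 < ε → ∃ g : C(ℂ, ℂ), Q θ V g ∧ ∀ z : ℂ, ‖z‖ = 1 → ‖f z - g z‖ ≤ ε) :
    Q θ V f := by
  intro η k
  have hn : IsStarNormal V := V_normal hUV
  rw [← sub_eq_zero, ← norm_le_zero_iff]
  refine le_of_forall_pos_le_add (fun ε hε => ?_)
  rw [zero_add]
  obtain ⟨g, hg, hfg⟩ := h (ε / (2 * ‖η‖ + 1)) (by positivity)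
  have h1 : ‖cfc f V - cfc g V‖ ≤ ε / (2 * ‖η‖ + 1) := by
    rw [← cfc_sub (a := V) (fun x => f x) (fun x => g x) f.continuous.continuousOn
      g.continuous.continuousOn]
    exact norm_cfc_le (by positivity) (fun z hz => hfg z (spectrum_sub hUV hz))
  have h2 : ‖F (cfc f V η) k - F (cfc g V η) k‖ ≤ ε / (2 * ‖η‖ + 1) * ‖η‖ := by
    rw [← F_sub]
    refine (norm_F_le _ _).trans ?_
    rw [← _root_.sub_apply]
    exact (ContinuousLinearMap.le_opNorm _ _).trans (mul_le_mul_of_nonneg_right h1 (norm_nonneg _))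
  have h3 : ‖mulC (phi θ f k) (F η k) - mulC (phi θ g k) (F η k)‖ ≤ ε / (2 * ‖η‖ + 1) * ‖η‖ := by
    rw [mulC_sub]
    refine (norm_mulC_le _ _).trans (mul_le_mul ?_ (norm_F_le _ _) (norm_nonneg _) (by positivity))
    rw [ContinuousMap.norm_le _ (by positivity)]
    intro x
    simp only [ContinuousMap.sub_apply, phi_apply]
    exact hfg _ (norm_fourier_one _)
  rw [hg] at h2
  have h4 : ‖F (cfc f V η) k - mulC (phi θ f k) (F η k)‖ ≤
      ε / (2 * ‖η‖ + 1) * ‖η‖ + ε / (2 * ‖η‖ + 1) * ‖η‖ := by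
    calc ‖F (cfc f V η) k - mulC (phi θ f k) (F η k)‖
        = ‖(F (cfc f V η) k - mulC (phi θ g k) (F η k))
            - (mulC (phi θ f k) (F η k) - mulC (phi θ g k) (F η k))‖ := by congr 1; abel
      _ ≤ _ := (norm_sub_le _ _).trans (add_le_add h2 h3)
  refine h4.trans ?_
  have h5 : ε / (2 * ‖η‖ + 1) * ‖η‖ + ε / (2 * ‖η‖ + 1) * ‖η‖ = ε * (2 * ‖η‖ / (2 * ‖η‖ + 1)) := by
    field_simp; ring
  rw [h5]
  have h6 : 2 * ‖η‖ / (2 * ‖η‖ + 1) ≤ 1 := by
    rw [div_le_one (by positivity)]; linarith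
  nlinarith

/-- **fibre formula** for all continuous functions -/
theorem Q_all (hUV : IsRotationPair θ U V) (f : C(ℂ, ℂ)) : Q θ V f := by
  set s : Set ℂ := Metric.sphere (0 : ℂ) 1 with hs
  have hsc : IsClosed s := Metric.isClosed_sphere
  have : CompactSpace s := isCompact_iff_compactSpace.mp (isCompact_sphere _ _)
  have key : ∀ g : C(s, ℂ), ∀ f : C(ℂ, ℂ), f.restrict s = g → Q θ V f := by
    intro g
    have hval : ∀ {f : C(ℂ, ℂ)} {g : C(s, ℂ)}, f.restrict s = g → ∀ z : ℂ, (hz : ‖z‖ = 1) →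
        f z = g ⟨z, by simpa [hs] using hz⟩ := by
      intro f g h z hz
      rw [← h]; rfl
    induction g using ContinuousMap.induction_on_of_compact with
    | const r =>
      intro f hf
      refine Q_congr hUV (Q_const hUV r) (fun z hz => ?_)
      rw [hval hf z hz]; rfl
    | id =>
      intro f hf
      refine Q_congr hUV (Q_id hUV) (fun z hz => ?_)
      rw [hval hf z hz]; rfl
    | star_id =>
      intro f hf
      refine Q_congr hUV (Q_star hUV) (fun z hz => ?_)
      rw [hval hf z hz]; rfl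
    | add g1 g2 h1 h2 =>
      intro f hf
      obtain ⟨f1, hf1⟩ := ContinuousMap.exists_restrict_eq hsc g1
      obtain ⟨f2, hf2⟩ := ContinuousMap.exists_restrict_eq hsc g2
      refine Q_congr hUV (Q_add hUV (h1 f1 hf1) (h2 f2 hf2)) (fun z hz => ?_)
      rw [hval hf z hz, ContinuousMap.add_apply, ContinuousMap.add_apply, hval hf1 z hz,
        hval hf2 z hz]
    | mul g1 g2 h1 h2 =>
      intro f hf
      obtain ⟨f1, hf1⟩ := ContinuousMap.exists_restrict_eq hsc g1
      obtain ⟨f2, hf2⟩ := ContinuousMap.exists_restrict_eq hsc g2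
      refine Q_congr hUV (Q_mul hUV (h1 f1 hf1) (h2 f2 hf2)) (fun z hz => ?_)
      rw [hval hf z hz, ContinuousMap.mul_apply, ContinuousMap.mul_apply, hval hf1 z hz,
        hval hf2 z hz]
    | frequently g0 h =>
      intro f hf
      refine Q_lim hUV (fun ε hε => ?_)
      have hev : ∀ᶠ g in 𝓝 g0, ‖g0 - g‖ < ε := by
        have : Filter.Tendsto (fun g => ‖g0 - g‖) (𝓝 g0) (𝓝 ‖g0 - g0‖) := by
          exact ((continuous_const.sub continuous_id).norm).tendsto _
        rw [sub_self, norm_zero] at this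
        exact this.eventually_lt_const hε
      obtain ⟨g, hg1, hg2⟩ := (h.and_eventually hev).exists
      obtain ⟨f', hf'⟩ := ContinuousMap.exists_restrict_eq hsc g
      refine ⟨f', hg1 f' hf', fun z hz => ?_⟩
      rw [hval hf z hz, hval hf' z hz, ← ContinuousMap.sub_apply]
      exact ((g0 - g).norm_coe_le_norm _).trans hg2.le
  exact key _ f rfl

/-- **fibre formula** in pointwise form -/
theorem F_cfc (hUV : IsRotationPair θ U V) (f : ℂ → ℂ) (hf : Continuous f) (η : H2) (k : ℤ) :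
    F (cfc f V η) k =ᵐ[μT]
      fun x => f (fourier 1 (x + ((k * θ : ℝ) : UnitAddCircle))) * F η k x := by
  have h1 := Q_all hUV ⟨f, hf⟩ η k
  have h2 : cfc (⇑(⟨f, hf⟩ : C(ℂ, ℂ))) V = cfc f V := rfl
  rw [h2] at h1
  rw [h1]
  exact coe_mulC _ _

end

end Crest.Agent.R113.FibCfc
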