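import Mathlib

/-!
# Row 113, S0149, task T15 (fibre extraction): uniqueness of Fourier coefficients in `L¹`
-/

set_option autoImplicit false

namespace Crest.Agent.R113.FibL1

open MeasureTheory AddCircle Complex
open scoped ENNReal InnerProductSpace ComplexConjugate

noncomputable section

/-- Haar probability measure -/
abbrev μT : Measure UnitAddCircle := haarAddCircle (T := (1 : ℝ))

/-! ### `L¹` uniqueness of Fourier coefficients -/

theorem integral_mul_continuous_eq_zero {h : UnitAddCircle → ℂ} (hh : Integrable h μT)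
    (h0 : ∀ n : ℤ, fourierCoeff h n = 0) (φ : C(UnitAddCircle, ℂ)) :
    ∫ x, φ x * h x ∂μT = 0 := by
  -- the continuous functional `φ ↦ ∫ φ h`
  have hint : ∀ φ : C(UnitAddCircle, ℂ), Integrable (fun x => φ x * h x) μT := fun φ =>
    hh.bdd_mul (c := ‖φ‖) φ.continuous.aestronglyMeasurable
      (Filter.Eventually.of_forall fun x => φ.norm_coe_le_norm x)
  let Λ : C(UnitAddCircle, ℂ) →ₗ[ℂ] ℂ :=
    { toFun := fun φ => ∫ x, φ x * h x ∂μT
      map_add' := fun φ ψ => by
        rw [← integral_add (hint φ) (hint ψ)]
        exact integral_congr_ae (Filter.Eventually.of_forall fun x => by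
          simp [add_mul])
      map_smul' := fun c φ => by
        simp only [ContinuousMap.coe_smul, Pi.smul_apply, smul_eq_mul, RingHom.id_apply]
        rw [← integral_const_mul]
        exact integral_congr_ae (Filter.Eventually.of_forall fun x => by simp [mul_assoc]) }
  have hΛc : Continuous Λ := by
    refine AddMonoidHomClass.continuous_of_bound Λ (∫ x, ‖h x‖ ∂μT) (fun φ => ?_)
    calc ‖∫ x, φ x * h x ∂μT‖ ≤ ∫ x, ‖φ x * h x‖ ∂μT := norm_integral_le_integral_norm _
      _ ≤ ∫ x, ‖φ‖ * ‖h x‖ ∂μT := by
          refine integral_mono (hint φ).norm (hh.norm.const_mul _) (fun x => ?_)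
          simp only [norm_mul]
          exact mul_le_mul_of_nonneg_right (φ.norm_coe_le_norm x) (norm_nonneg _)
      _ = (∫ x, ‖h x‖ ∂μT) * ‖φ‖ := by rw [integral_const_mul, mul_comm]
  have hspan : (Submodule.span ℂ (Set.range (@fourier (1 : ℝ)))) ≤ LinearMap.ker Λ := by
    rw [Submodule.span_le]
    rintro _ ⟨n, rfl⟩
    rw [SetLike.mem_coe, LinearMap.mem_ker]
    have := h0 (-n)
    unfold fourierCoeff at this
    rw [neg_neg] at this
    exact this
  have hclosed : IsClosed ((LinearMap.ker Λ : Submodule ℂ C(UnitAddCircle, ℂ)) :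
      Set C(UnitAddCircle, ℂ)) :=
    ContinuousLinearMap.isClosed_ker (⟨Λ, hΛc⟩ : C(UnitAddCircle, ℂ) →L[ℂ] ℂ)
  have htop : (⊤ : Submodule ℂ C(UnitAddCircle, ℂ)) ≤ LinearMap.ker Λ := by
    rw [← span_fourier_closure_eq_top (T := (1 : ℝ))]
    exact Submodule.topologicalClosure_minimal _ hspan hclosed
  exact htop (Submodule.mem_top (x := φ))

theorem ae_eq_zero_of_fourierCoeff {h : UnitAddCircle → ℂ} (hh : Integrable h μT)
    (h0 : ∀ n : ℤ, fourierCoeff h n = 0) : h =ᵐ[μT] 0 := by
  refine ae_eq_zero_of_forall_setIntegral_isClosed_eq_zero hh (fun s hs => ?_)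
  -- approximate the indicator by thickened indicators
  have hδ : ∀ n : ℕ, (0 : ℝ) < 1 / ((n : ℝ) + 1) := fun n => by positivity
  set φ : ℕ → C(UnitAddCircle, ℂ) := fun n =>
    ⟨fun x => ((thickenedIndicator (hδ n) s x : NNReal) : ℂ), by fun_prop⟩ with hφ
  have h1 : ∀ n, ∫ x, φ n x * h x ∂μT = 0 := fun n => integral_mul_continuous_eq_zero hh h0 _
  have hlim : Filter.Tendsto (fun n => ∫ x, φ n x * h x ∂μT) Filter.atTop
      (nhds (∫ x, s.indicator h x ∂μT)) := by
    refine tendsto_integral_of_dominated_convergence (fun x => ‖h x‖) ?_ hh.norm ?_ ?_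
    · intro n
      exact (φ n).continuous.aestronglyMeasurable.mul hh.aestronglyMeasurable
    · intro n
      refine Filter.Eventually.of_forall fun x => ?_
      rw [norm_mul]
      have : ‖φ n x‖ ≤ 1 := by
        simp only [hφ, ContinuousMap.coe_mk]
        have h2 := thickenedIndicator_le_one (hδ n) s x
        rw [Complex.norm_real]
        simpa using h2
      exact mul_le_of_le_one_left (norm_nonneg _) this
    · refine Filter.Eventually.of_forall fun x => ?_
      have h2 := thickenedIndicator_tendsto_indicator_closure hδ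
        (tendsto_one_div_add_atTop_nhds_zero_nat) s
      rw [hs.closure_eq] at h2
      have h3 : Filter.Tendsto (fun n => thickenedIndicator (hδ n) s x) Filter.atTop
          (nhds (s.indicator (fun _ => (1 : NNReal)) x)) := by
        have := (tendsto_pi_nhds.mp h2) x
        exact this
      have h4 : Filter.Tendsto (fun n => φ n x) Filter.atTop
          (nhds (((s.indicator (fun _ => (1 : NNReal)) x : NNReal) : ℝ) : ℂ)) := by
        simp only [hφ, ContinuousMap.coe_mk]
        exact (Complex.continuous_ofReal.tendsto _).comp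
          ((NNReal.continuous_coe.tendsto _).comp h3)
      have h5 := h4.mul_const (h x)
      have e : ((((s.indicator (fun _ => (1 : NNReal)) x : NNReal) : ℝ) : ℂ)) * h x
          = s.indicator h x := by
        by_cases hx : x ∈ s <;> simp [hx]
      rw [e] at h5
      exact h5
  simp_rw [h1] at hlim
  have := tendsto_nhds_unique hlim tendsto_const_nhds
  rw [integral_indicator hs.measurableSet] at this
  exact this

end

end Crest.Agent.R113.FibL1
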