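import Crest.Agent.R113.CircleDefs
import Crest.Prelude.Def_RotationRep

/-! # T15: fibre extraction — blueprint 6834 sec. 4

`ℓ²(ℤ×ℤ) ≅ L²(TT; ℓ²(ℤ))` by Fourier series in the second index; `p` commutes with
`V' δ_(a,b) = δ_(a,b+1)` and `U' δ_(a,b) = e(bθ) δ_(a+1,b)` (these commute with `U`, `V`).
`ξ_a(x) = P_x δ_a` = Fourier transform of `p δ_(a,0)`; Gram identity
`⟨ξ_a(x), ξ_a'(x)⟩ = ⟨ξ_a(x), δ_a'⟩` a.e.; `cfc f V` is multiplication by `f(e(x + aθ))`. -/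

set_option autoImplicit false

namespace Crest.Agent.R113

open scoped BigOperators
open MeasureTheory Crest.AnalysisR.RotationRep

theorem fibre_extraction (θ : ℝ)
    (U V : lp (fun _ : ℤ × ℤ => ℂ) 2 →L[ℂ] lp (fun _ : ℤ × ℤ => ℂ) 2)
    (hUV : IsRotationPair θ U V)
    (p : lp (fun _ : ℤ × ℤ => ℂ) 2 →L[ℂ] lp (fun _ : ℤ × ℤ => ℂ) 2)
    (hp : p ∈ vonNeumannGenerated {U, V}) (hproj : IsStarProjection p)
    (f : ℂ → ℝ) (hf : Continuous f)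
    (hinv : (1 - p) * (U * cfc (fun z : ℂ => (f z : ℂ)) V) * p = 0) :
    ∃ (P : TT → (l2Z →L[ℂ] l2Z)) (ρ : ℝ),
      FibreFamily θ (fun x => f (AddCircle.toCircle x : ℂ)) P ρ ∧ 0 ≤ ρ ∧ ρ ≤ 1 ∧
      (ρ = 0 → p = 0) ∧ (ρ = 1 → p = 1) := by
  sorry

end Crest.Agent.R113
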