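import Crest.Agent.R113.Glue

/-!
# Row 113, T18: the statement S0149 from its ingredients
-/

set_option autoImplicit false

namespace Crest.Agent.R113

open MeasureTheory

/-- A continuous function on the circle extends to a continuous function on `ℂ`. -/
theorem exists_ext (F : UnitAddCircle → ℝ) (hF : Continuous F) :
    ∃ f : ℂ → ℝ, Continuous f ∧ ∀ x : UnitAddCircle, f (fourier 1 x) = F x := by
  have he : Topology.IsClosedEmbedding (fun x : UnitAddCircle => (fourier 1 x : ℂ)) := by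
    refine Continuous.isClosedEmbedding (ContinuousMap.continuous _) ?_
    intro x y hxy
    have h1 : (AddCircle.toCircle x : ℂ) = (AddCircle.toCircle y : ℂ) := by
      simpa [fourier_apply] using hxy
    exact AddCircle.injective_toCircle one_ne_zero (by exact_mod_cast Circle.ext h1)
  obtain ⟨g, hg⟩ := ContinuousMap.exists_extension he (⟨F, hF⟩ : C(UnitAddCircle, ℝ))
  refine ⟨g, g.continuous, fun x => ?_⟩
  exact congrArg (fun k : C(UnitAddCircle, ℝ) => k x) hg

/-- Every point of the unit circle is of the form `fourier 1 x`. -/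
theorem exists_fourier_eq (z : ℂ) (hz : ‖z‖ = 1) : ∃ x : UnitAddCircle, (fourier 1 x : ℂ) = z := by
  refine ⟨((Complex.arg z / (2 * Real.pi) : ℝ) : UnitAddCircle), ?_⟩
  rw [fourier_coe_apply]
  have h1 : (2 * Real.pi * Complex.I * ((1 : ℤ) : ℂ) * ((Complex.arg z / (2 * Real.pi) : ℝ) : ℂ)
      / ((1 : ℝ) : ℂ)) = (Complex.arg z : ℂ) * Complex.I := by
    push_cast
    have : (Real.pi : ℂ) ≠ 0 := by exact_mod_cast Real.pi_ne_zero
    field_simp
  rw [h1]
  have := Complex.norm_mul_exp_arg_mul_I z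
  rw [hz] at this
  simpa using this

theorem fourier_one_zero : (fourier 1 (0 : UnitAddCircle) : ℂ) = 1 := by
  simp [fourier_apply]

theorem fourier_one_eq_one_iff (x : UnitAddCircle) : (fourier 1 x : ℂ) = 1 ↔ x = 0 := by
  constructor
  · intro h
    have h1 : (AddCircle.toCircle x : ℂ) = (AddCircle.toCircle (0 : UnitAddCircle) : ℂ) := by
      rw [← fourier_one_zero] at h
      simpa [fourier_apply] using h
    exact AddCircle.injective_toCircle one_ne_zero (by exact_mod_cast Circle.ext h1)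
  · rintro rfl; exact fourier_one_zero

/-- Integration over `(0, 2π]` versus over the circle. -/
theorem lintegral_circle (G : ℂ → ENNReal) :
    ∫⁻ t in Set.Ioc (0 : ℝ) (2 * Real.pi), G (Complex.exp ((t : ℂ) * Complex.I)) =
      ENNReal.ofReal (2 * Real.pi) * ∫⁻ x : UnitAddCircle, G (fourier 1 x) := by
  have hpi : (0 : ℝ) < 2 * Real.pi := by positivity
  rw [← UnitAddCircle.lintegral_preimage 0]
  simp only [zero_add]
  have hmap := Real.map_volume_mul_left hpi.ne'
  have h1 : ∫⁻ t in Set.Ioc (0 : ℝ) (2 * Real.pi), G (Complex.exp ((t : ℂ) * Complex.I)) =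
      ∫⁻ t, (Set.Ioc (0 : ℝ) (2 * Real.pi)).indicator
        (fun t : ℝ => G (Complex.exp ((t : ℂ) * Complex.I))) t := by
    rw [lintegral_indicator measurableSet_Ioc]
  have h2 : ∫⁻ t in Set.Ioc (0 : ℝ) 1, G (fourier 1 ((t : ℝ) : UnitAddCircle)) =
      ∫⁻ t, (Set.Ioc (0 : ℝ) 1).indicator
        (fun t : ℝ => G (fourier 1 ((t : ℝ) : UnitAddCircle))) t := by
    rw [lintegral_indicator measurableSet_Ioc]
  rw [h1, h2]
  have h3 : ∀ t : ℝ, (Set.Ioc (0 : ℝ) 1).indicator
        (fun t : ℝ => G (fourier 1 ((t : ℝ) : UnitAddCircle))) t =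
      (Set.Ioc (0 : ℝ) (2 * Real.pi)).indicator
        (fun t : ℝ => G (Complex.exp ((t : ℂ) * Complex.I))) ((2 * Real.pi) * t) := by
    intro t
    have hmem : t ∈ Set.Ioc (0 : ℝ) 1 ↔ (2 * Real.pi) * t ∈ Set.Ioc (0 : ℝ) (2 * Real.pi) := by
      simp only [Set.mem_Ioc]
      constructor
      · rintro ⟨a, b⟩; constructor
        · positivity
        · nlinarith
      · rintro ⟨a, b⟩; constructor
        · exact (mul_pos_iff_of_pos_left hpi).1 a
        · by_contra hlt
          push Not at hlt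
          nlinarith
    by_cases ht : t ∈ Set.Ioc (0 : ℝ) 1
    · rw [Set.indicator_of_mem ht, Set.indicator_of_mem (hmem.1 ht), fourier_coe_apply]
      congr 2
      push_cast
      ring
    · rw [Set.indicator_of_notMem ht, Set.indicator_of_notMem (fun h => ht (hmem.2 h))]
  simp only [h3]
  have hme : MeasurableEmbedding (fun t : ℝ => (2 * Real.pi) * t) :=
    (Homeomorph.mulLeft₀ (2 * Real.pi) hpi.ne').measurableEmbedding
  rw [← hme.lintegral_map (μ := volume) (fun t => (Set.Ioc (0 : ℝ) (2 * Real.pi)).indicator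
        (fun t : ℝ => G (Complex.exp ((t : ℂ) * Complex.I))) t), hmap, lintegral_smul_measure,
    smul_eq_mul, ← mul_assoc, ← ENNReal.ofReal_mul hpi.le, abs_of_pos (inv_pos.2 hpi),
    mul_inv_cancel₀ hpi.ne', ENNReal.ofReal_one, one_mul]

/-- S0149 from the ingredients. -/
theorem s0149_of (hFD : S_FD) (hT : Transfer.S_Transfer) (hC : Transfer.S_Counts)
    (hD : S_Design) (hFib : S_Fibres) (θ : ℝ) (hθ : Irrational θ) :
    ∃ f : ℂ → ℝ, Continuous f ∧ (∀ z : ℂ, ‖z‖ = 1 → 0 ≤ f z ∧ f z ≤ 1) ∧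
      (∀ z : ℂ, ‖z‖ = 1 → (f z = 0 ↔ z = 1)) ∧
      (∫⁻ t in Set.Ioc (0 : ℝ) (2 * Real.pi),
          ENNReal.ofReal (- Real.log (f (Complex.exp ((t : ℂ) * Complex.I)))) = ⊤) ∧
      ∀ U V : lp (fun _ : ℤ × ℤ => ℂ) 2 →L[ℂ] lp (fun _ : ℤ × ℤ => ℂ) 2,
        Crest.AnalysisR.RotationRep.IsRotationPair θ U V →
        ∀ p : lp (fun _ : ℤ × ℤ => ℂ) 2 →L[ℂ] lp (fun _ : ℤ × ℤ => ℂ) 2,
          p ∈ Crest.AnalysisR.RotationRep.vonNeumannGenerated {U, V} → IsStarProjection p →
          (1 - p) * (U * cfc (fun z : ℂ => (f z : ℂ)) V) * p = 0 → p = 0 ∨ p = 1 := by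
  obtain ⟨w, hw⟩ := exists_words
  obtain ⟨D⟩ := hD θ hθ w
  obtain ⟨f, hf, hfF⟩ := exists_ext _ D.cont
  have hval : ∀ x : UnitAddCircle, f (fourier 1 x) = if x = 0 then (0 : ℝ) else Real.exp (-D.u x) :=
    hfF
  refine ⟨f, hf, ?_, ?_, ?_, ?_⟩
  · intro z hz
    obtain ⟨x, rfl⟩ := exists_fourier_eq z hz
    rw [hval]
    split_ifs
    · exact ⟨le_rfl, zero_le_one⟩
    · exact ⟨(Real.exp_pos _).le, Real.exp_le_one_iff.2 (neg_nonpos.2 (D.u_nonneg x))⟩
  · intro z hz
    obtain ⟨x, rfl⟩ := exists_fourier_eq z hz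
    rw [hval, fourier_one_eq_one_iff]
    split_ifs with h
    · simp [h]
    · simp [h, (Real.exp_pos _).ne']
  · rw [lintegral_circle (fun z => ENNReal.ofReal (-Real.log (f z)))]
    have h1 : ∫⁻ x : UnitAddCircle, ENNReal.ofReal (-Real.log (f (fourier 1 x))) =
        ∫⁻ x : UnitAddCircle, ENNReal.ofReal (D.u x) := by
      refine lintegral_congr_ae ?_
      have h0 : ∀ᵐ x : UnitAddCircle, x ≠ 0 := by
        rw [ae_iff]
        have h1 := AddCircle.volume_closedBall (T := (1 : ℝ)) (x := (0 : UnitAddCircle)) 0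
        simpa using h1
      filter_upwards [h0] with x hx
      rw [hval, if_neg hx, Real.log_exp, neg_neg]
    rw [h1, D.lint, ENNReal.mul_top]
    simpa using Real.pi_pos
  · intro U V hUV p hp hproj hinv
    obtain ⟨P, hP, hint, hz, ho⟩ := hFib θ f hf U V p hUV hp hproj hinv
    set ρ := ‖p (lp.single 2 (0, 0) (1 : ℂ))‖ ^ 2 with hρ
    have h0 : 0 ≤ ρ := by positivity
    have h1 : ρ ≤ 1 := by
      have hn : ‖p‖ ≤ 1 := hproj.norm_le
      have hs : ‖(lp.single 2 ((0 : ℤ), (0 : ℤ)) (1 : ℂ) : lp (fun _ : ℤ × ℤ => ℂ) 2)‖ = 1 := by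
        simp
      have : ‖p (lp.single 2 (0, 0) (1 : ℂ))‖ ≤ 1 := by
        refine (p.le_opNorm _).trans ?_
        rw [hs, mul_one]; exact hn
      rw [hρ]
      exact pow_le_one₀ (norm_nonneg _) this
    rcases h0.eq_or_lt with h | h
    · left; exact hz h.symm
    rcases h1.eq_or_lt with h' | h'
    · right; exact ho h'
    exfalso
    exact not_between hFD hT hC hθ hw D (fun x => f (fourier 1 x)) hval P hP ρ hint.symm h h'

end Crest.Agent.R113
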