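import Crest.Agent.R113.Basic

/-! # T03: locality of `P_{aE}` — blueprint 6835 (LOC) -/

set_option autoImplicit false

namespace Crest.Agent.R113

open scoped BigOperators

namespace LocAux

/-- Hilbert-Schmidt norm of a composition `B ∘ S`. -/
theorem sum_comp_le {V W U : Type*} [NormedAddCommGroup V] [InnerProductSpace ℂ V]
    [FiniteDimensional ℂ V] [NormedAddCommGroup W] [InnerProductSpace ℂ W] [FiniteDimensional ℂ W]
    [NormedAddCommGroup U] [InnerProductSpace ℂ U] [FiniteDimensional ℂ U]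
    {k l m : Type*} [Fintype k] [Fintype l] [Fintype m]
    (v : OrthonormalBasis k ℂ V) (w : OrthonormalBasis l ℂ W) (u : OrthonormalBasis m ℂ U)
    (S : V →ₗ[ℂ] W) (B : W →ₗ[ℂ] U) (M : ℝ) (hM : 0 ≤ M) (hS : ∀ x, ‖S x‖ ≤ M * ‖x‖) :
    ∑ i, ‖B (S (v i))‖ ^ 2 ≤ M ^ 2 * ∑ j, ‖B (w j)‖ ^ 2 := by
  classical
  have hadj : ∀ y, ‖LinearMap.adjoint S y‖ ≤ M * ‖y‖ := by
    intro y
    rcases eq_or_ne (LinearMap.adjoint S y) 0 with h0 | h0
    · rw [h0, norm_zero]; positivity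
    · have h1 : ‖LinearMap.adjoint S y‖ ^ 2 ≤ ‖LinearMap.adjoint S y‖ * (M * ‖y‖) := by
        have h2 : (‖LinearMap.adjoint S y‖ ^ 2 : ℝ) =
            RCLike.re (inner ℂ (LinearMap.adjoint S y) (LinearMap.adjoint S y)) :=
          norm_sq_eq_re_inner _
        rw [h2, LinearMap.adjoint_inner_left]
        calc RCLike.re (inner ℂ y (S (LinearMap.adjoint S y)))
            ≤ ‖inner ℂ y (S (LinearMap.adjoint S y))‖ := RCLike.re_le_norm _
          _ ≤ ‖y‖ * ‖S (LinearMap.adjoint S y)‖ := norm_inner_le_norm _ _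
          _ ≤ ‖y‖ * (M * ‖LinearMap.adjoint S y‖) := by
              gcongr; exact hS _
          _ = ‖LinearMap.adjoint S y‖ * (M * ‖y‖) := by ring
      have hpos : 0 < ‖LinearMap.adjoint S y‖ := norm_pos_iff.mpr h0
      rw [sq] at h1
      exact le_of_mul_le_mul_left h1 hpos
  have e1 : ∑ i, ‖B (S (v i))‖ ^ 2 = ∑ j, ‖LinearMap.adjoint S (LinearMap.adjoint B (u j))‖ ^ 2 := by
    have h1 : ∀ i, ‖B (S (v i))‖ ^ 2 = ∑ j, ‖inner ℂ (u j) (B (S (v i)))‖ ^ 2 := fun i =>
      (u.sum_sq_norm_inner_right _).symm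
    have h2 : ∀ j, ‖LinearMap.adjoint S (LinearMap.adjoint B (u j))‖ ^ 2 =
        ∑ i, ‖inner ℂ (v i) (LinearMap.adjoint S (LinearMap.adjoint B (u j)))‖ ^ 2 := fun j =>
      (v.sum_sq_norm_inner_right _).symm
    rw [Finset.sum_congr rfl fun i _ => h1 i, Finset.sum_congr rfl fun j _ => h2 j,
      Finset.sum_comm]
    refine Finset.sum_congr rfl fun j _ => Finset.sum_congr rfl fun i _ => ?_
    rw [LinearMap.adjoint_inner_right, LinearMap.adjoint_inner_right, norm_inner_symm]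
  have e2 : ∑ j, ‖B (w j)‖ ^ 2 = ∑ j, ‖LinearMap.adjoint B (u j)‖ ^ 2 := by
    have h1 : ∀ i, ‖B (w i)‖ ^ 2 = ∑ j, ‖inner ℂ (u j) (B (w i))‖ ^ 2 := fun i =>
      (u.sum_sq_norm_inner_right _).symm
    have h2 : ∀ j, ‖LinearMap.adjoint B (u j)‖ ^ 2 =
        ∑ i, ‖inner ℂ (w i) (LinearMap.adjoint B (u j))‖ ^ 2 := fun j =>
      (w.sum_sq_norm_inner_right _).symm
    rw [Finset.sum_congr rfl fun i _ => h1 i, Finset.sum_congr rfl fun j _ => h2 j,
      Finset.sum_comm]
    refine Finset.sum_congr rfl fun j _ => Finset.sum_congr rfl fun i _ => ?_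
    rw [LinearMap.adjoint_inner_right, norm_inner_symm]
  rw [e1, e2, Finset.mul_sum]
  refine Finset.sum_le_sum fun j _ => ?_
  rw [← mul_pow]
  exact pow_le_pow_left₀ (norm_nonneg _) (hadj _) 2

variable {ι : Type*} [Fintype ι]

theorem norm_sub_starProjection_le (Y : Submodule ℂ (EuclideanSpace ℂ ι))
    (x y : EuclideanSpace ℂ ι) (hy : y ∈ Y) : ‖x - Y.starProjection x‖ ≤ ‖x - y‖ := by
  rw [Submodule.starProjection_minimal]
  exact ciInf_le ⟨0, by rintro _ ⟨z, rfl⟩; exact norm_nonneg _⟩ (⟨y, hy⟩ : Y)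

theorem norm_sq_split (Y : Submodule ℂ (EuclideanSpace ℂ ι)) (x : EuclideanSpace ℂ ι) :
    ‖x‖ ^ 2 = ‖Y.starProjection x‖ ^ 2 + ‖x - Y.starProjection x‖ ^ 2 := by
  rw [Y.norm_sq_eq_add_norm_sq_starProjection x, Submodule.starProjection_orthogonal_val]

variable [DecidableEq ι]

theorem hsd_eq_two (X Y : Submodule ℂ (EuclideanSpace ℂ ι)) {κ : Type*} [Fintype κ]
    (b : OrthonormalBasis κ ℂ X) (hdim : Module.finrank ℂ X = Module.finrank ℂ Y) :
    hsd X Y = 2 * ∑ k, ‖(b k : EuclideanSpace ℂ ι) - Y.starProjection (b k)‖ ^ 2 := by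
  rw [hsd_eq X Y b, ← hdim]
  have h1 : ∀ k, ‖(b k : EuclideanSpace ℂ ι) - Y.starProjection (b k)‖ ^ 2 =
      1 - ‖Y.starProjection (b k : EuclideanSpace ℂ ι)‖ ^ 2 := by
    intro k
    have h2 := norm_sq_split Y (b k : EuclideanSpace ℂ ι)
    have h3 : ‖(b k : EuclideanSpace ℂ ι)‖ = 1 := b.norm_eq_one k
    rw [h3] at h2
    linarith
  rw [Finset.sum_congr rfl fun k _ => h1 k, Finset.sum_sub_distrib]
  have h4 : (∑ _k : κ, (1 : ℝ)) = Module.finrank ℂ X := by
    rw [Module.finrank_eq_card_basis b.toBasis]; simp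
  rw [h4]
  ring

/-- unitary diagonal operator -/
noncomputable def zeq (z : ι → ℂ) (hz : ∀ i, ‖z i‖ = 1) :
    EuclideanSpace ℂ ι ≃ₗᵢ[ℂ] EuclideanSpace ℂ ι where
  toFun v := WithLp.toLp 2 (fun i => z i * v i)
  invFun v := WithLp.toLp 2 (fun i => (starRingEnd ℂ) (z i) * v i)
  map_add' v w := by ext i; simp [mul_add]
  map_smul' r v := by ext i; simp [mul_left_comm]
  left_inv v := by
    ext i
    have h : (starRingEnd ℂ) (z i) * z i = 1 := by
      rw [mul_comm, Complex.mul_conj, Complex.normSq_eq_norm_sq, hz i]; simp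
    simp only [WithLp.ofLp_toLp]
    rw [← mul_assoc, h, one_mul]
  right_inv v := by
    ext i
    have h : z i * (starRingEnd ℂ) (z i) = 1 := by
      rw [Complex.mul_conj, Complex.normSq_eq_norm_sq, hz i]; simp
    simp only [WithLp.ofLp_toLp]
    rw [← mul_assoc, h, one_mul]
  norm_map' v := by
    rw [EuclideanSpace.norm_eq, EuclideanSpace.norm_eq]
    congr 1
    refine Finset.sum_congr rfl fun i _ => ?_
    simp [hz i]

theorem zeq_apply (z : ι → ℂ) (hz : ∀ i, ‖z i‖ = 1) (v : EuclideanSpace ℂ ι) (i : ι) :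
    zeq z hz v i = z i * v i := rfl

theorem zeq_symm_apply (z : ι → ℂ) (hz : ∀ i, ‖z i‖ = 1) (v : EuclideanSpace ℂ ι) (i : ι) :
    (zeq z hz).symm v i = (starRingEnd ℂ) (z i) * v i := rfl

/-- entries of the projection onto `Z X` -/
theorem ent_map_zeq (z : ι → ℂ) (hz : ∀ i, ‖z i‖ = 1) (X : Submodule ℂ (EuclideanSpace ℂ ι))
    (i j : ι) :
    ent (X.map ((zeq z hz).toLinearEquiv : EuclideanSpace ℂ ι →ₗ[ℂ] EuclideanSpace ℂ ι)) i j =
      z i * (starRingEnd ℂ) (z j) * ent X i j := by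
  have h1 : (zeq z hz).symm (ev j) = (starRingEnd ℂ) (z j) • ev j := by
    ext k
    rw [zeq_symm_apply]
    by_cases hk : k = j
    · subst hk; simp [ev]
    · simp [ev, hk]
  have h2 : ∀ v : EuclideanSpace ℂ ι, inner ℂ (ev i) (zeq z hz v) = z i * inner ℂ (ev i) v := by
    intro v
    simp [ev, EuclideanSpace.inner_single_left, zeq_apply]
  unfold ent
  rw [Submodule.starProjection_map_apply, h1, map_smul, map_smul, inner_smul_right, h2]
  ring

/-- the phase average -/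
noncomputable def J (δ : ℝ) : ℝ := ∫ t in (0 : ℝ)..4, (2 - 2 * Real.cos (t * δ))

theorem phase_cont (δ : ℝ) : Continuous fun t : ℝ => 2 - 2 * Real.cos (t * δ) := by
  fun_prop

theorem J_nonneg (δ : ℝ) : 0 ≤ J δ := by
  refine intervalIntegral.integral_nonneg (by norm_num) fun t _ => ?_
  linarith [Real.cos_le_one (t * δ)]

theorem J_le (δ : ℝ) : J δ ≤ 64 * min 1 (δ ^ 2) := by
  have h1 : J δ ≤ ∫ _t in (0 : ℝ)..4, 16 * min 1 (δ ^ 2) := by
    refine intervalIntegral.integral_mono_on (by norm_num)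
      ((phase_cont δ).intervalIntegrable _ _) (by simp) fun t ht => ?_
    have h2 := Real.one_sub_sq_div_two_le_cos (x := t * δ)
    have h3 := Real.neg_one_le_cos (t * δ)
    rcases le_total 1 (δ ^ 2) with h | h
    · rw [min_eq_left h]; linarith
    · rw [min_eq_right h]
      have h4 : (t * δ) ^ 2 ≤ 16 * δ ^ 2 := by
        rw [mul_pow]
        have : t ^ 2 ≤ 16 := by nlinarith [ht.1, ht.2]
        nlinarith [sq_nonneg δ]
      linarith
  rw [intervalIntegral.integral_const, smul_eq_mul] at h1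
  linarith

theorem J_ge (δ : ℝ) (h : 1 ≤ |δ|) : 4 ≤ J δ := by
  have hδ : δ ≠ 0 := by
    rintro rfl
    rw [abs_zero] at h
    linarith
  have h1 : J δ = 8 - 2 * (δ⁻¹ * Real.sin (4 * δ)) := by
    unfold J
    rw [intervalIntegral.integral_sub (by simp)
      ((by fun_prop : Continuous fun t : ℝ => 2 * Real.cos (t * δ)).intervalIntegrable _ _),
      intervalIntegral.integral_const, intervalIntegral.integral_const_mul,
      intervalIntegral.integral_comp_mul_right (fun x => Real.cos x) hδ, integral_cos]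
    simp
    norm_num
  rw [h1]
  have h2 : |δ⁻¹ * Real.sin (4 * δ)| ≤ 1 := by
    rw [abs_mul, abs_inv]
    have h3 : |δ|⁻¹ ≤ 1 := inv_le_one_of_one_le₀ h
    have h4 : |Real.sin (4 * δ)| ≤ 1 := Real.abs_sin_le_one _
    calc |δ|⁻¹ * |Real.sin (4 * δ)| ≤ 1 * 1 :=
          mul_le_mul h3 h4 (abs_nonneg _) (by norm_num)
      _ = 1 := by norm_num
  have := (abs_le.mp h2).2
  linarith

/-- a block diagonal map commutes with window-constant diagonal unitaries -/
theorem blockDiag_comm {κ : Type*} [DecidableEq κ] (win : ι → κ)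
    (a : EuclideanSpace ℂ ι →ₗ[ℂ] EuclideanSpace ℂ ι) (ha : BlockDiag win a) (z : κ → ℂ)
    (hz : ∀ c, ‖z c‖ = 1) (v : EuclideanSpace ℂ ι) :
    a (zeq (fun i => z (win i)) (fun i => hz _) v) =
      zeq (fun i => z (win i)) (fun i => hz _) (a v) := by
  ext i
  rw [zeq_apply]
  have h1 : ∀ u : EuclideanSpace ℂ ι, (restr {j | win j = win i} u) i = u i := by
    intro u; simp
  have h2 : restr {j | win j = win i} (zeq (fun i => z (win i)) (fun i => hz _) v) =
      z (win i) • restr {j | win j = win i} v := by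
    ext j
    by_cases hj : win j = win i
    · simp [hj, zeq_apply]
    · simp [hj]
  rw [← h1 (a _), ← ha (win i), h2, map_smul, ha (win i)]
  simp

end LocAux

open LocAux in
/-- Lipschitz dependence of `P_{aE}` on `E`. -/
theorem hsd_map_le {ι : Type*} [Fintype ι] [DecidableEq ι]
    (E E2 : Submodule ℂ (EuclideanSpace ℂ ι)) (hdim : Module.finrank ℂ E = Module.finrank ℂ E2)
    (a : EuclideanSpace ℂ ι →ₗ[ℂ] EuclideanSpace ℂ ι) (κ : ℝ)
    (ha1 : ∀ v, ‖a v‖ ≤ ‖v‖) (ha2 : ∀ v, Real.exp (-κ) * ‖v‖ ≤ ‖a v‖) :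
    hsd (E.map a) (E2.map a) ≤ Real.exp (2 * κ) * hsd E E2 := by
  have hinj : Function.Injective a := by
    rw [← LinearMap.ker_eq_bot, LinearMap.ker_eq_bot']
    intro v hv
    have h1 := ha2 v
    rw [hv, norm_zero] at h1
    have h2 := Real.exp_pos (-κ)
    have h3 : ‖v‖ ≤ 0 := by
      by_contra h
      push Not at h
      nlinarith [mul_pos h2 h]
    exact norm_le_zero_iff.mp h3
  have hd1 : Module.finrank ℂ (E.map a) = Module.finrank ℂ E :=
    (Submodule.equivMapOfInjective a hinj E).finrank_eq.symm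
  have hd2 : Module.finrank ℂ (E2.map a) = Module.finrank ℂ E2 :=
    (Submodule.equivMapOfInjective a hinj E2).finrank_eq.symm
  set v := stdOrthonormalBasis ℂ (E.map a)
  set w := stdOrthonormalBasis ℂ E
  set S : (E.map a) →ₗ[ℂ] E := (Submodule.equivMapOfInjective a hinj E).symm.toLinearMap with hS
  set Bm : E →ₗ[ℂ] EuclideanSpace ℂ ι :=
    E.subtype - (E2.starProjection : EuclideanSpace ℂ ι →ₗ[ℂ] EuclideanSpace ℂ ι) ∘ₗ E.subtype
    with hBm
  have haS : ∀ x : (E.map a), a (S x : EuclideanSpace ℂ ι) = x := by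
    intro x
    have := (Submodule.equivMapOfInjective a hinj E).apply_symm_apply x
    rw [← Submodule.coe_equivMapOfInjective_apply (i := hinj) (p := E)]
    exact congrArg Subtype.val this
  have hSn : ∀ x, ‖S x‖ ≤ Real.exp κ * ‖x‖ := by
    intro x
    have h1 := ha2 (S x : EuclideanSpace ℂ ι)
    rw [haS] at h1
    have h2 : Real.exp κ * (Real.exp (-κ) * ‖(S x : EuclideanSpace ℂ ι)‖) ≤
        Real.exp κ * ‖(x : EuclideanSpace ℂ ι)‖ :=
      mul_le_mul_of_nonneg_left h1 (Real.exp_pos _).le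
    rw [← mul_assoc, ← Real.exp_add, add_neg_cancel, Real.exp_zero, one_mul] at h2
    exact h2
  rw [hsd_eq_two (E.map a) (E2.map a) v (by rw [hd1, hd2, hdim]), hsd_eq_two E E2 w hdim]
  have hkey := sum_comp_le v w (EuclideanSpace.basisFun ι ℂ) S Bm (Real.exp κ)
    (Real.exp_pos _).le hSn
  have hexp : Real.exp κ ^ 2 = Real.exp (2 * κ) := by
    rw [← Real.exp_nat_mul]; norm_num
  have h1 : ∀ k, ‖(v k : EuclideanSpace ℂ ι) - (E2.map a).starProjection (v k)‖ ^ 2 ≤
      ‖Bm (S (v k))‖ ^ 2 := by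
    intro k
    refine pow_le_pow_left₀ (norm_nonneg _) ?_ 2
    set e : EuclideanSpace ℂ ι := (S (v k) : EuclideanSpace ℂ ι) with he
    have h2 : (v k : EuclideanSpace ℂ ι) = a e := (haS _).symm
    have h3 : Bm (S (v k)) = e - E2.starProjection e := rfl
    rw [h3, h2]
    refine (norm_sub_starProjection_le (E2.map a) (a e) (a (E2.starProjection e))
      (Submodule.mem_map_of_mem (Submodule.starProjection_apply_mem _ _))).trans ?_
    rw [← map_sub]
    exact ha1 _
  calc 2 * ∑ k, ‖(v k : EuclideanSpace ℂ ι) - (E2.map a).starProjection (v k)‖ ^ 2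
      ≤ 2 * ∑ k, ‖Bm (S (v k))‖ ^ 2 :=
        mul_le_mul_of_nonneg_left (Finset.sum_le_sum fun k _ => h1 k) (by norm_num)
    _ ≤ 2 * (Real.exp κ ^ 2 * ∑ j, ‖Bm (w j)‖ ^ 2) := by gcongr
    _ = Real.exp (2 * κ) * (2 * ∑ k, ‖(w k : EuclideanSpace ℂ ι) -
        E2.starProjection (w k)‖ ^ 2) := by
        rw [hexp]
        have : ∀ j, Bm (w j) = (w j : EuclideanSpace ℂ ι) - E2.starProjection (w j) :=
          fun _ => rfl
        simp only [this]
        ring

open LocAux in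
/-- Locality. Windows are labelled by integers `st i` (their starting points). -/
theorem loc {q : ℕ} (st : Fin q → ℤ) (E : Submodule ℂ (EuclideanSpace ℂ (Fin q)))
    (a : EuclideanSpace ℂ (Fin q) →ₗ[ℂ] EuclideanSpace ℂ (Fin q)) (ha : BlockDiag st a)
    (κ : ℝ) (ha1 : ∀ v, ‖a v‖ ≤ ‖v‖) (ha2 : ∀ v, Real.exp (-κ) * ‖v‖ ≤ ‖a v‖)
    (R : ℝ) (hR : 0 < R) :
    ∑ i, ∑ j, (if R ≤ |((st i - st j : ℤ) : ℝ)| then ‖ent (E.map a) i j‖ ^ 2 else 0) ≤
      16 * Real.exp (2 * κ) *
        ∑ i, ∑ j, min 1 ((((st i - st j : ℤ) : ℝ) / R) ^ 2) * ‖ent E i j‖ ^ 2 := by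
  set δ : Fin q → Fin q → ℝ := fun i j => ((st i - st j : ℤ) : ℝ) / R with hδ
  -- the unitaries
  set z : ℝ → ℤ → ℂ := fun t c => Complex.exp (((t * c / R : ℝ) : ℂ) * Complex.I) with hz
  have hz1 : ∀ t c, ‖z t c‖ = 1 := fun t c => Complex.norm_exp_ofReal_mul_I _
  have hzz : ∀ t (i j : Fin q), z t (st i) * (starRingEnd ℂ) (z t (st j)) =
      Complex.exp (((t * δ i j : ℝ) : ℂ) * Complex.I) := by
    intro t i j
    rw [hz]
    simp only
    rw [← Complex.exp_conj, ← Complex.exp_add]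
    congr 1
    rw [map_mul, Complex.conj_ofReal, Complex.conj_I, hδ]
    push_cast
    ring
  have hphase : ∀ x : ℝ, ‖(1 : ℂ) - Complex.exp ((x : ℂ) * Complex.I)‖ ^ 2 =
      2 - 2 * Real.cos x := by
    intro x
    rw [← Complex.normSq_eq_norm_sq, Complex.exp_ofReal_mul_I, Complex.normSq_apply]
    simp [Complex.cos_ofReal_re, Complex.sin_ofReal_re]
    nlinarith [Real.sin_sq_add_cos_sq x]
  -- distance between `X` and `Z X`
  have hdist : ∀ (X : Submodule ℂ (EuclideanSpace ℂ (Fin q))) (t : ℝ),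
      hsd X (X.map ((zeq (fun i => z t (st i)) (fun i => hz1 t _)).toLinearEquiv :
        EuclideanSpace ℂ (Fin q) →ₗ[ℂ] EuclideanSpace ℂ (Fin q))) =
      ∑ i, ∑ j, (2 - 2 * Real.cos (t * δ i j)) * ‖ent X i j‖ ^ 2 := by
    intro X t
    unfold hsd
    refine Finset.sum_congr rfl fun i _ => Finset.sum_congr rfl fun j _ => ?_
    rw [ent_map_zeq, hzz, ← hphase]
    rw [show ent X i j - Complex.exp (((t * δ i j : ℝ) : ℂ) * Complex.I) * ent X i j =
      (1 - Complex.exp (((t * δ i j : ℝ) : ℂ) * Complex.I)) * ent X i j by ring, norm_mul, mul_pow]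
  -- the pointwise inequality
  have hpt : ∀ t : ℝ, ∑ i, ∑ j, (2 - 2 * Real.cos (t * δ i j)) * ‖ent (E.map a) i j‖ ^ 2 ≤
      Real.exp (2 * κ) * ∑ i, ∑ j, (2 - 2 * Real.cos (t * δ i j)) * ‖ent E i j‖ ^ 2 := by
    intro t
    rw [← hdist, ← hdist]
    set Z : EuclideanSpace ℂ (Fin q) →ₗ[ℂ] EuclideanSpace ℂ (Fin q) :=
      ((zeq (fun i => z t (st i)) (fun i => hz1 t _)).toLinearEquiv :
        EuclideanSpace ℂ (Fin q) →ₗ[ℂ] EuclideanSpace ℂ (Fin q)) with hZ
    have hcomm : (E.map a).map Z = (E.map Z).map a := by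
      rw [← Submodule.map_comp, ← Submodule.map_comp]
      congr 1
      ext1 v
      exact (blockDiag_comm st a ha (z t) (hz1 t) v).symm
    rw [hcomm]
    refine hsd_map_le E (E.map Z) ?_ a κ ha1 ha2
    exact (LinearEquiv.finrank_map_eq _ E).symm
  -- integrate
  have hcont : ∀ (X : Submodule ℂ (EuclideanSpace ℂ (Fin q))),
      Continuous fun t : ℝ => ∑ i, ∑ j, (2 - 2 * Real.cos (t * δ i j)) * ‖ent X i j‖ ^ 2 := by
    intro X
    refine continuous_finset_sum _ fun i _ => continuous_finset_sum _ fun j _ => ?_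
    exact (phase_cont _).mul continuous_const
  have hint : ∀ (X : Submodule ℂ (EuclideanSpace ℂ (Fin q))),
      ∫ t in (0 : ℝ)..4, (∑ i, ∑ j, (2 - 2 * Real.cos (t * δ i j)) * ‖ent X i j‖ ^ 2) =
      ∑ i, ∑ j, J (δ i j) * ‖ent X i j‖ ^ 2 := by
    intro X
    rw [intervalIntegral.integral_finset_sum]
    · refine Finset.sum_congr rfl fun i _ => ?_
      rw [intervalIntegral.integral_finset_sum]
      · refine Finset.sum_congr rfl fun j _ => ?_
        rw [intervalIntegral.integral_mul_const]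
        rfl
      · intro j _
        exact ((phase_cont _).mul continuous_const).intervalIntegrable _ _
    · intro i _
      exact (continuous_finset_sum _ fun j _ =>
        (phase_cont _).mul continuous_const).intervalIntegrable _ _
  have h1 : ∑ i, ∑ j, J (δ i j) * ‖ent (E.map a) i j‖ ^ 2 ≤
      Real.exp (2 * κ) * ∑ i, ∑ j, J (δ i j) * ‖ent E i j‖ ^ 2 := by
    rw [← hint, ← hint, ← intervalIntegral.integral_const_mul]
    exact intervalIntegral.integral_mono_on (by norm_num) ((hcont _).intervalIntegrable _ _)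
      ((continuous_const.mul (hcont _)).intervalIntegrable _ _) fun t _ => hpt t
  have h2 : 4 * ∑ i, ∑ j, (if R ≤ |((st i - st j : ℤ) : ℝ)| then ‖ent (E.map a) i j‖ ^ 2 else 0) ≤
      ∑ i, ∑ j, J (δ i j) * ‖ent (E.map a) i j‖ ^ 2 := by
    rw [Finset.mul_sum]
    refine Finset.sum_le_sum fun i _ => ?_
    rw [Finset.mul_sum]
    refine Finset.sum_le_sum fun j _ => ?_
    split_ifs with h
    · refine mul_le_mul_of_nonneg_right (J_ge _ ?_) (sq_nonneg _)
      rw [hδ]
      simp only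
      rw [abs_div, abs_of_pos hR, one_le_div hR]
      exact h
    · rw [mul_zero]
      exact mul_nonneg (J_nonneg _) (sq_nonneg _)
  have h3 : ∑ i, ∑ j, J (δ i j) * ‖ent E i j‖ ^ 2 ≤
      64 * ∑ i, ∑ j, min 1 ((((st i - st j : ℤ) : ℝ) / R) ^ 2) * ‖ent E i j‖ ^ 2 := by
    rw [Finset.mul_sum]
    refine Finset.sum_le_sum fun i _ => ?_
    rw [Finset.mul_sum]
    refine Finset.sum_le_sum fun j _ => ?_
    rw [← mul_assoc]
    exact mul_le_mul_of_nonneg_right (J_le _) (sq_nonneg _)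
  have h4 := mul_le_mul_of_nonneg_left h3 (Real.exp_pos (2 * κ)).le
  nlinarith [h1, h2, h4]

end Crest.Agent.R113
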