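import Crest.Agent.R113.FD.MinSub
import Crest.Agent.R113.FD.Struct

/-! # T04: minimisation + structure — blueprint 6835 (MIN),(C) -/

set_option autoImplicit false

namespace Crest.Agent.R113

open scoped BigOperators MatrixOrder ComplexOrder
open Matrix FD

theorem blockSub_range {ι κ' : Type*} [Fintype ι] [DecidableEq ι] [DecidableEq κ'] (win : ι → κ')
    {F : Matrix ι ι ℂ} (hF : IsStarProjection F) (hw : IsWin win F) :
    BlockSub win (Φ F).range := by
  intro c v hv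
  obtain ⟨u, hu⟩ := hv
  refine ⟨restr {i | win i = c} u, ?_⟩
  have h := blockDiag_of_isWin hw c u
  rw [ContinuousLinearMap.coe_coe] at h
  rw [← hu]
  exact h

theorem offW_eq_offw {ι κ' : Type*} [Fintype ι] [DecidableEq ι] [DecidableEq κ'] (win : ι → κ')
    (X : Submodule ℂ (EuclideanSpace ℂ ι)) : Struct.offW win (pm X) = offw win X := by
  unfold Struct.offW
  rw [offw_eqna]
  refine Finset.sum_congr rfl fun i _ => Finset.sum_congr rfl fun j _ => ?_
  rw [pm_apply]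

theorem minc {q : ℕ} {κ' : Type*} [DecidableEq κ'] (win : Fin q → κ')
    (E : Submodule ℂ (EuclideanSpace ℂ (Fin q))) (g : Fin q → ℝ) (G : ℝ)
    (hg0 : ∀ i, 0 ≤ g i) (hgG : ∀ i, g i ≤ G) (hgw : ∀ i j, win i = win j → g i = g j)
    (w θ : ℝ) (hw : 0 < w) (hθ : 0 < θ) (hq : 0 < q) :
    ∃ (s : ℝ) (a : EuclideanSpace ℂ (Fin q) →ₗ[ℂ] EuclideanSpace ℂ (Fin q))
      (F E2 : Submodule ℂ (EuclideanSpace ℂ (Fin q))),
      0 ≤ s ∧ s ≤ w / θ ∧ BlockDiag win a ∧ (∀ v, ‖a v‖ ≤ ‖v‖) ∧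
      (∀ v, Real.exp (-(w + s * G)) * ‖v‖ ≤ ‖a v‖) ∧ BlockSub win F ∧
      (∑ i, dg (E.map a) i * g i ≤ ∑ i, dg E i * g i + θ * q) ∧
      ((Module.finrank ℂ F : ℝ) ≤ Module.finrank ℂ E + 20 * offw win (E.map a)) ∧
      E2 ≤ E.map (mulD (fun i => Real.exp (-(s * g i)))) ∧
      ((Module.finrank ℂ E : ℝ) ≤ Module.finrank ℂ E2 + 20 * offw win (E.map a)) ∧
      (∀ v ∈ E2, ‖v - F.starProjection v‖ ≤ Real.exp (-w) * ‖F.starProjection v‖) := by
  obtain ⟨s, S, S', F, F0, Fm, a, hs0, hs1, hSp, hSS', hS'S, -, -, -, -, hwS, hwF, hwF0, hwFm,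
    hF, hF0, hFm, hsum, hFF0, hFFm, -, -, -, -, hSF, -, hSFm, -, -, -, hav, hbd, ha1, ha2, -, -, -,
    h1, h0, h2, hflux⟩ := min_sub win E g hgw w θ hw hθ
  obtain ⟨hd1, -, E2, hE2, hd2, hv2⟩ := Struct.struct_matrix win w S S' (pm (E.map a)) F F0 Fm hS'S
    (pm_proj _) hF hF0 hFm hsum hFFm hwF hSF hSFm h1 h0 h2 (E.map a) (Φ F).range (Φ_pm _)
    (Struct.op_eq_starProjection hF)
  have hoff0 : 0 ≤ offw win (E.map a) := by
    rw [offw_eqna]
    refine Finset.sum_nonneg fun i _ => Finset.sum_nonneg fun j _ => ?_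
    split_ifs <;> positivity
  rw [offW_eq_offw] at hd1 hd2
  have hainj : Function.Injective a := by
    rw [← LinearMap.ker_eq_bot, LinearMap.ker_eq_bot']
    intro v hv
    have h := ha2 G hgG v
    rw [hv, norm_zero] at h
    have h3 : 0 < Real.exp (-(w + s * G)) := Real.exp_pos _
    have h4 : ‖v‖ ≤ 0 := by
      by_contra hcon
      push Not at hcon
      have := mul_pos h3 hcon
      linarith
    exact norm_le_zero_iff.1 h4
  have hfr : Module.finrank ℂ (E.map a) = Module.finrank ℂ E :=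
    ((Submodule.equivMapOfInjective a hainj E).finrank_eq).symm
  rw [hfr] at hd1 hd2
  refine ⟨s, a, (Φ F).range, E2, hs0, hs1, hbd, ha1 hg0, ha2 G hgG, blockSub_range win hF hwF,
    ?_, by linarith, ?_, by linarith, hv2⟩
  · simpa using hflux
  · refine hE2.trans ?_
    rintro x ⟨y, ⟨e, he, rfl⟩, rfl⟩
    refine ⟨e, he, ?_⟩
    have h5 : Struct.op S' (a e) = mulD (fun m => Real.exp (-s * g m)) e := by
      rw [hav]
      change Φ S' (Φ S _) = _
      rw [← Φ_mul, hS'S, map_one]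
      rfl
    have h6 : (fun i => Real.exp (-(s * g i))) = fun m => Real.exp (-s * g m) := by
      ext m; ring_nf
    rw [h6]
    exact h5.symm

end Crest.Agent.R113
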