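import Crest.Agent.R113.TransferMain

/-! Row 113, S0149, task T13: Markov lemma for finitely many counts along the orbit, and the
combined existence statement. -/

set_option autoImplicit false

open MeasureTheory Filter Topology
open scoped InnerProductSpace ComplexConjugate

namespace Crest.Agent.R113.Transfer

open Classical in
theorem counts : S_Counts := by
  intro θ ι s B hB mu ζ hζ hmu0 hmu N q hq
  have hq0 : (0 : ℝ) < q := by
    have : 0 < q := by omega
    exact_mod_cast this
  have hone : ∀ i ∈ s, volume {x : UnitAddCircle | ζ i * q <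
      (((Finset.Icc (-(N : ℤ)) (q + N)).filter
        (fun m => x + m • ((θ : ℝ) : UnitAddCircle) ∈ B i)).card : ℝ)} ≤
        ENNReal.ofReal (2 * mu i / ζ i) := by
    intro i hi
    set f : UnitAddCircle → ℝ := fun x => ∑ m ∈ Finset.Icc (-(N : ℤ)) (q + N),
      (B i).indicator (fun _ => (1 : ℝ)) (x + m • ((θ : ℝ) : UnitAddCircle)) with hf
    have hcard : ∀ x, (((Finset.Icc (-(N : ℤ)) (q + N)).filter
        (fun m => x + m • ((θ : ℝ) : UnitAddCircle) ∈ B i)).card : ℝ) = f x := by
      intro x
      rw [Finset.card_filter, hf]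
      push_cast
      apply Finset.sum_congr rfl
      intro m _
      rw [Set.indicator_apply]
    have hset : {x : UnitAddCircle | ζ i * q < (((Finset.Icc (-(N : ℤ)) (q + N)).filter
        (fun m => x + m • ((θ : ℝ) : UnitAddCircle) ∈ B i)).card : ℝ)} = {x | ζ i * q < f x} := by
      apply congrArg
      funext x
      rw [hcard]
    rw [hset]
    have hind : Measurable ((B i).indicator (fun _ => (1 : ℝ))) :=
      measurable_const.indicator (hB i hi)
    have hint : ∀ m : ℤ, Integrable fun x : UnitAddCircle =>
        (B i).indicator (fun _ => (1 : ℝ)) (x + m • ((θ : ℝ) : UnitAddCircle)) := by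
      intro m
      apply integrable_of_bdd (C := 1) (hind.comp (measurable_id.add_const _))
      intro x
      have h1 : (0 : ℝ) ≤ (B i).indicator (fun _ => (1 : ℝ)) (x + m • ((θ : ℝ) : UnitAddCircle)) :=
        Set.indicator_nonneg (fun _ _ => zero_le_one) _
      have h2 : (B i).indicator (fun _ => (1 : ℝ)) (x + m • ((θ : ℝ) : UnitAddCircle)) ≤ 1 := by
        rw [Set.indicator_apply]; split_ifs <;> norm_num
      exact (abs_of_nonneg h1).trans_le h2
    apply markov (f := f)
    · exact integrable_finsetSum _ fun m _ => hint m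
    · intro x
      apply Finset.sum_nonneg
      intro m _
      exact Set.indicator_nonneg (fun _ _ => zero_le_one) _
    · exact mul_pos (hζ i hi) hq0
    · rw [hf, integral_finsetSum _ fun m _ => hint m]
      have h1 : ∀ m : ℤ, ∫ x : UnitAddCircle,
          (B i).indicator (fun _ => (1 : ℝ)) (x + m • ((θ : ℝ) : UnitAddCircle)) ≤ mu i := by
        intro m
        rw [integral_shift ((B i).indicator (fun _ => (1 : ℝ))),
          integral_indicator (hB i hi), setIntegral_const, smul_eq_mul, mul_one]
        exact ENNReal.toReal_le_of_le_ofReal (hmu0 i hi) (hmu i hi)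
      calc ∑ m ∈ Finset.Icc (-(N : ℤ)) (q + N), ∫ x : UnitAddCircle,
            (B i).indicator (fun _ => (1 : ℝ)) (x + m • ((θ : ℝ) : UnitAddCircle))
          ≤ ∑ m ∈ Finset.Icc (-(N : ℤ)) (q + N), mu i := Finset.sum_le_sum fun m _ => h1 m
        _ = ((q + 2 * N + 1 : ℕ) : ℝ) * mu i := by
            rw [Finset.sum_const, Int.card_Icc, nsmul_eq_mul]
            congr 2
            omega
        _ ≤ (2 * q) * mu i := by
            apply mul_le_mul_of_nonneg_right _ (hmu0 i hi)
            have : q + 2 * N + 1 ≤ 2 * q := by omega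
            exact_mod_cast this
        _ = ζ i * q * (2 * mu i / ζ i) := by
            have := (hζ i hi).ne'
            field_simp
  have hsub : {x : UnitAddCircle | ∃ i ∈ s, ζ i * q <
      (((Finset.Icc (-(N : ℤ)) (q + N)).filter
        (fun m => x + m • ((θ : ℝ) : UnitAddCircle) ∈ B i)).card : ℝ)} ⊆
      ⋃ i ∈ s, {x : UnitAddCircle | ζ i * q < (((Finset.Icc (-(N : ℤ)) (q + N)).filter
        (fun m => x + m • ((θ : ℝ) : UnitAddCircle) ∈ B i)).card : ℝ)} := by
    intro x hx
    obtain ⟨i, hi, hx⟩ := hx
    exact Set.mem_biUnion hi hx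
  refine (measure_mono hsub).trans ((measure_biUnion_finset_le s _).trans ?_)
  rw [ENNReal.ofReal_sum_of_nonneg]
  · exact Finset.sum_le_sum hone
  · intro i hi
    exact div_nonneg (mul_nonneg zero_le_two (hmu0 i hi)) (hζ i hi).le

end Crest.Agent.R113.Transfer
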