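import Crest.Agent.R113.TransferDet
import Crest.Agent.R113.ErgL1

/-! Row 113, S0149, tasks T13 + T14: the transfer theorem. -/

set_option autoImplicit false
set_option linter.unusedSectionVars false

open MeasureTheory Filter Topology
open scoped InnerProductSpace ComplexConjugate

namespace Crest.Agent.R113.Transfer

section L2

lemma hasSum_sq (v : L2Z) : HasSum (fun k : ℤ => ‖v k‖ ^ 2) (‖v‖ ^ 2) := by
  have h1 := lp.norm_rpow_eq_tsum two_toReal_pos v
  have h2 := (lp.memℓp v).summable two_toReal_pos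
  have h3 : (2 : ENNReal).toReal = ((2 : ℕ) : ℝ) := by norm_num
  rw [h3] at h1 h2
  simp only [Real.rpow_natCast] at h1 h2
  rw [h1]
  exact h2.hasSum

lemma sum_sq_le (v : L2Z) (s : Finset ℤ) : ∑ k ∈ s, ‖v k‖ ^ 2 ≤ ‖v‖ ^ 2 :=
  sum_le_hasSum s (fun k _ => sq_nonneg _) (hasSum_sq v)

/-- tail mass of a vector of `ℓ²(ℤ)` off `(-R, R)` -/
noncomputable def tailv (v : L2Z) (R : ℕ) : ℝ :=
  ‖v‖ ^ 2 - ∑ d ∈ Finset.Ioo (-(R : ℤ)) R, ‖v d‖ ^ 2

lemma tailv_nonneg (v : L2Z) (R : ℕ) : 0 ≤ tailv v R := sub_nonneg.2 (sum_sq_le v _)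

lemma tailv_le (v : L2Z) (R : ℕ) : tailv v R ≤ ‖v‖ ^ 2 :=
  sub_le_self _ (Finset.sum_nonneg fun _ _ => sq_nonneg _)

lemma tailv_anti (v : L2Z) {R S : ℕ} (h : R ≤ S) : tailv v S ≤ tailv v R := by
  unfold tailv
  have : ∑ d ∈ Finset.Ioo (-(R : ℤ)) R, ‖v d‖ ^ 2 ≤ ∑ d ∈ Finset.Ioo (-(S : ℤ)) S, ‖v d‖ ^ 2 := by
    apply Finset.sum_le_sum_of_subset_of_nonneg
    · apply Finset.Ioo_subset_Ioo <;> omega
    · intro _ _ _; exact sq_nonneg _
  linarith

lemma tailv_tendsto (v : L2Z) : Tendsto (fun R : ℕ => tailv v R) atTop (𝓝 0) := by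
  have h1 : Tendsto (fun R : ℕ => Finset.Ioo (-(R : ℤ)) R) atTop atTop := by
    apply tendsto_atTop_finset_of_monotone
    · intro R S h
      apply Finset.Ioo_subset_Ioo <;> omega
    · intro k
      refine ⟨k.natAbs + 1, ?_⟩
      rw [Finset.mem_Ioo]; omega
  have h2 := (hasSum_sq v).comp h1
  have h3 := tendsto_const_nhds (x := ‖v‖ ^ 2) (f := (atTop : Filter ℕ)) |>.sub h2
  simpa [tailv] using h3

end L2

section Fib

variable {θ : ℝ} {F : UnitAddCircle → ℝ} {P : UnitAddCircle → (L2Z →L[ℂ] L2Z)}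

local notation "tt" => ((θ : ℝ) : UnitAddCircle)

lemma cov_nat (hP : Fibres θ F P) (x : UnitAddCircle) (n : ℕ) (m m' : ℤ) :
    (P (x + n • tt) (dz m') : ℤ → ℂ) m = (P x (dz (m' + n)) : ℤ → ℂ) (m + n) := by
  induction n generalizing m m' with
  | zero => simp
  | succ n ih =>
    have h1 : x + (n + 1) • tt = (x + n • tt) + tt := by rw [succ_nsmul, add_assoc]
    rw [h1, hP.cov, ih]
    have h2 : m' + 1 + (n : ℤ) = m' + ((n + 1 : ℕ) : ℤ) := by push_cast; ring
    have h3 : m + 1 + (n : ℤ) = m + ((n + 1 : ℕ) : ℤ) := by push_cast; ring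
    rw [h2, h3]

lemma cov_int (hP : Fibres θ F P) (x : UnitAddCircle) (k : ℤ) (m m' : ℤ) :
    (P (x + k • tt) (dz m') : ℤ → ℂ) m = (P x (dz (m' + k)) : ℤ → ℂ) (m + k) := by
  obtain ⟨n, rfl | rfl⟩ := k.eq_nat_or_neg
  · rw [natCast_zsmul]; exact cov_nat hP x n m m'
  · have h1 := cov_nat hP (x + (-(n : ℤ)) • tt) n (m + -(n : ℤ)) (m' + -(n : ℤ))
    have h2 : x + (-(n : ℤ)) • tt + n • tt = x := by
      rw [add_assoc, ← natCast_zsmul, ← add_smul]; simp
    rw [h2] at h1
    rw [h1, show m' + -(n : ℤ) + (n : ℤ) = m' by ring, show m + -(n : ℤ) + (n : ℤ) = m by ring]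

lemma normsq_eq_re (hP : Fibres θ F P) (x : UnitAddCircle) (m : ℤ) :
    ‖P x (dz m)‖ ^ 2 = ((P x (dz m) : ℤ → ℂ) m).re := by
  have h := proj_inner (hP.proj x) (dz m)
  rw [inner_dz] at h
  rw [h]; norm_cast

lemma normsq_shift (hP : Fibres θ F P) (x : UnitAddCircle) (k : ℤ) :
    ‖P (x + k • tt) (dz 0)‖ ^ 2 = ‖P x (dz k)‖ ^ 2 := by
  rw [normsq_eq_re hP, normsq_eq_re hP, cov_int hP]
  simp

lemma normsq_le_one (hP : Fibres θ F P) (x : UnitAddCircle) (m : ℤ) :
    ‖P x (dz m)‖ ^ 2 ≤ 1 := by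
  have := proj_sub_norm (hP.proj x) (dz m)
  rw [norm_dz] at this
  have h2 := sq_nonneg ‖dz m - P x (dz m)‖
  linarith

lemma meas_normsq (hP : Fibres θ F P) (m : ℤ) : Measurable fun x => ‖P x (dz m)‖ ^ 2 := by
  simp_rw [normsq_eq_re hP]
  exact Complex.measurable_re.comp (hP.meas m m)

lemma meas_entry (hP : Fibres θ F P) (m m' : ℤ) :
    Measurable fun x => ‖(P x (dz m') : ℤ → ℂ) m‖ ^ 2 :=
  ((hP.meas m m').norm).pow_const 2

/-- tail of the zeroth column -/
noncomputable def tl (P : UnitAddCircle → (L2Z →L[ℂ] L2Z)) (R : ℕ) (x : UnitAddCircle) : ℝ :=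
  tailv (P x (dz 0)) R

lemma tl_nonneg (R : ℕ) (x : UnitAddCircle) : 0 ≤ tl P R x := tailv_nonneg _ _

lemma tl_le_one (hP : Fibres θ F P) (R : ℕ) (x : UnitAddCircle) : tl P R x ≤ 1 :=
  (tailv_le _ _).trans (normsq_le_one hP x 0)

lemma tl_anti {R S : ℕ} (h : R ≤ S) (x : UnitAddCircle) : tl P S x ≤ tl P R x := tailv_anti _ h

lemma meas_tl (hP : Fibres θ F P) (R : ℕ) : Measurable (tl P R) := by
  unfold tl tailv
  exact (meas_normsq hP 0).sub (Finset.measurable_fun_sum _ fun d _ => meas_entry hP d 0)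

/-- tail of column `m` in terms of the tail at the shifted point -/
lemma tl_shift (hP : Fibres θ F P) (x : UnitAddCircle) (m : ℤ) (R : ℕ) :
    tl P R (x + m • tt) = ‖P x (dz m)‖ ^ 2 -
      ∑ d ∈ Finset.Ioo (-(R : ℤ)) R, ‖(P x (dz m) : ℤ → ℂ) (m + d)‖ ^ 2 := by
  unfold tl tailv
  rw [normsq_shift hP]
  congr 1
  apply Finset.sum_congr rfl
  intro d _
  rw [cov_int hP, zero_add, add_comm d m]

instance : IsProbabilityMeasure (volume : Measure UnitAddCircle) :=
  ⟨UnitAddCircle.measure_univ⟩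

lemma integrable_of_bdd {f : UnitAddCircle → ℝ} (hf : Measurable f) {C : ℝ} (h : ∀ x, |f x| ≤ C) :
    Integrable f := by
  apply Integrable.of_bound hf.aestronglyMeasurable C
  exact Eventually.of_forall fun x => by simpa using h x

lemma tl_integrable (hP : Fibres θ F P) (R : ℕ) : Integrable (tl P R) :=
  integrable_of_bdd (meas_tl hP R) (C := 1) fun x => by
    rw [abs_of_nonneg (tl_nonneg R x)]; exact tl_le_one hP R x

lemma tl_integral_tendsto (hP : Fibres θ F P) :
    Tendsto (fun R : ℕ => ∫ x, tl P R x) atTop (𝓝 0) := by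
  have h := tendsto_integral_of_dominated_convergence (μ := (volume : Measure UnitAddCircle))
    (F := fun R x => tl P R x) (f := fun _ => (0 : ℝ)) (fun _ => (1 : ℝ))
    (fun R => (meas_tl hP R).aestronglyMeasurable) (integrable_const _)
    (fun R => Eventually.of_forall fun x => by
      rw [Real.norm_eq_abs, abs_of_nonneg (tl_nonneg R x)]; exact tl_le_one hP R x)
    (Eventually.of_forall fun x => tailv_tendsto _)
  simpa using h

lemma integral_shift (f : UnitAddCircle → ℝ) (a : UnitAddCircle) :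
    ∫ x, f (x + a) = ∫ x, f x := integral_add_right_eq_self f a

/-- pointwise bound of the defect by tails -/
lemma defect_le (hP : Fibres θ F P) (x : UnitAddCircle) (q : ℕ) :
    defect (P x) q ≤ ∑ m : Fin q, tl P (min ((m : ℕ) + 1) (q - m)) (x + ((m : ℕ) : ℤ) • tt) := by
  unfold defect
  apply Finset.sum_le_sum
  intro m _
  rw [tl_shift hP]
  apply sub_le_sub_left
  have hm := m.2
  rw [Fin.sum_univ_eq_sum_range (fun k => ‖(P x (dz ((m : ℕ) : ℤ)) : ℤ → ℂ) ((k : ℕ) : ℤ)‖ ^ 2) q]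
  have h1 : ∑ d ∈ Finset.Ioo (-((min ((m : ℕ) + 1) (q - m) : ℕ) : ℤ))
        ((min ((m : ℕ) + 1) (q - m) : ℕ) : ℤ),
        ‖(P x (dz ((m : ℕ) : ℤ)) : ℤ → ℂ) (((m : ℕ) : ℤ) + d)‖ ^ 2 =
      ∑ k ∈ (Finset.Ioo (-((min ((m : ℕ) + 1) (q - m) : ℕ) : ℤ))
        ((min ((m : ℕ) + 1) (q - m) : ℕ) : ℤ)).image (fun d => (((m : ℕ) : ℤ) + d).toNat),
        ‖(P x (dz ((m : ℕ) : ℤ)) : ℤ → ℂ) ((k : ℕ) : ℤ)‖ ^ 2 := by
    rw [Finset.sum_image]
    · apply Finset.sum_congr rfl
      intro d hd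
      rw [Finset.mem_Ioo] at hd
      have : ((((m : ℕ) : ℤ) + d).toNat : ℤ) = ((m : ℕ) : ℤ) + d := by
        rw [Int.toNat_of_nonneg]; omega
      rw [this]
    · intro d hd d' hd' h
      simp only [Finset.coe_Ioo, Set.mem_Ioo] at hd hd'
      simp only at h
      omega
  rw [h1]
  apply Finset.sum_le_sum_of_subset_of_nonneg
  · intro k hk
    rw [Finset.mem_image] at hk
    obtain ⟨d, hd, rfl⟩ := hk
    rw [Finset.mem_Ioo] at hd
    rw [Finset.mem_range]
    omega
  · intro _ _ _; exact sq_nonneg _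

lemma meas_defect (hP : Fibres θ F P) (q : ℕ) : Measurable fun x => defect (P x) q := by
  unfold defect
  apply Finset.measurable_fun_sum
  intro m _
  exact (meas_normsq hP _).sub (Finset.measurable_fun_sum _ fun m' _ => meas_entry hP _ _)

lemma defect_nonneg (hP : Fibres θ F P) (x : UnitAddCircle) (q : ℕ) : 0 ≤ defect (P x) q := by
  unfold defect
  apply Finset.sum_nonneg
  intro m _
  rw [sub_nonneg]
  have : ∑ m' : Fin q, ‖(P x (dz ((m : ℕ) : ℤ)) : ℤ → ℂ) ((m' : ℕ) : ℤ)‖ ^ 2 =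
      ∑ k ∈ (Finset.univ : Finset (Fin q)).map ⟨fun m' : Fin q => ((m' : ℕ) : ℤ), fun a b h => by
        apply Fin.ext; simpa using h⟩, ‖(P x (dz ((m : ℕ) : ℤ)) : ℤ → ℂ) k‖ ^ 2 := by
    rw [Finset.sum_map]; rfl
  rw [this]
  exact sum_sq_le _ _

lemma defect_le_q (hP : Fibres θ F P) (x : UnitAddCircle) (q : ℕ) : defect (P x) q ≤ q := by
  unfold defect
  calc _ ≤ ∑ m : Fin q, (1 : ℝ) := by
        apply Finset.sum_le_sum
        intro m _
        have h1 := normsq_le_one hP x ((m : ℕ) : ℤ)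
        have h2 : 0 ≤ ∑ m' : Fin q, ‖(P x (dz ((m : ℕ) : ℤ)) : ℤ → ℂ) ((m' : ℕ) : ℤ)‖ ^ 2 :=
          Finset.sum_nonneg fun _ _ => sq_nonneg _
        linarith
    _ = q := by simp

lemma defect_integral (hP : Fibres θ F P) (δ : ℝ) (hδ : 0 < δ) :
    ∃ q0 : ℕ, ∀ q ≥ q0, ∫ x, defect (P x) q ≤ δ * q := by
  obtain ⟨R0, hR0⟩ := ((tl_integral_tendsto hP).eventually (gt_mem_nhds (half_pos hδ))).exists
  refine ⟨⌈4 * R0 / δ⌉₊, fun q hq => ?_⟩
  have hq' : 4 * (R0 : ℝ) ≤ δ * q := by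
    have h1 : 4 * R0 / δ ≤ (q : ℝ) := (Nat.le_ceil _).trans (by exact_mod_cast hq)
    rw [div_le_iff₀ hδ] at h1; linarith
  -- pointwise bound for the integral of each term
  have hterm : ∀ m : Fin q, ∫ x, tl P (min ((m : ℕ) + 1) (q - m)) (x + ((m : ℕ) : ℤ) • tt) ≤
      (if R0 ≤ min ((m : ℕ) + 1) (q - m) then δ / 2 else 1) := by
    intro m
    rw [integral_shift (tl P (min ((m : ℕ) + 1) (q - m)))]
    split_ifs with h
    · refine le_trans ?_ hR0.le
      exact integral_mono (tl_integrable hP _) (tl_integrable hP _) fun x => tl_anti h x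
    · calc ∫ x, tl P (min ((m : ℕ) + 1) (q - m)) x ≤ ∫ x : UnitAddCircle, (1 : ℝ) :=
            integral_mono (tl_integrable hP _) (integrable_const _) fun x => tl_le_one hP _ x
        _ = 1 := by simp
  have hint : ∀ m : Fin q, Integrable
      (fun x => tl P (min ((m : ℕ) + 1) (q - m)) (x + ((m : ℕ) : ℤ) • tt)) := by
    intro m
    apply integrable_of_bdd (C := 1)
    · exact (meas_tl hP _).comp (measurable_id.add_const _)
    · intro x; rw [abs_of_nonneg (tl_nonneg _ _)]; exact tl_le_one hP _ _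
  have hdint : Integrable fun x => defect (P x) q := by
    apply integrable_of_bdd (meas_defect hP q) (C := q)
    intro x
    rw [abs_of_nonneg (defect_nonneg hP x q)]
    exact defect_le_q hP x q
  calc ∫ x, defect (P x) q
      ≤ ∫ x, ∑ m : Fin q, tl P (min ((m : ℕ) + 1) (q - m)) (x + ((m : ℕ) : ℤ) • tt) :=
        integral_mono hdint (integrable_finsetSum _ fun m _ => hint m) fun x => defect_le hP x q
    _ = ∑ m : Fin q, ∫ x, tl P (min ((m : ℕ) + 1) (q - m)) (x + ((m : ℕ) : ℤ) • tt) :=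
        integral_finsetSum _ fun m _ => hint m
    _ ≤ ∑ m : Fin q, (if R0 ≤ min ((m : ℕ) + 1) (q - m) then δ / 2 else 1) :=
        Finset.sum_le_sum fun m _ => hterm m
    _ ≤ ∑ m : Fin q, (δ / 2 + (if R0 ≤ min ((m : ℕ) + 1) (q - m) then 0 else 1)) := by
        apply Finset.sum_le_sum
        intro m _
        split_ifs <;> linarith
    _ = δ / 2 * q + ∑ m : Fin q, (if R0 ≤ min ((m : ℕ) + 1) (q - m) then (0 : ℝ) else 1) := by
        rw [Finset.sum_add_distrib]; simp [mul_comm]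
    _ ≤ δ / 2 * q + 2 * R0 := by
        have h1 : ∑ m : Fin q, (if R0 ≤ min ((m : ℕ) + 1) (q - m) then (0 : ℝ) else 1) =
            ((Finset.univ.filter (fun m : Fin q => ¬ R0 ≤ min ((m : ℕ) + 1) (q - m))).card : ℝ) := by
          rw [Finset.card_filter]
          push_cast
          apply Finset.sum_congr rfl
          intro m _
          split_ifs <;> simp_all
        rw [h1]
        have h2 : (Finset.univ.filter (fun m : Fin q => ¬ R0 ≤ min ((m : ℕ) + 1) (q - m))).card ≤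
            2 * R0 := by
          have h3 : (Finset.univ.filter (fun m : Fin q => ¬ R0 ≤ min ((m : ℕ) + 1) (q - m))) ⊆
              (Finset.univ.filter (fun m : Fin q => (m : ℕ) < R0)) ∪
              (Finset.univ.filter (fun m : Fin q => q < (m : ℕ) + R0)) := by
            intro m hm
            simp only [Finset.mem_filter, Finset.mem_univ, true_and, Finset.mem_union] at hm ⊢
            omega
          refine (Finset.card_le_card h3).trans ((Finset.card_union_le _ _).trans ?_)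
          have h4 : (Finset.univ.filter (fun m : Fin q => (m : ℕ) < R0)).card ≤ R0 := by
            have : (Finset.univ.filter (fun m : Fin q => (m : ℕ) < R0)).card ≤
                (Finset.range R0).card := by
              apply Finset.card_le_card_of_injOn (fun m : Fin q => (m : ℕ))
              · intro m hm
                simpa using hm
              · intro a _ b _ h; exact Fin.ext h
            simpa using this
          have h5 : (Finset.univ.filter (fun m : Fin q => q < (m : ℕ) + R0)).card ≤ R0 := by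
            have : (Finset.univ.filter (fun m : Fin q => q < (m : ℕ) + R0)).card ≤
                (Finset.range R0).card := by
              apply Finset.card_le_card_of_injOn (fun m : Fin q => q - 1 - (m : ℕ))
              · intro m hm
                have hm' : q < (m : ℕ) + R0 := by simpa using hm
                have := m.2
                simp only [Finset.coe_range, Set.mem_Iio]
                omega
              · intro a _ b _ h
                have := a.2; have := b.2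
                apply Fin.ext
                simp only at h
                omega
            simpa using this
          omega
        have h6 : ((Finset.univ.filter
            (fun m : Fin q => ¬ R0 ≤ min ((m : ℕ) + 1) (q - m))).card : ℝ) ≤ 2 * R0 := by
          exact_mod_cast h2
        linarith
    _ ≤ δ * q := by linarith

lemma iter_rot (x : UnitAddCircle) (i : ℕ) :
    (fun y : UnitAddCircle => y + tt)^[i] x = x + ((i : ℕ) : ℤ) • tt := by
  induction i with
  | zero => simp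
  | succ i ih =>
    rw [Function.iterate_succ_apply', ih]
    push_cast
    rw [add_smul, one_smul, add_assoc]

lemma ergodic_rot (hθ : Irrational θ) : Ergodic (fun y : UnitAddCircle => y + tt) := by
  rw [AddCircle.ergodic_add_right]
  rw [addOrderOf_eq_zero_iff']
  intro n hn h
  rw [← AddCircle.coe_nsmul, AddCircle.coe_eq_zero_iff] at h
  obtain ⟨k, hk⟩ := h
  have hk' : (k : ℝ) = n * θ := by simpa using hk
  have hn0 : (n : ℝ) ≠ 0 := by exact_mod_cast hn.ne'
  have : θ = ((k : ℚ) / (n : ℚ) : ℚ) := by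
    push_cast
    rw [hk']; field_simp
  exact hθ ⟨_, this.symm⟩

/-- the diagonal function -/
noncomputable def hf (P : UnitAddCircle → (L2Z →L[ℂ] L2Z)) (x : UnitAddCircle) : ℝ :=
  ‖P x (dz 0)‖ ^ 2

lemma hf_meas (hP : Fibres θ F P) : Measurable (hf P) := meas_normsq hP 0

lemma hf_nonneg (x : UnitAddCircle) : 0 ≤ hf P x := sq_nonneg _

lemma hf_le_one (hP : Fibres θ F P) (x : UnitAddCircle) : hf P x ≤ 1 := normsq_le_one hP x 0

lemma hf_abs (hP : Fibres θ F P) (x : UnitAddCircle) : |hf P x| ≤ 1 := by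
  rw [abs_of_nonneg (hf_nonneg x)]; exact hf_le_one hP x

lemma hf_shift (hP : Fibres θ F P) (x : UnitAddCircle) (k : ℤ) :
    hf P (x + k • tt) = ‖P x (dz k)‖ ^ 2 := normsq_shift hP x k

/-- the ergodic average in `L¹` -/
lemma erg_avg (hθ : Irrational θ) (hP : Fibres θ F P) (ρ : ℝ) (hρ : ρ = ∫ x, hf P x)
    (δ : ℝ) (hδ : 0 < δ) : ∃ n0 : ℕ, ∀ n ≥ n0, ∀ a : UnitAddCircle,
      ∫ x, |∑ i ∈ Finset.range n, (hf P (x + a + ((i : ℕ) : ℤ) • tt) - ρ)| ≤ δ * n := by
  have h := l1_ergodic (ergodic_rot hθ) (hf P) (hf_meas hP) (hf_abs hP)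
  rw [← hρ] at h
  have h2 := h.eventually (gt_mem_nhds hδ)
  rw [eventually_atTop] at h2
  obtain ⟨n0, hn0⟩ := h2
  refine ⟨max n0 1, fun n hn a => ?_⟩
  have hn1 : 0 < n := lt_of_lt_of_le one_pos ((le_max_right _ _).trans hn)
  have hn1' : (0 : ℝ) < n := by exact_mod_cast hn1
  have h3 := hn0 n ((le_max_left _ _).trans hn)
  have h4 : ∫ x, |∑ i ∈ Finset.range n, (hf P (x + a + ((i : ℕ) : ℤ) • tt) - ρ)| =
      ∫ x, |∑ i ∈ Finset.range n, (hf P (x + ((i : ℕ) : ℤ) • tt) - ρ)| :=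
    integral_shift (fun x => |∑ i ∈ Finset.range n, (hf P (x + ((i : ℕ) : ℤ) • tt) - ρ)|) a
  have h5 : ∫ x, |∑ i ∈ Finset.range n, (hf P (x + ((i : ℕ) : ℤ) • tt) - ρ)| =
      n * ∫ x, |(∑ i ∈ Finset.range n, hf P ((fun y : UnitAddCircle => y + tt)^[i] x)) / n - ρ| := by
    rw [← integral_const_mul]
    congr 1
    funext x
    simp_rw [iter_rot]
    rw [Finset.sum_sub_distrib, Finset.sum_const, Finset.card_range, nsmul_eq_mul]
    rw [← abs_of_pos hn1', ← abs_mul, abs_of_pos hn1']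
    congr 1
    field_simp
  rw [h4, h5]
  have h6 := mul_le_mul_of_nonneg_left h3.le hn1'.le
  linarith

/-- comparison of entries -/
lemma norm_sq_le_two (a b : ℂ) : ‖a‖ ^ 2 ≤ 2 * ‖b‖ ^ 2 + 2 * ‖a - b‖ ^ 2 := by
  have h1 : ‖a‖ ≤ ‖b‖ + ‖a - b‖ := by
    have : a = b + (a - b) := by ring
    calc ‖a‖ = ‖b + (a - b)‖ := by rw [← this]
      _ ≤ _ := norm_add_le _ _
  nlinarith [sq_nonneg (‖b‖ - ‖a - b‖), norm_nonneg a, norm_nonneg b, norm_nonneg (a - b)]

/-- deterministic sufficient condition for `Good` -/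
lemma good_of (hF0 : ∀ x, 0 ≤ F x) (hF1 : ∀ x, F x ≤ 1) (hP : Fibres θ F P) (ρ η₁ : ℝ) (l' : ℕ)
    (η' : ℝ) (R : ℕ) (c : ℝ) (nstar : ℕ) (η : ℝ) (q : ℕ) (x : UnitAddCircle)
    (κ : ℝ) (hκη : κ ≤ η / 2) (hκη' : κ ≤ η' / 4) (hκη₁ : κ ≤ η₁ / 2)
    (ha : 2 * Real.exp (4 * max c 1) * defect (P x) q ≤ κ * q)
    (hb : |∑ i ∈ Finset.range q, (hf P (x + ((i : ℕ) : ℤ) • tt) - ρ)| ≤ η / 2 * q)
    (hc : ∑ m ∈ Finset.range q, tl P R (x + ((m : ℕ) : ℤ) • tt) ≤ η' / 4 * q)
    (hd : ∑ m ∈ Finset.range q, |∑ i ∈ Finset.range l',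
      (hf P (x + ((m : ℕ) : ℤ) • tt + ((i : ℕ) : ℤ) • tt) - ρ)| ≤ η₁ / 2 * l' * q)
    (hn : (nstar : ℝ) ≤ η / 2 * q) :
    Good θ F ρ η₁ l' η' R c nstar η q x := by
  have hw : ∀ j : ℤ, |F (x + j • tt)| ≤ 1 := fun j => by
    rw [abs_of_nonneg (hF0 _)]; exact hF1 _
  have hinv := hP.inv x (wsh (fun m => F (x + m • tt)) hw) (fun m => wsh_single m)
  obtain ⟨E, h1, h3, h5, h4⟩ := determ (hP.proj x) hinv q (max c 1) (le_max_right _ _)
  have hq0 : (0 : ℝ) ≤ q := Nat.cast_nonneg _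
  have hD0 := defect_nonneg hP x q
  have he24 : Real.exp (2 * max c 1) * defect (P x) q ≤ κ * q / 2 := by
    have : Real.exp (2 * max c 1) ≤ Real.exp (4 * max c 1) :=
      Real.exp_le_exp.2 (by have := le_max_right c 1; linarith)
    nlinarith
  have hκq : κ * q ≤ η / 2 * q := mul_le_mul_of_nonneg_right hκη hq0
  have hκq' : κ * q ≤ η' / 4 * q := mul_le_mul_of_nonneg_right hκη' hq0
  have hκq₁ : κ * q ≤ η₁ / 2 * q := mul_le_mul_of_nonneg_right hκη₁ hq0
  have he0 : 0 ≤ Real.exp (2 * max c 1) * defect (P x) q := mul_nonneg (Real.exp_pos _).le hD0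
  have hκ0 : 0 ≤ κ * q := by linarith
  have hcol : ∀ k : ℕ, ‖P x (dz (k : ℤ))‖ ^ 2 = hf P (x + ((k : ℕ) : ℤ) • tt) := fun k =>
    (hf_shift hP x k).symm
  refine ⟨E, ?_, ?_, ?_, ?_⟩
  · -- (E1)
    have h10 : ∑ m : Fin q, ‖P x (dz ((m : ℕ) : ℤ))‖ ^ 2 =
        ∑ i ∈ Finset.range q, hf P (x + ((i : ℕ) : ℤ) • tt) := by
      rw [Fin.sum_univ_eq_sum_range (fun k => ‖P x (dz ((k : ℕ) : ℤ))‖ ^ 2) q]
      exact Finset.sum_congr rfl fun k _ => hcol k
    rw [h10] at h1
    have h11 : ∑ i ∈ Finset.range q, (hf P (x + ((i : ℕ) : ℤ) • tt) - ρ) =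
        ∑ i ∈ Finset.range q, hf P (x + ((i : ℕ) : ℤ) • tt) - ρ * q := by
      rw [Finset.sum_sub_distrib, Finset.sum_const, Finset.card_range, nsmul_eq_mul]; ring
    rw [h11] at hb
    have h12 : (Module.finrank ℂ E : ℝ) - ρ * q =
        ((Module.finrank ℂ E : ℝ) - ∑ i ∈ Finset.range q, hf P (x + ((i : ℕ) : ℤ) • tt)) +
        (∑ i ∈ Finset.range q, hf P (x + ((i : ℕ) : ℤ) • tt) - ρ * q) := by ring
    rw [h12]
    refine (abs_add_le _ _).trans ?_
    linarith
  · -- (E3)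
    intro n hn'
    obtain ⟨E', hE'le, hE'dim, hE'⟩ := h3 n
    refine ⟨E', hE'le, ?_, ?_⟩
    · have hnn : (n : ℝ) ≤ nstar := by exact_mod_cast hn'
      linarith
    · intro v hv
      obtain ⟨h20, h21⟩ := hE' v hv
      refine ⟨h20, ?_⟩
      rw [shiftPow_eq]
      refine h21.trans ?_
      apply mul_le_mul_of_nonneg_right _ (norm_nonneg _)
      apply Real.exp_le_exp.2
      have := le_max_left c 1
      linarith
  · -- (E4)
    have h30 : ∀ m m' : Fin q, ‖⟪dlt m, E.starProjection (dlt m')⟫_ℂ‖ ^ 2 ≤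
        2 * ‖(P x (dz ((m' : ℕ) : ℤ)) : ℤ → ℂ) ((m : ℕ) : ℤ)‖ ^ 2 +
        2 * ‖⟪dlt m, E.starProjection (dlt m')⟫_ℂ -
          (P x (dz ((m' : ℕ) : ℤ)) : ℤ → ℂ) ((m : ℕ) : ℤ)‖ ^ 2 := fun m m' => norm_sq_le_two _ _
    -- mass of the columns off the band
    have h31 : ∀ m' : Fin q, ∑ m : Fin q, (if (R : ℤ) ≤ |((m : ℕ) : ℤ) - ((m' : ℕ) : ℤ)| then
        ‖(P x (dz ((m' : ℕ) : ℤ)) : ℤ → ℂ) ((m : ℕ) : ℤ)‖ ^ 2 else 0) ≤
        tl P R (x + ((m' : ℕ) : ℤ) • tt) := by
      intro m'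
      rw [tl_shift hP, le_sub_iff_add_le]
      rw [← Finset.sum_filter]
      have h32 : ∑ m ∈ Finset.univ.filter (fun m : Fin q =>
            (R : ℤ) ≤ |((m : ℕ) : ℤ) - ((m' : ℕ) : ℤ)|),
          ‖(P x (dz ((m' : ℕ) : ℤ)) : ℤ → ℂ) ((m : ℕ) : ℤ)‖ ^ 2 =
          ∑ k ∈ (Finset.univ.filter (fun m : Fin q =>
            (R : ℤ) ≤ |((m : ℕ) : ℤ) - ((m' : ℕ) : ℤ)|)).image (fun m : Fin q => ((m : ℕ) : ℤ)),
          ‖(P x (dz ((m' : ℕ) : ℤ)) : ℤ → ℂ) k‖ ^ 2 := by
        rw [Finset.sum_image]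
        intro a _ b _ hab
        apply Fin.ext
        simpa using hab
      have h33 : ∑ d ∈ Finset.Ioo (-(R : ℤ)) R,
          ‖(P x (dz ((m' : ℕ) : ℤ)) : ℤ → ℂ) (((m' : ℕ) : ℤ) + d)‖ ^ 2 =
          ∑ k ∈ (Finset.Ioo (-(R : ℤ)) R).image (fun d => ((m' : ℕ) : ℤ) + d),
          ‖(P x (dz ((m' : ℕ) : ℤ)) : ℤ → ℂ) k‖ ^ 2 := by
        rw [Finset.sum_image]
        intro a _ b _ hab
        simpa using hab
      rw [h32, h33, ← Finset.sum_union]
      · exact sum_sq_le _ _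
      · rw [Finset.disjoint_left]
        intro k hk hk'
        rw [Finset.mem_image] at hk hk'
        obtain ⟨m, hm, rfl⟩ := hk
        obtain ⟨d, hd, hd'⟩ := hk'
        rw [Finset.mem_filter] at hm
        rw [Finset.mem_Ioo] at hd
        have : |((m : ℕ) : ℤ) - ((m' : ℕ) : ℤ)| < R := by
          rw [abs_lt]; omega
        exact absurd hm.2 (not_le.2 this)
    calc ∑ m : Fin q, ∑ m' : Fin q, (if (R : ℤ) ≤ |((m : ℕ) : ℤ) - ((m' : ℕ) : ℤ)| then
          ‖⟪dlt m, E.starProjection (dlt m')⟫_ℂ‖ ^ 2 else 0)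
        ≤ ∑ m : Fin q, ∑ m' : Fin q, (2 * (if (R : ℤ) ≤ |((m : ℕ) : ℤ) - ((m' : ℕ) : ℤ)| then
          ‖(P x (dz ((m' : ℕ) : ℤ)) : ℤ → ℂ) ((m : ℕ) : ℤ)‖ ^ 2 else 0) +
          2 * ‖⟪dlt m, E.starProjection (dlt m')⟫_ℂ -
          (P x (dz ((m' : ℕ) : ℤ)) : ℤ → ℂ) ((m : ℕ) : ℤ)‖ ^ 2) := by
          apply Finset.sum_le_sum; intro m _
          apply Finset.sum_le_sum; intro m' _
          split_ifs
          · exact h30 m m'
          · have := sq_nonneg ‖⟪dlt m, E.starProjection (dlt m')⟫_ℂ -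
              (P x (dz ((m' : ℕ) : ℤ)) : ℤ → ℂ) ((m : ℕ) : ℤ)‖
            linarith
      _ = 2 * ∑ m' : Fin q, ∑ m : Fin q, (if (R : ℤ) ≤ |((m : ℕ) : ℤ) - ((m' : ℕ) : ℤ)| then
          ‖(P x (dz ((m' : ℕ) : ℤ)) : ℤ → ℂ) ((m : ℕ) : ℤ)‖ ^ 2 else 0) +
          2 * ∑ m' : Fin q, ∑ m : Fin q, ‖⟪dlt m, E.starProjection (dlt m')⟫_ℂ -
          (P x (dz ((m' : ℕ) : ℤ)) : ℤ → ℂ) ((m : ℕ) : ℤ)‖ ^ 2 := by
          rw [Finset.sum_comm]
          simp_rw [Finset.sum_add_distrib, ← Finset.mul_sum]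
      _ ≤ 2 * ∑ m' : Fin q, tl P R (x + ((m' : ℕ) : ℤ) • tt) +
          2 * (Real.exp (2 * max c 1) * defect (P x) q) := by
          apply add_le_add
          · apply mul_le_mul_of_nonneg_left _ zero_le_two
            exact Finset.sum_le_sum fun m' _ => h31 m'
          · apply mul_le_mul_of_nonneg_left h4 zero_le_two
      _ ≤ η' * q := by
          rw [Fin.sum_univ_eq_sum_range (fun k => tl P R (x + ((k : ℕ) : ℤ) • tt)) q]
          linarith
  · -- (E5)
    have hdg : ∀ k : ℕ, k < q → |hdiag E k - hf P (x + ((k : ℕ) : ℤ) • tt)| =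
        if h : k < q then |‖E.starProjection (dlt (⟨k, h⟩ : Fin q))‖ ^ 2 -
          ‖P x (dz ((k : ℕ) : ℤ))‖ ^ 2| else 0 := by
      intro k hk
      rw [dif_pos hk]
      unfold hdiag
      rw [dif_pos hk, hcol]
    have hsumdiag : ∑ k ∈ Finset.range q, |hdiag E k - hf P (x + ((k : ℕ) : ℤ) • tt)| ≤
        Real.exp (2 * max c 1) * defect (P x) q := by
      refine le_trans (le_of_eq ?_) h5
      rw [← Fin.sum_univ_eq_sum_range
        (fun k => |hdiag E k - hf P (x + ((k : ℕ) : ℤ) • tt)|) q]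
      apply Finset.sum_congr rfl
      intro m _
      rw [hdg m m.2, dif_pos m.2]
    have hterm : ∀ m ∈ Finset.range (q - l'), |∑ i ∈ Finset.range l', (hdiag E (m + i) - ρ)| ≤
        ∑ i ∈ Finset.range l', |hdiag E (m + i) - hf P (x + ((m + i : ℕ) : ℤ) • tt)| +
        |∑ i ∈ Finset.range l', (hf P (x + ((m : ℕ) : ℤ) • tt + ((i : ℕ) : ℤ) • tt) - ρ)| := by
      intro m _
      have h40 : ∑ i ∈ Finset.range l', (hdiag E (m + i) - ρ) =
          ∑ i ∈ Finset.range l', (hdiag E (m + i) - hf P (x + ((m + i : ℕ) : ℤ) • tt)) +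
          ∑ i ∈ Finset.range l', (hf P (x + ((m : ℕ) : ℤ) • tt + ((i : ℕ) : ℤ) • tt) - ρ) := by
        rw [← Finset.sum_add_distrib]
        apply Finset.sum_congr rfl
        intro i _
        have : x + ((m : ℕ) : ℤ) • tt + ((i : ℕ) : ℤ) • tt = x + ((m + i : ℕ) : ℤ) • tt := by
          push_cast; rw [add_smul, add_assoc]
        rw [this]; ring
      rw [h40]
      refine (abs_add_le _ _).trans ?_
      gcongr
      exact Finset.abs_sum_le_sum_abs _ _
    have hfirst : ∑ m ∈ Finset.range (q - l'), ∑ i ∈ Finset.range l',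
        |hdiag E (m + i) - hf P (x + ((m + i : ℕ) : ℤ) • tt)| ≤
        l' * (Real.exp (2 * max c 1) * defect (P x) q) := by
      rw [Finset.sum_comm]
      calc _ ≤ ∑ i ∈ Finset.range l', (Real.exp (2 * max c 1) * defect (P x) q) := by
            apply Finset.sum_le_sum
            intro i hi
            rw [Finset.mem_range] at hi
            refine le_trans ?_ hsumdiag
            have h41 : ∑ m ∈ Finset.range (q - l'),
                |hdiag E (m + i) - hf P (x + ((m + i : ℕ) : ℤ) • tt)| =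
                ∑ k ∈ (Finset.range (q - l')).image (fun m => m + i),
                |hdiag E k - hf P (x + ((k : ℕ) : ℤ) • tt)| := by
              rw [Finset.sum_image]
              intro a _ b _ hab
              simpa using hab
            rw [h41]
            apply Finset.sum_le_sum_of_subset_of_nonneg
            · intro k hk
              rw [Finset.mem_image] at hk
              obtain ⟨m, hm, rfl⟩ := hk
              rw [Finset.mem_range] at hm ⊢
              omega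
            · intro _ _ _; exact abs_nonneg _
        _ = _ := by rw [Finset.sum_const, Finset.card_range, nsmul_eq_mul]
    have hsecond : ∑ m ∈ Finset.range (q - l'),
        |∑ i ∈ Finset.range l', (hf P (x + ((m : ℕ) : ℤ) • tt + ((i : ℕ) : ℤ) • tt) - ρ)| ≤
        η₁ / 2 * l' * q := by
      refine le_trans ?_ hd
      apply Finset.sum_le_sum_of_subset_of_nonneg
      · intro m hm; rw [Finset.mem_range] at hm ⊢; omega
      · intro _ _ _; exact abs_nonneg _
    calc _ ≤ ∑ m ∈ Finset.range (q - l'), (∑ i ∈ Finset.range l',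
          |hdiag E (m + i) - hf P (x + ((m + i : ℕ) : ℤ) • tt)| +
          |∑ i ∈ Finset.range l', (hf P (x + ((m : ℕ) : ℤ) • tt + ((i : ℕ) : ℤ) • tt) - ρ)|) :=
          Finset.sum_le_sum hterm
      _ = _ := Finset.sum_add_distrib
      _ ≤ l' * (Real.exp (2 * max c 1) * defect (P x) q) + η₁ / 2 * l' * q :=
          add_le_add hfirst hsecond
      _ ≤ η₁ * l' * q := by
          have hl0 : (0 : ℝ) ≤ l' := Nat.cast_nonneg _
          have : (l' : ℝ) * (Real.exp (2 * max c 1) * defect (P x) q) ≤ l' * (η₁ / 2 * q) := by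
            apply mul_le_mul_of_nonneg_left _ hl0
            linarith
          nlinarith

end Fib

/-- T13 + T14: the transfer theorem. -/
theorem transfer : S_Transfer := by
  intro θ hθ F hF0 hF1 P hP ρ hρ ε hε η₁ hη₁
  have hρ' : ρ = ∫ x, hf P x := hρ
  have hε4 : 0 < ε / 4 := by linarith
  -- choice of l0
  obtain ⟨l0, hl0⟩ := erg_avg hθ hP ρ hρ' (η₁ / 2 * (ε / 4)) (by positivity)
  refine ⟨max l0 1, fun l' hl' η' hη' => ?_⟩
  have hl1 : 1 ≤ l' := (le_max_right _ _).trans hl'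
  have hl1' : (0 : ℝ) < l' := by exact_mod_cast hl1
  have hl0' := hl0 l' ((le_max_left _ _).trans hl')
  -- choice of R
  obtain ⟨R, hR⟩ := ((tl_integral_tendsto hP).eventually
    (gt_mem_nhds (show 0 < η' / 4 * (ε / 4) by positivity))).exists
  refine ⟨R, fun c nstar η hη => ?_⟩
  set κ : ℝ := min (η / 2) (min (η' / 4) (η₁ / 2)) with hκ
  have hκ0 : 0 < κ := by
    rw [hκ]; apply lt_min; · linarith
    apply lt_min <;> linarith
  have hκ1 : κ ≤ η / 2 := min_le_left _ _
  have hκ2 : κ ≤ η' / 4 := (min_le_right _ _).trans (min_le_left _ _)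
  have hκ3 : κ ≤ η₁ / 2 := (min_le_right _ _).trans (min_le_right _ _)
  set C : ℝ := 2 * Real.exp (4 * max c 1) with hC
  have hC0 : 0 < C := by positivity
  obtain ⟨q1, hq1⟩ := defect_integral hP (κ * (ε / 4) / C) (by positivity)
  obtain ⟨q2, hq2⟩ := erg_avg hθ hP ρ hρ' (η / 2 * (ε / 4)) (by positivity)
  refine ⟨max (max q1 q2) (max (⌈(nstar : ℝ) / (η / 2)⌉₊) 1), fun q hq => ?_⟩
  have hqq1 : q1 ≤ q := ((le_max_left _ _).trans (le_max_left _ _)).trans hq
  have hqq2 : q2 ≤ q := ((le_max_right _ _).trans (le_max_left _ _)).trans hq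
  have hqq3 : ⌈(nstar : ℝ) / (η / 2)⌉₊ ≤ q := ((le_max_left _ _).trans (le_max_right _ _)).trans hq
  have hqq4 : 1 ≤ q := ((le_max_right _ _).trans (le_max_right _ _)).trans hq
  have hq0 : (0 : ℝ) < q := by exact_mod_cast hqq4
  have hnst : (nstar : ℝ) ≤ η / 2 * q := by
    have h1 : (nstar : ℝ) / (η / 2) ≤ q := (Nat.le_ceil _).trans (by exact_mod_cast hqq3)
    rw [div_le_iff₀ (by linarith)] at h1; linarith
  -- the four exceptional sets
  set A1 : Set UnitAddCircle := {x | κ * q < C * defect (P x) q} with hA1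
  set A2 : Set UnitAddCircle := {x | η / 2 * q < |∑ i ∈ Finset.range q,
    (hf P (x + ((i : ℕ) : ℤ) • ((θ : ℝ) : UnitAddCircle)) - ρ)|} with hA2
  set A3 : Set UnitAddCircle := {x | η' / 4 * q < ∑ m ∈ Finset.range q,
    tl P R (x + ((m : ℕ) : ℤ) • ((θ : ℝ) : UnitAddCircle))} with hA3
  set A4 : Set UnitAddCircle := {x | η₁ / 2 * l' * q < ∑ m ∈ Finset.range q,
    |∑ i ∈ Finset.range l', (hf P (x + ((m : ℕ) : ℤ) • ((θ : ℝ) : UnitAddCircle) +
      ((i : ℕ) : ℤ) • ((θ : ℝ) : UnitAddCircle)) - ρ)|} with hA4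
  have hsub : {x : UnitAddCircle | ¬ Good θ F ρ η₁ l' η' R c nstar η q x} ⊆
      (A1 ∪ A2) ∪ (A3 ∪ A4) := by
    intro x hx
    by_contra hcon
    simp only [Set.mem_union, not_or] at hcon
    obtain ⟨⟨h1, h2⟩, h3, h4⟩ := hcon
    apply hx
    exact good_of hF0 hF1 hP ρ η₁ l' η' R c nstar η q x κ hκ1 hκ2 hκ3
      (not_lt.1 h1) (not_lt.1 h2) (not_lt.1 h3) (not_lt.1 h4) hnst
  -- measurability facts
  have hrot : ∀ k : ℤ, Measurable fun x : UnitAddCircle => x + k • ((θ : ℝ) : UnitAddCircle) :=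
    fun k => measurable_id.add_const _
  have hm1 : volume A1 ≤ ENNReal.ofReal (ε / 4) := by
    apply markov (f := fun x => C * defect (P x) q)
    · apply integrable_of_bdd ((meas_defect hP q).const_mul C) (C := C * q)
      intro x
      rw [abs_of_nonneg (mul_nonneg hC0.le (defect_nonneg hP x q))]
      exact mul_le_mul_of_nonneg_left (defect_le_q hP x q) hC0.le
    · intro x; exact mul_nonneg hC0.le (defect_nonneg hP x q)
    · positivity
    · rw [integral_const_mul]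
      have := mul_le_mul_of_nonneg_left (hq1 q hqq1) hC0.le
      refine this.trans (le_of_eq ?_)
      field_simp
  have hsumabs : ∀ (n : ℕ) (a : UnitAddCircle) (x : UnitAddCircle),
      |∑ i ∈ Finset.range n, (hf P (x + a + ((i : ℕ) : ℤ) • ((θ : ℝ) : UnitAddCircle)) - ρ)| ≤
        n * (1 + |ρ|) := by
    intro n a x
    refine (Finset.abs_sum_le_sum_abs _ _).trans ?_
    calc _ ≤ ∑ i ∈ Finset.range n, (1 + |ρ|) := by
          apply Finset.sum_le_sum
          intro i _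
          refine (abs_sub _ _).trans ?_
          have := hf_abs hP (x + a + ((i : ℕ) : ℤ) • ((θ : ℝ) : UnitAddCircle))
          linarith
      _ = _ := by rw [Finset.sum_const, Finset.card_range, nsmul_eq_mul]
  have hmsum : ∀ (n : ℕ) (a : UnitAddCircle), Measurable fun x : UnitAddCircle =>
      |∑ i ∈ Finset.range n, (hf P (x + a + ((i : ℕ) : ℤ) • ((θ : ℝ) : UnitAddCircle)) - ρ)| := by
    intro n a
    apply Measurable.abs
    apply Finset.measurable_fun_sum
    intro i _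
    apply Measurable.sub_const
    exact (hf_meas hP).comp ((measurable_id.add_const a).add_const _)
  have hintsum : ∀ (n : ℕ) (a : UnitAddCircle), Integrable fun x : UnitAddCircle =>
      |∑ i ∈ Finset.range n, (hf P (x + a + ((i : ℕ) : ℤ) • ((θ : ℝ) : UnitAddCircle)) - ρ)| := by
    intro n a
    apply integrable_of_bdd (hmsum n a) (C := n * (1 + |ρ|))
    intro x
    rw [abs_abs]; exact hsumabs n a x
  have hm2 : volume A2 ≤ ENNReal.ofReal (ε / 4) := by
    have h0 := hintsum q 0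
    simp only [add_zero] at h0
    apply markov (f := fun x => |∑ i ∈ Finset.range q,
      (hf P (x + ((i : ℕ) : ℤ) • ((θ : ℝ) : UnitAddCircle)) - ρ)|) h0
    · intro x; exact abs_nonneg _
    · positivity
    · have := hq2 q hqq2 0
      simp only [add_zero] at this
      refine this.trans (le_of_eq ?_)
      ring
  have hm3 : volume A3 ≤ ENNReal.ofReal (ε / 4) := by
    have hint : ∀ m : ℕ, Integrable fun x : UnitAddCircle =>
        tl P R (x + ((m : ℕ) : ℤ) • ((θ : ℝ) : UnitAddCircle)) := by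
      intro m
      apply integrable_of_bdd (C := 1)
      · exact (meas_tl hP _).comp (hrot _)
      · intro x; rw [abs_of_nonneg (tl_nonneg _ _)]; exact tl_le_one hP _ _
    apply markov (f := fun x => ∑ m ∈ Finset.range q,
      tl P R (x + ((m : ℕ) : ℤ) • ((θ : ℝ) : UnitAddCircle)))
    · exact integrable_finsetSum _ fun m _ => hint m
    · intro x; exact Finset.sum_nonneg fun m _ => tl_nonneg _ _
    · positivity
    · rw [integral_finsetSum _ fun m _ => hint m]
      calc ∑ m ∈ Finset.range q, ∫ x, tl P R (x + ((m : ℕ) : ℤ) • ((θ : ℝ) : UnitAddCircle))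
          = ∑ m ∈ Finset.range q, ∫ x, tl P R x := by
            apply Finset.sum_congr rfl
            intro m _
            exact integral_shift (tl P R) _
        _ = q * ∫ x, tl P R x := by rw [Finset.sum_const, Finset.card_range, nsmul_eq_mul]
        _ ≤ q * (η' / 4 * (ε / 4)) := mul_le_mul_of_nonneg_left hR.le hq0.le
        _ = η' / 4 * q * (ε / 4) := by ring
  have hm4 : volume A4 ≤ ENNReal.ofReal (ε / 4) := by
    apply markov (f := fun x => ∑ m ∈ Finset.range q,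
      |∑ i ∈ Finset.range l', (hf P (x + ((m : ℕ) : ℤ) • ((θ : ℝ) : UnitAddCircle) +
        ((i : ℕ) : ℤ) • ((θ : ℝ) : UnitAddCircle)) - ρ)|)
    · exact integrable_finsetSum _ fun m _ => hintsum l' _
    · intro x; exact Finset.sum_nonneg fun m _ => abs_nonneg _
    · positivity
    · rw [integral_finsetSum _ fun m _ => hintsum l' _]
      calc ∑ m ∈ Finset.range q, ∫ x, |∑ i ∈ Finset.range l',
            (hf P (x + ((m : ℕ) : ℤ) • ((θ : ℝ) : UnitAddCircle) +
              ((i : ℕ) : ℤ) • ((θ : ℝ) : UnitAddCircle)) - ρ)|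
          ≤ ∑ m ∈ Finset.range q, (η₁ / 2 * (ε / 4) * l') :=
            Finset.sum_le_sum fun m _ => hl0' _
        _ = q * (η₁ / 2 * (ε / 4) * l') := by
            rw [Finset.sum_const, Finset.card_range, nsmul_eq_mul]
        _ = η₁ / 2 * l' * q * (ε / 4) := by ring
        _ ≤ _ := le_refl _
  calc volume {x : UnitAddCircle | ¬ Good θ F ρ η₁ l' η' R c nstar η q x}
      ≤ volume ((A1 ∪ A2) ∪ (A3 ∪ A4)) := measure_mono hsub
    _ ≤ (volume A1 + volume A2) + (volume A3 + volume A4) :=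
        (measure_union_le _ _).trans (add_le_add (measure_union_le _ _) (measure_union_le _ _))
    _ ≤ (ENNReal.ofReal (ε / 4) + ENNReal.ofReal (ε / 4)) +
        (ENNReal.ofReal (ε / 4) + ENNReal.ofReal (ε / 4)) :=
        add_le_add (add_le_add hm1 hm2) (add_le_add hm3 hm4)
    _ = ENNReal.ofReal ε := by
        rw [← ENNReal.ofReal_add hε4.le hε4.le, ← ENNReal.ofReal_add (by linarith) (by linarith)]
        congr 1; ring

end Crest.Agent.R113.Transfer
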