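import Crest.Agent.R113.GlueMain
import Crest.Agent.R113.TransferMain
import Crest.Agent.R113.TransferCounts
import Crest.Agent.R113.Circ.Main
import Crest.Agent.R113.Fib.SFib

/-! # Row 113: S0149 from the finite dimensional theorem -/

set_option autoImplicit false

namespace Crest.Agent.R113

open MeasureTheory

theorem s0149_of_fd (hFD : S_FD) (θ : ℝ) (hθ : Irrational θ) :
    ∃ f : ℂ → ℝ, Continuous f ∧ (∀ z : ℂ, ‖z‖ = 1 → 0 ≤ f z ∧ f z ≤ 1) ∧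
      (∀ z : ℂ, ‖z‖ = 1 → (f z = 0 ↔ z = 1)) ∧
      (∫⁻ t in Set.Ioc (0 : ℝ) (2 * Real.pi),
          ENNReal.ofReal (- Real.log (f (Complex.exp ((t : ℂ) * Complex.I)))) = ⊤) ∧
      ∀ U V : lp (fun _ : ℤ × ℤ => ℂ) 2 →L[ℂ] lp (fun _ : ℤ × ℤ => ℂ) 2,
        Crest.AnalysisR.RotationRep.IsRotationPair θ U V →
        ∀ p : lp (fun _ : ℤ × ℤ => ℂ) 2 →L[ℂ] lp (fun _ : ℤ × ℤ => ℂ) 2,
          p ∈ Crest.AnalysisR.RotationRep.vonNeumannGenerated {U, V} → IsStarProjection p →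
          (1 - p) * (U * cfc (fun z : ℂ => (f z : ℂ)) V) * p = 0 → p = 0 ∨ p = 1 :=
  s0149_of hFD Transfer.transfer Transfer.counts Circ.exists_design s_fibres θ hθ

end Crest.Agent.R113
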