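import Mathlib

/-! Row 113, S0149, task T13: linear algebra of spectral subspaces of compressions. -/

set_option autoImplicit false
set_option linter.unusedSectionVars false

open scoped InnerProductSpace ComplexConjugate

namespace Crest.Agent.R113.Transfer

section Span

variable {V : Type*} [NormedAddCommGroup V] [InnerProductSpace ℂ V]
variable {ι : Type*} [Fintype ι] [DecidableEq ι]

/-- span of the members of an orthonormal basis indexed by `S` -/
noncomputable def spanSet (b : OrthonormalBasis ι ℂ V) (S : Finset ι) : Submodule ℂ V :=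
  Submodule.span ℂ (b '' (S : Set ι))

variable (b : OrthonormalBasis ι ℂ V) (S : Finset ι)

instance : FiniteDimensional ℂ (spanSet b S) := by
  have : (b '' (S : Set ι)).Finite := S.finite_toSet.image _
  exact FiniteDimensional.span_of_finite ℂ this

lemma mem_spanSet_of_mem {i : ι} (hi : i ∈ S) : b i ∈ spanSet b S :=
  Submodule.subset_span ⟨i, hi, rfl⟩

lemma spanSet_mono {S S' : Finset ι} (h : S ⊆ S') : spanSet b S ≤ spanSet b S' := by
  apply Submodule.span_mono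
  exact Set.image_mono (by exact_mod_cast h)

lemma finrank_spanSet : Module.finrank ℂ (spanSet b S) = S.card := by
  classical
  have hli : LinearIndependent ℂ (fun i : S => b (i : ι)) := by
    have := b.orthonormal.linearIndependent
    exact this.comp _ Subtype.val_injective
  have h := finrank_span_eq_card hli
  have hr : Set.range (fun i : S => b (i : ι)) = b '' (S : Set ι) := by
    ext v; constructor
    · rintro ⟨i, rfl⟩; exact ⟨i, i.2, rfl⟩
    · rintro ⟨i, hi, rfl⟩; exact ⟨⟨i, hi⟩, rfl⟩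
  have h2 : Module.finrank ℂ (Submodule.span ℂ (b '' (S : Set ι))) = Fintype.card S := by
    rw [← hr]; exact h
  rw [show Module.finrank ℂ (spanSet b S) =
    Module.finrank ℂ (Submodule.span ℂ (b '' (S : Set ι))) from rfl, h2]
  simp

lemma inner_eq_zero_of_mem_spanSet {v : V} (hv : v ∈ spanSet b S) {i : ι} (hi : i ∉ S) :
    ⟪b i, v⟫_ℂ = 0 := by
  refine Submodule.span_induction (p := fun v _ => ⟪b i, v⟫_ℂ = 0) ?_ ?_ ?_ ?_ hv
  · rintro x ⟨j, hj, rfl⟩
    have hij : i ≠ j := fun h => hi (by rw [h]; exact_mod_cast hj)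
    exact b.orthonormal.2 hij
  · simp
  · intro x y _ _ hx hy; rw [inner_add_right, hx, hy, add_zero]
  · intro a x _ hx; rw [inner_smul_right, hx, mul_zero]

lemma starProjection_spanSet (v : V) :
    (spanSet b S).starProjection v = ∑ i ∈ S, ⟪b i, v⟫_ℂ • b i := by
  apply Submodule.eq_starProjection_of_mem_of_inner_eq_zero
  · exact Submodule.sum_mem _ fun i hi => Submodule.smul_mem _ _ (mem_spanSet_of_mem b S hi)
  · intro w hw
    have hw' : w = ∑ i ∈ S, ⟪b i, w⟫_ℂ • b i := by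
      conv_lhs => rw [← b.sum_repr' w]
      rw [← Finset.sum_subset (Finset.subset_univ S)]
      intro i _ hi
      rw [inner_eq_zero_of_mem_spanSet b S hw hi, zero_smul]
    rw [hw', inner_sum]
    apply Finset.sum_eq_zero
    intro i hi
    rw [inner_smul_right, inner_sub_left, sum_inner]
    have : ∑ j ∈ S, ⟪⟪b j, v⟫_ℂ • b j, b i⟫_ℂ = ⟪v, b i⟫_ℂ := by
      rw [Finset.sum_eq_single i]
      · rw [inner_smul_left, inner_self_eq_norm_sq_to_K, b.orthonormal.1 i]
        simp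
      · intro j _ hji
        rw [inner_smul_left, b.orthonormal.2 hji, mul_zero]
      · intro h; exact absurd hi h
    rw [this, sub_self, mul_zero]

lemma norm_sq_eq_sum (v : V) : ‖v‖ ^ 2 = ∑ i, ‖⟪b i, v⟫_ℂ‖ ^ 2 :=
  (b.sum_sq_norm_inner_right v).symm

lemma inner_starProjection_spanSet (v : V) (i : ι) :
    ⟪b i, (spanSet b S).starProjection v⟫_ℂ = if i ∈ S then ⟪b i, v⟫_ℂ else 0 := by
  rw [starProjection_spanSet, inner_sum]
  split_ifs with hi
  · rw [Finset.sum_eq_single i]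
    · rw [inner_smul_right, inner_self_eq_norm_sq_to_K, b.orthonormal.1 i]; simp
    · intro j _ hji
      rw [inner_smul_right, b.orthonormal.2 (Ne.symm hji), mul_zero]
    · intro h; exact absurd hi h
  · apply Finset.sum_eq_zero
    intro j hj
    have : i ≠ j := fun h => hi (h ▸ hj)
    rw [inner_smul_right, b.orthonormal.2 this, mul_zero]

lemma norm_starProjection_sq (v : V) :
    ‖(spanSet b S).starProjection v‖ ^ 2 = ∑ i ∈ S, ‖⟪b i, v⟫_ℂ‖ ^ 2 := by
  rw [norm_sq_eq_sum b]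
  simp_rw [inner_starProjection_spanSet]
  rw [← Finset.sum_subset (Finset.subset_univ S)]
  · apply Finset.sum_congr rfl; intro i hi; simp [hi]
  · intro i _ hi; simp [hi]

lemma norm_sub_starProjection_sq (v : V) :
    ‖v - (spanSet b S).starProjection v‖ ^ 2 = ∑ i ∈ Sᶜ, ‖⟪b i, v⟫_ℂ‖ ^ 2 := by
  rw [norm_sq_eq_sum b]
  simp_rw [inner_sub_right, inner_starProjection_spanSet]
  rw [← Finset.sum_subset (Finset.subset_univ Sᶜ)]
  · apply Finset.sum_congr rfl; intro i hi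
    have : i ∉ S := by simpa using hi
    simp [this]
  · intro i _ hi
    have : i ∈ S := by simpa using hi
    simp [this]

end Span

section Spectral

variable {V : Type*} [NormedAddCommGroup V] [InnerProductSpace ℂ V]
variable {ι κ : Type*} [Fintype ι] [DecidableEq ι] [Fintype κ]

/-- For `B` diagonal in the orthonormal basis `b` with real eigenvalues, the Hilbert-Schmidt
norm in another orthonormal basis. -/
lemma sum_norm_sq_diag (b : OrthonormalBasis ι ℂ V) (e : OrthonormalBasis κ ℂ V)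
    (B : V →ₗ[ℂ] V) (mu : ι → ℝ) (hB : ∀ i, B (b i) = (mu i : ℂ) • b i)
    (hsym : ∀ v w, ⟪B v, w⟫_ℂ = ⟪v, B w⟫_ℂ) :
    ∑ m, ‖B (e m)‖ ^ 2 = ∑ i, mu i ^ 2 := by
  have h1 : ∀ m, ‖B (e m)‖ ^ 2 = ∑ i, mu i ^ 2 * ‖⟪b i, e m⟫_ℂ‖ ^ 2 := by
    intro m
    rw [norm_sq_eq_sum b]
    apply Finset.sum_congr rfl
    intro i _
    rw [← hsym, hB, inner_smul_left, norm_mul, mul_pow]
    simp
  simp_rw [h1]
  rw [Finset.sum_comm]
  apply Finset.sum_congr rfl
  intro i _
  rw [← Finset.mul_sum]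
  have : ∑ m, ‖⟪b i, e m⟫_ℂ‖ ^ 2 = 1 := by
    have := e.sum_sq_norm_inner_left (b i)
    rw [this, b.orthonormal.1 i]; norm_num
  rw [this, mul_one]

lemma inner_diag (b : OrthonormalBasis ι ℂ V)
    (B : V →ₗ[ℂ] V) (mu : ι → ℝ) (hB : ∀ i, B (b i) = (mu i : ℂ) • b i)
    (hsym : ∀ v w, ⟪B v, w⟫_ℂ = ⟪v, B w⟫_ℂ) (v : V) :
    (⟪v, B v⟫_ℂ).re = ∑ i, mu i * ‖⟪b i, v⟫_ℂ‖ ^ 2 := by
  have h := b.sum_inner_mul_inner v (B v)
  rw [← h, Complex.re_sum]
  apply Finset.sum_congr rfl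
  intro i _
  rw [← hsym, hB, inner_smul_left, Complex.conj_ofReal, mul_left_comm, Complex.re_ofReal_mul]
  congr 1
  rw [← inner_conj_symm v (b i), ← Complex.normSq_eq_conj_mul_self, Complex.ofReal_re,
    Complex.normSq_eq_norm_sq]

lemma sum_abs_inner_diag (b : OrthonormalBasis ι ℂ V) (e : OrthonormalBasis κ ℂ V)
    (B : V →ₗ[ℂ] V) (mu : ι → ℝ) (hB : ∀ i, B (b i) = (mu i : ℂ) • b i)
    (hsym : ∀ v w, ⟪B v, w⟫_ℂ = ⟪v, B w⟫_ℂ) :
    ∑ m, |(⟪e m, B (e m)⟫_ℂ).re| ≤ ∑ i, |mu i| := by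
  have h1 : ∀ m, |(⟪e m, B (e m)⟫_ℂ).re| ≤ ∑ i, |mu i| * ‖⟪b i, e m⟫_ℂ‖ ^ 2 := by
    intro m
    rw [inner_diag b B mu hB hsym]
    refine (Finset.abs_sum_le_sum_abs _ _).trans (le_of_eq ?_)
    apply Finset.sum_congr rfl
    intro i _
    rw [abs_mul, abs_of_nonneg (sq_nonneg ‖⟪b i, e m⟫_ℂ‖)]
  refine (Finset.sum_le_sum fun m _ => h1 m).trans ?_
  rw [Finset.sum_comm]
  apply Finset.sum_le_sum
  intro i _
  rw [← Finset.mul_sum]
  have : ∑ m, ‖⟪b i, e m⟫_ℂ‖ ^ 2 = 1 := by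
    have := e.sum_sq_norm_inner_left (b i)
    rw [this, b.orthonormal.1 i]; norm_num
  rw [this, mul_one]

lemma sum_inner_diag (b : OrthonormalBasis ι ℂ V) (e : OrthonormalBasis κ ℂ V)
    (B : V →ₗ[ℂ] V) (mu : ι → ℝ) (hB : ∀ i, B (b i) = (mu i : ℂ) • b i)
    (hsym : ∀ v w, ⟪B v, w⟫_ℂ = ⟪v, B w⟫_ℂ) :
    ∑ m, (⟪e m, B (e m)⟫_ℂ).re = ∑ i, mu i := by
  have h1 : ∀ m, (⟪e m, B (e m)⟫_ℂ).re = ∑ i, mu i * ‖⟪b i, e m⟫_ℂ‖ ^ 2 := by
    intro m
    rw [inner_diag b B mu hB hsym]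
  simp_rw [h1]
  rw [Finset.sum_comm]
  apply Finset.sum_congr rfl
  intro i _
  rw [← Finset.mul_sum]
  have : ∑ m, ‖⟪b i, e m⟫_ℂ‖ ^ 2 = 1 := by
    have := e.sum_sq_norm_inner_left (b i)
    rw [this, b.orthonormal.1 i]; norm_num
  rw [this, mul_one]

/-- the numerical core of the spectral comparison -/
lemma lam_bound {lam t : ℝ} (h0 : 0 ≤ lam) (h1 : lam ≤ 1) (ht : 1 / 2 ≤ t) (ht1 : t < 1) :
    |(if t ≤ lam then 1 else 0) - lam| ≤ lam * (1 - lam) / (1 - t) := by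
  have h1t : 0 < 1 - t := by linarith
  rw [le_div_iff₀ h1t]
  split_ifs with h
  · rw [abs_of_nonneg (by linarith)]
    nlinarith
  · push Not at h
    rw [zero_sub, abs_neg, abs_of_nonneg h0]
    nlinarith

/-- Spectral subspaces of a symmetric `A` with `0 ≤ A ≤ 1`. -/
theorem spectral_exists [FiniteDimensional ℂ V] (e : OrthonormalBasis κ ℂ V)
    (A : V →ₗ[ℂ] V) (hsym : A.IsSymmetric)
    (h0 : ∀ v, 0 ≤ (⟪v, A v⟫_ℂ).re) (h1 : ∀ v, (⟪v, A v⟫_ℂ).re ≤ ‖v‖ ^ 2)
    (t t' : ℝ) (ht : 1 / 2 ≤ t) (htt' : t ≤ t') (ht' : t' < 1) :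
    ∃ E E1 : Submodule ℂ V, E1 ≤ E ∧
      (∀ v ∈ E1, t' * ‖v‖ ^ 2 ≤ (⟪v, A v⟫_ℂ).re) ∧
      (∀ g, (1 - t) * ‖g - E.starProjection g‖ ^ 2 ≤ ‖g‖ ^ 2 - (⟪g, A g⟫_ℂ).re) ∧
      ((Module.finrank ℂ E : ℝ) - Module.finrank ℂ E1) * (t * (1 - t')) ≤
        ∑ m, ((⟪e m, A (e m)⟫_ℂ).re - ‖A (e m)‖ ^ 2) ∧
      |(Module.finrank ℂ E : ℝ) - ∑ m, (⟪e m, A (e m)⟫_ℂ).re| ≤
        (∑ m, ((⟪e m, A (e m)⟫_ℂ).re - ‖A (e m)‖ ^ 2)) / (1 - t) ∧
      ∑ m, |‖E.starProjection (e m)‖ ^ 2 - (⟪e m, A (e m)⟫_ℂ).re| ≤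
        (∑ m, ((⟪e m, A (e m)⟫_ℂ).re - ‖A (e m)‖ ^ 2)) / (1 - t) ∧
      ∑ m, ‖E.starProjection (e m) - A (e m)‖ ^ 2 ≤
        (∑ m, ((⟪e m, A (e m)⟫_ℂ).re - ‖A (e m)‖ ^ 2)) / (1 - t) := by
  classical
  set b := hsym.eigenvectorBasis rfl with hb
  set lam := hsym.eigenvalues rfl with hlam
  have hAb : ∀ i, A (b i) = (lam i : ℂ) • b i := fun i => hsym.apply_eigenvectorBasis rfl i
  have hs : ∀ v w, ⟪A v, w⟫_ℂ = ⟪v, A w⟫_ℂ := fun v w => hsym v w
  have hval : ∀ i, (⟪b i, A (b i)⟫_ℂ).re = lam i := by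
    intro i
    rw [hAb, inner_smul_right, inner_self_eq_norm_sq_to_K, b.orthonormal.1 i]
    simp
  have hl0 : ∀ i, 0 ≤ lam i := fun i => by rw [← hval]; exact h0 _
  have hl1 : ∀ i, lam i ≤ 1 := fun i => by
    rw [← hval]; refine (h1 _).trans ?_; rw [b.orthonormal.1 i]; norm_num
  have hΔ : ∑ m, ((⟪e m, A (e m)⟫_ℂ).re - ‖A (e m)‖ ^ 2) = ∑ i, lam i * (1 - lam i) := by
    rw [Finset.sum_sub_distrib, sum_inner_diag b e A lam hAb hs, sum_norm_sq_diag b e A lam hAb hs,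
      ← Finset.sum_sub_distrib]
    apply Finset.sum_congr rfl; intro i _; ring
  rw [hΔ]
  have h1t : 0 < 1 - t := by linarith
  set S := Finset.univ.filter (fun i => t ≤ lam i) with hS
  set S1 := Finset.univ.filter (fun i => t' ≤ lam i) with hS1
  have hsub : S1 ⊆ S := by
    intro i hi
    rw [hS1, Finset.mem_filter] at hi
    rw [hS, Finset.mem_filter]
    exact ⟨hi.1, htt'.trans hi.2⟩
  have hmS : ∀ i, i ∈ S ↔ t ≤ lam i := fun i => by simp [hS]
  have hmS1 : ∀ i, i ∈ S1 ↔ t' ≤ lam i := fun i => by simp [hS1]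
  -- the difference operator
  set D : V →ₗ[ℂ] V := ((spanSet b S).starProjection : V →ₗ[ℂ] V) - A with hD
  set mu : _ → ℝ := fun i => (if t ≤ lam i then 1 else 0) - lam i with hmu
  have hDv : ∀ v, D v = (spanSet b S).starProjection v - A v := fun v => rfl
  have hDb : ∀ i, D (b i) = (mu i : ℂ) • b i := by
    intro i
    have : (spanSet b S).starProjection (b i) = (if t ≤ lam i then 1 else 0 : ℂ) • b i := by
      rw [starProjection_spanSet]
      by_cases h : i ∈ S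
      · rw [Finset.sum_eq_single i]
        · rw [inner_self_eq_norm_sq_to_K, b.orthonormal.1 i, if_pos ((hmS i).1 h)]; simp
        · intro j _ hji
          rw [b.orthonormal.2 hji, zero_smul]
        · intro h'; exact absurd h h'
      · rw [if_neg (fun h' => h ((hmS i).2 h')), zero_smul]
        apply Finset.sum_eq_zero
        intro j hj
        have : j ≠ i := fun h' => h (h' ▸ hj)
        rw [b.orthonormal.2 this, zero_smul]
    rw [hDv, hAb, this, ← sub_smul, hmu]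
    congr 1
    by_cases h : t ≤ lam i <;> simp [h]
  have hDs : ∀ v w, ⟪D v, w⟫_ℂ = ⟪v, D w⟫_ℂ := by
    intro v w
    rw [hDv, hDv, inner_sub_left, inner_sub_right, hs]
    congr 1
    exact Submodule.inner_starProjection_left_eq_right _ v w
  have hmub : ∀ i, |mu i| ≤ lam i * (1 - lam i) / (1 - t) := fun i =>
    lam_bound (hl0 i) (hl1 i) ht (htt'.trans_lt ht')
  have hmu1 : ∀ i, |mu i| ≤ 1 := by
    intro i
    rw [hmu]; dsimp only
    have := hl0 i; have := hl1 i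
    rw [abs_le]; constructor <;> split_ifs <;> linarith
  have hsumS : ∑ i, (if t ≤ lam i then (1 : ℝ) else 0) = S.card := by
    rw [Finset.sum_ite, hS]; simp
  have hDe : ∀ m, (⟪e m, D (e m)⟫_ℂ).re =
      ‖(spanSet b S).starProjection (e m)‖ ^ 2 - (⟪e m, A (e m)⟫_ℂ).re := by
    intro m
    rw [hDv, inner_sub_right, Complex.sub_re]
    congr 1
    have h2 : ⟪e m, (spanSet b S).starProjection (e m)⟫_ℂ =
        ⟪(spanSet b S).starProjection (e m), (spanSet b S).starProjection (e m)⟫_ℂ := by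
      rw [Submodule.inner_starProjection_left_eq_right]
      congr 1
      exact (Submodule.starProjection_eq_self_iff.2
        (Submodule.starProjection_apply_mem _ _)).symm
    rw [h2, inner_self_eq_norm_sq_to_K]
    norm_cast
  refine ⟨spanSet b S, spanSet b S1, spanSet_mono b hsub, ?_, ?_, ?_, ?_, ?_, ?_⟩
  · intro v hv
    rw [inner_diag b A lam hAb hs, norm_sq_eq_sum b, Finset.mul_sum]
    apply Finset.sum_le_sum
    intro i _
    by_cases h : i ∈ S1
    · exact mul_le_mul_of_nonneg_right ((hmS1 i).1 h) (sq_nonneg _)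
    · rw [inner_eq_zero_of_mem_spanSet b S1 hv h]; simp
  · intro g
    rw [inner_diag b A lam hAb hs, norm_sub_starProjection_sq, norm_sq_eq_sum b,
      ← Finset.sum_sub_distrib, Finset.mul_sum]
    calc ∑ i ∈ Sᶜ, (1 - t) * ‖⟪b i, g⟫_ℂ‖ ^ 2
        ≤ ∑ i ∈ Sᶜ, (‖⟪b i, g⟫_ℂ‖ ^ 2 - lam i * ‖⟪b i, g⟫_ℂ‖ ^ 2) := by
          apply Finset.sum_le_sum
          intro i hi
          have : ¬ t ≤ lam i := fun h => by
            rw [Finset.mem_compl] at hi; exact hi ((hmS i).2 h)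
          push Not at this
          nlinarith [sq_nonneg ‖⟪b i, g⟫_ℂ‖]
      _ ≤ ∑ i, (‖⟪b i, g⟫_ℂ‖ ^ 2 - lam i * ‖⟪b i, g⟫_ℂ‖ ^ 2) := by
          apply Finset.sum_le_sum_of_subset_of_nonneg (Finset.subset_univ _)
          intro i _ _
          nlinarith [sq_nonneg ‖⟪b i, g⟫_ℂ‖, hl1 i]
  · rw [finrank_spanSet, finrank_spanSet]
    have hc : (S.card : ℝ) - S1.card = (S \ S1).card := by
      rw [Finset.cast_card_sdiff hsub]
    rw [hc]
    calc ((S \ S1).card : ℝ) * (t * (1 - t')) = ∑ i ∈ S \ S1, t * (1 - t') := by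
          rw [Finset.sum_const, nsmul_eq_mul]
      _ ≤ ∑ i ∈ S \ S1, lam i * (1 - lam i) := by
          apply Finset.sum_le_sum
          intro i hi
          rw [Finset.mem_sdiff, hmS, hmS1] at hi
          have h2 : lam i < t' := not_le.1 hi.2
          have h3 : 0 ≤ 1 - t' := by linarith
          have h4 : 0 ≤ t := by linarith
          exact mul_le_mul hi.1 (by linarith) h3 (hl0 i)
      _ ≤ ∑ i, lam i * (1 - lam i) := by
          apply Finset.sum_le_sum_of_subset_of_nonneg (Finset.subset_univ _)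
          intro i _ _
          exact mul_nonneg (hl0 i) (by linarith [hl1 i])
  · rw [finrank_spanSet, sum_inner_diag b e A lam hAb hs, ← hsumS, ← Finset.sum_sub_distrib]
    refine (Finset.abs_sum_le_sum_abs _ _).trans ?_
    rw [Finset.sum_div]
    exact Finset.sum_le_sum fun i _ => hmub i
  · have := sum_abs_inner_diag b e D mu hDb hDs
    simp_rw [hDe] at this
    refine this.trans ?_
    rw [Finset.sum_div]
    exact Finset.sum_le_sum fun i _ => hmub i
  · have := sum_norm_sq_diag b e D mu hDb hDs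
    simp_rw [hDv] at this
    rw [this, Finset.sum_div]
    apply Finset.sum_le_sum
    intro i _
    refine le_trans ?_ (hmub i)
    rw [← sq_abs, sq]
    exact mul_le_of_le_one_left (abs_nonneg _) (hmu1 i)

end Spectral

end Crest.Agent.R113.Transfer
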