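import Crest.Agent.R113.Basic
import Crest.Agent.R113.CircleDefs
import Crest.Agent.R113.TransferLA

/-! # T13a: the section lemma -/

set_option autoImplicit false

namespace Crest.Agent.R113.Sec

open scoped BigOperators InnerProductSpace

/-- the `n`-step weighted shift on `ℓ²(ℤ)` as a function -/
noncomputable def shFun (u : ℤ → ℝ) (n : ℕ) (v : ℤ → ℂ) : ℤ → ℂ :=
  fun m => (Real.exp (-(wsum u (m - n) n)) : ℂ) * v (m - n)

lemma wsum_nonneg {u : ℤ → ℝ} (hu : ∀ m, 0 ≤ u m) (m : ℤ) (n : ℕ) : 0 ≤ wsum u m n :=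
  Finset.sum_nonneg fun _ _ => hu _

lemma norm_shFun_le {u : ℤ → ℝ} (hu : ∀ m, 0 ≤ u m) (n : ℕ) (v : ℤ → ℂ) (m : ℤ) :
    ‖shFun u n v m‖ ≤ ‖v (m - n)‖ := by
  unfold shFun
  rw [norm_mul, Complex.norm_real, Real.norm_eq_abs, abs_of_pos (Real.exp_pos _)]
  have h : Real.exp (-(wsum u (m - n) n)) ≤ 1 := by
    rw [Real.exp_le_one_iff]
    linarith [wsum_nonneg hu (m - n) n]
  exact mul_le_of_le_one_left (norm_nonneg _) h

lemma summable_sq (v : l2Z) : Summable fun m : ℤ => ‖v m‖ ^ 2 := by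
  have h := lp.memℓp v
  have h2 := h.summable (by norm_num)
  simpa using h2

lemma norm_sq_eq (v : l2Z) : ‖v‖ ^ 2 = ∑' m : ℤ, ‖v m‖ ^ 2 := by
  have h := lp.norm_rpow_eq_tsum (p := 2) (by norm_num) v
  simpa using h

lemma shFun_mem {u : ℤ → ℝ} (hu : ∀ m, 0 ≤ u m) (n : ℕ) (v : l2Z) :
    Memℓp (shFun u n v) 2 := by
  apply memℓp_gen
  have h1 : Summable fun m : ℤ => ‖v (m - n)‖ ^ 2 :=
    (summable_sq v).comp_injective (sub_left_injective)
  refine Summable.of_nonneg_of_le (fun m => by positivity) (fun m => ?_) h1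
  have := norm_shFun_le hu n v m
  simp only [ENNReal.toReal_ofNat, Real.rpow_ofNat]
  exact pow_le_pow_left₀ (norm_nonneg _) this 2

/-- the `n`-step weighted shift on `ℓ²(ℤ)` -/
noncomputable def sh {u : ℤ → ℝ} (hu : ∀ m, 0 ≤ u m) (n : ℕ) (v : l2Z) : l2Z :=
  ⟨shFun u n v, shFun_mem hu n v⟩

lemma sh_apply {u : ℤ → ℝ} (hu : ∀ m, 0 ≤ u m) (n : ℕ) (v : l2Z) (m : ℤ) :
    (sh hu n v) m = (Real.exp (-(wsum u (m - n) n)) : ℂ) * v (m - n) := rfl

lemma norm_sh_le {u : ℤ → ℝ} (hu : ∀ m, 0 ≤ u m) (n : ℕ) (v : l2Z) : ‖sh hu n v‖ ≤ ‖v‖ := by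
  have h : ‖sh hu n v‖ ^ 2 ≤ ‖v‖ ^ 2 := by
    rw [norm_sq_eq, norm_sq_eq]
    have h1 : Summable fun m : ℤ => ‖v (m - n)‖ ^ 2 :=
      (summable_sq v).comp_injective (sub_left_injective)
    calc ∑' m : ℤ, ‖(sh hu n v) m‖ ^ 2 ≤ ∑' m : ℤ, ‖v (m - n)‖ ^ 2 := by
          apply Summable.tsum_le_tsum _ (summable_sq _) h1
          intro m
          exact pow_le_pow_left₀ (norm_nonneg _) (norm_shFun_le hu n v m) 2
      _ = ∑' m : ℤ, ‖v m‖ ^ 2 := (Equiv.subRight (n : ℤ)).tsum_eq (fun m : ℤ => ‖v m‖ ^ 2)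
  exact le_of_sq_le_sq h (norm_nonneg _)

lemma sh_zero {u : ℤ → ℝ} (hu : ∀ m, 0 ≤ u m) (v : l2Z) : sh hu 0 v = v := by
  ext m
  rw [sh_apply]
  simp [wsum]

lemma sh_succ {u : ℤ → ℝ} (hu : ∀ m, 0 ≤ u m) (n : ℕ) (v : l2Z) (m : ℤ) :
    (sh hu (n + 1) v) (m + 1) = (Real.exp (-u m) : ℂ) * (sh hu n v) m := by
  rw [sh_apply, sh_apply]
  have e1 : (m + 1 - ((n + 1 : ℕ) : ℤ)) = m - n := by push_cast; ring
  have e2 : wsum u (m - n) (n + 1) = wsum u (m - n) n + u m := by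
    unfold wsum
    rw [Finset.sum_range_succ]
    congr 2; ring
  rw [e1, e2, ← mul_assoc, ← Complex.ofReal_mul, ← Real.exp_add]
  congr 3; ring_nf

lemma sh_add {u : ℤ → ℝ} (hu : ∀ m, 0 ≤ u m) (n : ℕ) (v w : l2Z) :
    sh hu n (v + w) = sh hu n v + sh hu n w := by
  ext m
  rw [lp.coeFn_add, Pi.add_apply, sh_apply, sh_apply, sh_apply, lp.coeFn_add, Pi.add_apply, mul_add]

lemma inv_iter {P : l2Z →L[ℂ] l2Z} {u : ℤ → ℝ} (hu : ∀ m, 0 ≤ u m)
    (hinv : ∀ v v' : l2Z, P v = v → (∀ m : ℤ, v' (m + 1) = (Real.exp (-u m) : ℂ) * v m) →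
      P v' = v') (n : ℕ) (v : l2Z) (hv : P v = v) : P (sh hu n v) = sh hu n v := by
  induction n with
  | zero => rw [sh_zero, hv]
  | succ n ih => exact hinv _ _ ih (fun m => sh_succ hu n v m)

/-- embedding of `ℂ^q` as the coordinates `[0,q)` of `ℓ²(ℤ)` -/
noncomputable def embF (q : ℕ) : EuclideanSpace ℂ (Fin q) →ₗ[ℂ] l2Z where
  toFun v := ∑ j : Fin q, v j • dl ((j : ℕ) : ℤ)
  map_add' v w := by simp [add_smul, Finset.sum_add_distrib]
  map_smul' r v := by simp [mul_smul, Finset.smul_sum]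

/-- restriction of `ℓ²(ℤ)` to the coordinates `[0,q)` -/
noncomputable def resF (q : ℕ) : l2Z →ₗ[ℂ] EuclideanSpace ℂ (Fin q) where
  toFun w := WithLp.toLp 2 (fun j : Fin q => w ((j : ℕ) : ℤ))
  map_add' v w := by ext j; simp
  map_smul' r v := by ext j; simp

lemma dl_apply (i j : ℤ) : (dl i : l2Z) j = if j = i then 1 else 0 := by
  unfold dl
  rw [lp.single_apply]
  by_cases h : j = i
  · subst h; simp
  · simp [h]

lemma embF_apply (q : ℕ) (v : EuclideanSpace ℂ (Fin q)) (m : ℤ) :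
    (embF q v) m = ∑ j : Fin q, v j * (if m = (j : ℕ) then 1 else 0) := by
  have h : (embF q v) = ∑ j : Fin q, v j • dl ((j : ℕ) : ℤ) := rfl
  rw [h, lp.coeFn_sum, Finset.sum_apply]
  refine Finset.sum_congr rfl fun j _ => ?_
  rw [lp.coeFn_smul, Pi.smul_apply, dl_apply, smul_eq_mul]

lemma embF_fin (q : ℕ) (v : EuclideanSpace ℂ (Fin q)) (j : Fin q) :
    (embF q v) ((j : ℕ) : ℤ) = v j := by
  rw [embF_apply, Finset.sum_eq_single j]
  · simp
  · intro i _ hij
    rw [if_neg, mul_zero]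
    intro h
    apply hij
    ext
    exact_mod_cast h.symm
  · intro h; exact absurd (Finset.mem_univ j) h

lemma embF_out (q : ℕ) (v : EuclideanSpace ℂ (Fin q)) (m : ℤ) (hm : m < 0 ∨ (q : ℤ) ≤ m) :
    (embF q v) m = 0 := by
  rw [embF_apply]
  apply Finset.sum_eq_zero
  intro j _
  rw [if_neg, mul_zero]
  intro h
  have := j.2
  omega

lemma embF_ev (q : ℕ) (j : Fin q) : embF q (ev j) = dl ((j : ℕ) : ℤ) := by
  ext m
  rw [embF_apply, dl_apply, Finset.sum_eq_single j]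
  · simp [ev]
  · intro i _ hij
    simp [ev, hij]
  · intro h; exact absurd (Finset.mem_univ j) h

lemma inner_embF (q : ℕ) (v : EuclideanSpace ℂ (Fin q)) (w : l2Z) :
    ⟪embF q v, w⟫_ℂ = ⟪v, resF q w⟫_ℂ := by
  have h : (embF q v) = ∑ j : Fin q, v j • dl ((j : ℕ) : ℤ) := rfl
  rw [h, sum_inner, PiLp.inner_apply]
  refine Finset.sum_congr rfl fun j _ => ?_
  rw [inner_smul_left]
  unfold dl
  rw [lp.inner_single_left]
  simp [resF, mul_comm]

lemma resF_embF (q : ℕ) (v : EuclideanSpace ℂ (Fin q)) : resF q (embF q v) = v := by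
  ext j
  exact embF_fin q v j

lemma norm_embF (q : ℕ) (v : EuclideanSpace ℂ (Fin q)) : ‖embF q v‖ = ‖v‖ := by
  have h : ⟪embF q v, embF q v⟫_ℂ = ⟪v, v⟫_ℂ := by rw [inner_embF, resF_embF]
  rw [@norm_eq_sqrt_re_inner ℂ, @norm_eq_sqrt_re_inner ℂ, h]

section Proj

variable {P : l2Z →L[ℂ] l2Z} (hP : IsStarProjection P)

include hP

lemma P_symm (x y : l2Z) : ⟪P x, y⟫_ℂ = ⟪x, P y⟫_ℂ := by
  have h1 : star P = P := hP.isSelfAdjoint
  conv_lhs => rw [← h1]
  rw [ContinuousLinearMap.star_eq_adjoint, ContinuousLinearMap.adjoint_inner_left]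

lemma P_idem (x : l2Z) : P (P x) = P x := by
  have h1 : P * P = P := hP.isIdempotentElem
  calc P (P x) = (P * P) x := rfl
    _ = P x := by rw [h1]

lemma inner_P (x : l2Z) : ⟪x, P x⟫_ℂ = ((‖P x‖ ^ 2 : ℝ) : ℂ) := by
  rw [← P_idem hP x, ← P_symm hP, P_idem hP, inner_self_eq_norm_sq_to_K]
  norm_cast

lemma re_inner_P (x : l2Z) : (⟪x, P x⟫_ℂ).re = ‖P x‖ ^ 2 := by
  rw [inner_P hP x, Complex.ofReal_re]

lemma norm_sub_P (x : l2Z) : ‖x - P x‖ ^ 2 = ‖x‖ ^ 2 - ‖P x‖ ^ 2 := by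
  rw [@norm_sub_sq ℂ]
  have : RCLike.re ⟪x, P x⟫_ℂ = ‖P x‖ ^ 2 := re_inner_P hP x
  rw [this]; ring

lemma norm_sub_P_le (x : l2Z) : ‖x - P x‖ ≤ ‖x‖ := by
  have h := norm_sub_P hP x
  exact le_of_sq_le_sq (by nlinarith [sq_nonneg ‖P x‖]) (norm_nonneg _)

/-- the finite section of `P` -/
noncomputable def secA (q : ℕ) (P : l2Z →L[ℂ] l2Z) :
    EuclideanSpace ℂ (Fin q) →ₗ[ℂ] EuclideanSpace ℂ (Fin q) :=
  (resF q).comp ((P : l2Z →ₗ[ℂ] l2Z).comp (embF q))

omit hP in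
lemma secA_apply (q : ℕ) (v : EuclideanSpace ℂ (Fin q)) : secA q P v = resF q (P (embF q v)) := rfl

lemma secA_symm (q : ℕ) : (secA q P).IsSymmetric := by
  intro v w
  rw [secA_apply, secA_apply, ← inner_conj_symm, ← inner_embF, inner_conj_symm, P_symm hP,
    inner_embF]

lemma inner_secA (q : ℕ) (v : EuclideanSpace ℂ (Fin q)) :
    (⟪v, secA q P v⟫_ℂ).re = ‖P (embF q v)‖ ^ 2 := by
  rw [secA_apply, ← inner_embF, re_inner_P hP]

end Proj

lemma embF_shiftN {u : ℤ → ℝ} (hu : ∀ m, 0 ≤ u m) (q n : ℕ) (v : EuclideanSpace ℂ (Fin q))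
    (hv : ∀ j : Fin q, q ≤ (j : ℕ) + n → v j = 0) :
    embF q (shiftN u n v) = sh hu n (embF q v) := by
  ext m
  rw [sh_apply]
  by_cases hm : 0 ≤ m ∧ m < q
  · obtain ⟨k, rfl⟩ : ∃ k : ℕ, m = k := ⟨m.toNat, by omega⟩
    have hk : k < q := by omega
    have h1 := embF_fin q (shiftN u n v) ⟨k, hk⟩
    simp only at h1
    rw [h1]
    by_cases hn : n ≤ k
    · have h2 := embF_fin q v ⟨k - n, by omega⟩
      simp only at h2
      have e : ((k : ℤ) - n) = ((k - n : ℕ) : ℤ) := by omega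
      rw [e, h2]
      simp only [shiftN, LinearMap.coe_mk, AddHom.coe_mk]
      rw [dif_pos hn, ← e]
    · rw [embF_out q v _ (by omega), mul_zero]
      simp only [shiftN, LinearMap.coe_mk, AddHom.coe_mk]
      rw [dif_neg hn]
  · rw [embF_out q _ m (by omega)]
    by_cases h2 : 0 ≤ m - n ∧ m - n < q
    · obtain ⟨k, hk⟩ : ∃ k : ℕ, m - n = k := ⟨(m - n).toNat, by omega⟩
      have hkq : k < q := by omega
      have h3 := embF_fin q v ⟨k, hkq⟩
      simp only at h3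
      rw [hk, h3, hv ⟨k, hkq⟩ (by simp only; omega), mul_zero]
    · rw [embF_out q v _ (by omega), mul_zero]

/-- matrix entries of an operator on `ℓ²(ℤ)` (same as `entZ` in `Transfer.lean`) -/
theorem section_lemma_aux (P : l2Z →L[ℂ] l2Z) (hP : IsStarProjection P) (u : ℤ → ℝ)
    (hu : ∀ m, 0 ≤ u m)
    (hinv : ∀ v v' : l2Z, P v = v → (∀ m : ℤ, v' (m + 1) = (Real.exp (-u m) : ℂ) * v m) →
      P v' = v')
    (q : ℕ) (cs : ℝ) (hcs : 1 ≤ cs) (Δ : ℝ)
    (hΔ : Δ = ∑ j ∈ Finset.range q, (‖P (dl j)‖ ^ 2 -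
      ∑ i ∈ Finset.range q, ‖(P (dl (j : ℤ)) : l2Z) (i : ℤ)‖ ^ 2)) :
    ∃ E : Submodule ℂ (EuclideanSpace ℂ (Fin q)),
      |(Module.finrank ℂ E : ℝ) - ∑ j ∈ Finset.range q, ‖P (dl j)‖ ^ 2|
        ≤ 10 * Real.exp (2 * cs) * Δ ∧
      ∑ i : Fin q, ∑ j : Fin q, ‖ent E i j - (P (dl ((j : ℕ) : ℤ)) : l2Z) ((i : ℕ) : ℤ)‖ ^ 2
        ≤ 10 * Real.exp (2 * cs) * Δ ∧
      ∀ n : ℕ, ∃ E' : Submodule ℂ (EuclideanSpace ℂ (Fin q)),
        AppInv E E' u n (Real.exp (-cs)) (10 * Real.exp (4 * cs) * Δ + n) := by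
  set A := secA q P with hA
  set e := EuclideanSpace.basisFun (Fin q) ℂ with he
  have hev : ∀ m : Fin q, e m = ev m := fun m => by
    rw [he, EuclideanSpace.basisFun_apply]; rfl
  have hx2 : Real.exp (-(2 * cs)) ≤ 1 / 2 := by
    have h1 : Real.exp (-(2 * cs)) ≤ Real.exp (-1) := Real.exp_le_exp.2 (by linarith)
    have h2 : Real.exp (-1) ≤ 1 / 2 := by
      rw [Real.exp_neg]
      have : (2 : ℝ) ≤ Real.exp 1 := by
        have := Real.add_one_le_exp (1 : ℝ)
        linarith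
      rw [inv_le_comm₀ (Real.exp_pos _) (by norm_num)]
      linarith
    exact h1.trans h2
  have hx4 : Real.exp (-(4 * cs)) ≤ Real.exp (-(2 * cs)) := Real.exp_le_exp.2 (by linarith)
  have hsum : ∑ m, ((⟪e m, A (e m)⟫_ℂ).re - ‖A (e m)‖ ^ 2) = Δ := by
    rw [hΔ, ← Fin.sum_univ_eq_sum_range (fun j => ‖P (dl (j : ℤ))‖ ^ 2 -
      ∑ i ∈ Finset.range q, ‖(P (dl (j : ℤ)) : l2Z) (i : ℤ)‖ ^ 2) q]
    refine Finset.sum_congr rfl fun m _ => ?_
    rw [hA, inner_secA hP, hev, embF_ev]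
    congr 1
    rw [secA_apply, EuclideanSpace.norm_sq_eq, embF_ev,
      ← Fin.sum_univ_eq_sum_range (fun i => ‖(P (dl ((m : ℕ) : ℤ)) : l2Z) (i : ℤ)‖ ^ 2) q]
    rfl
  have htr : ∑ m, (⟪e m, A (e m)⟫_ℂ).re = ∑ j ∈ Finset.range q, ‖P (dl j)‖ ^ 2 := by
    rw [← Fin.sum_univ_eq_sum_range (fun j => ‖P (dl (j : ℤ))‖ ^ 2) q]
    refine Finset.sum_congr rfl fun m _ => ?_
    rw [hA, inner_secA hP, hev, embF_ev]
  obtain ⟨E, E1, hE1E, hE1, hEg, hcod, htrace, -, hHS⟩ := Transfer.spectral_exists e A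
    (secA_symm hP q) (fun v => by rw [hA, inner_secA hP]; positivity)
    (fun v => by
      rw [hA, inner_secA hP]
      have h := norm_sub_P hP (embF q v)
      rw [norm_embF] at h
      nlinarith [sq_nonneg ‖embF q v - P (embF q v)‖])
    (1 - Real.exp (-(2 * cs))) (1 - Real.exp (-(4 * cs))) (by linarith) (by linarith)
    (by linarith [Real.exp_pos (-(4 * cs))])
  rw [hsum] at hcod htrace hHS
  rw [htr] at htrace
  have e2 : (1 : ℝ) - (1 - Real.exp (-(2 * cs))) = Real.exp (-(2 * cs)) := by ring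
  have e4 : (1 : ℝ) - (1 - Real.exp (-(4 * cs))) = Real.exp (-(4 * cs)) := by ring
  rw [e2] at htrace hHS hEg
  rw [e4] at hcod
  have hdiv2 : Δ / Real.exp (-(2 * cs)) = Real.exp (2 * cs) * Δ := by
    rw [Real.exp_neg]; field_simp
  rw [hdiv2] at htrace hHS
  have hΔ0 : 0 ≤ Δ := by
    have h1 : 0 ≤ Real.exp (2 * cs) * Δ := le_trans (abs_nonneg _) htrace
    exact nonneg_of_mul_nonneg_right h1 (Real.exp_pos _)
  have hp2 := Real.exp_pos (2 * cs)
  have hp4 := Real.exp_pos (4 * cs)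
  refine ⟨E, ?_, ?_, ?_⟩
  · have : 0 ≤ Real.exp (2 * cs) * Δ := by positivity
    linarith
  · have h1 : ∑ i : Fin q, ∑ j : Fin q,
        ‖ent E i j - (P (dl ((j : ℕ) : ℤ)) : l2Z) ((i : ℕ) : ℤ)‖ ^ 2
        = ∑ m, ‖E.starProjection (e m) - A (e m)‖ ^ 2 := by
      rw [Finset.sum_comm]
      refine Finset.sum_congr rfl fun m _ => ?_
      rw [EuclideanSpace.norm_sq_eq]
      refine Finset.sum_congr rfl fun i _ => ?_
      rw [hev, hA, secA_apply, embF_ev]
      unfold ent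
      congr 2
      rw [PiLp.sub_apply]
      congr 1
      unfold ev
      rw [EuclideanSpace.inner_single_left]
      simp
    rw [h1]
    have : 0 ≤ Real.exp (2 * cs) * Δ := by positivity
    linarith
  · intro n
    set S : Finset (Fin q) := Finset.univ.filter (fun j : Fin q => q ≤ (j : ℕ) + n) with hS
    have hScard : S.card ≤ n := by
      have hinj : S.card ≤ (Finset.Ico (q - n) q).card := by
        apply Finset.card_le_card_of_injOn (fun j : Fin q => (j : ℕ))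
        · intro j hj
          rw [Finset.mem_coe, hS, Finset.mem_filter] at hj
          rw [Finset.mem_coe, Finset.mem_Ico]
          have h1 := hj.2
          have h2 := j.2
          constructor
          · show q - n ≤ (j : ℕ)
            omega
          · exact h2
        · intro i _ j _ h
          exact Fin.ext h
      rw [Nat.card_Ico] at hinj
      omega
    refine ⟨E1 ⊓ coordSub Sᶜ, ?_, ?_, ?_, ?_⟩
    · exact inf_le_left.trans hE1E
    · have h1 := finrank_inf_vanish E1 S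
      have h1' : (Module.finrank ℂ E1 : ℝ) ≤
          Module.finrank ℂ (E1 ⊓ coordSub Sᶜ : Submodule ℂ (EuclideanSpace ℂ (Fin q))) + n := by
        have : Module.finrank ℂ E1 ≤
          Module.finrank ℂ (E1 ⊓ coordSub Sᶜ : Submodule ℂ (EuclideanSpace ℂ (Fin q))) + n := by
          omega
        exact_mod_cast this
      have h2 : (Module.finrank ℂ E : ℝ) - Module.finrank ℂ E1 ≤ 2 * Real.exp (4 * cs) * Δ := by
        have h3 : ((Module.finrank ℂ E : ℝ) - Module.finrank ℂ E1) *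
            (1 / 2 * Real.exp (-(4 * cs))) ≤ Δ := by
          refine le_trans ?_ hcod
          have h4 : (0 : ℝ) ≤ (Module.finrank ℂ E : ℝ) - Module.finrank ℂ E1 := by
            have := Submodule.finrank_mono hE1E
            have : (Module.finrank ℂ E1 : ℝ) ≤ Module.finrank ℂ E := by exact_mod_cast this
            linarith
          apply mul_le_mul_of_nonneg_left _ h4
          apply mul_le_mul_of_nonneg_right _ (Real.exp_pos _).le
          linarith
        have h5 : Real.exp (-(4 * cs)) * Real.exp (4 * cs) = 1 := by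
          rw [← Real.exp_add]; simp
        calc (Module.finrank ℂ E : ℝ) - Module.finrank ℂ E1
            = (((Module.finrank ℂ E : ℝ) - Module.finrank ℂ E1) *
            (1 / 2 * Real.exp (-(4 * cs)))) * (2 * Real.exp (4 * cs)) := by
              linear_combination (-((Module.finrank ℂ E : ℝ) - Module.finrank ℂ E1)) * h5
          _ ≤ Δ * (2 * Real.exp (4 * cs)) := mul_le_mul_of_nonneg_right h3 (by positivity)
          _ = _ := by ring
      have h6 : 0 ≤ Real.exp (4 * cs) * Δ := by positivity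
      linarith
    · intro v hv j hj
      have h1 : v ∈ coordSub Sᶜ := hv.2
      apply h1
      rw [Finset.mem_compl, not_not, hS, Finset.mem_filter]
      exact ⟨Finset.mem_univ j, hj⟩
    · intro v hv
      have hsupp : ∀ j : Fin q, q ≤ (j : ℕ) + n → v j = 0 := by
        intro j hj
        have h1 : v ∈ coordSub Sᶜ := hv.2
        apply h1
        rw [Finset.mem_compl, not_not, hS, Finset.mem_filter]
        exact ⟨Finset.mem_univ j, hj⟩
      set x := embF q v with hx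
      have hg := embF_shiftN hu q n v hsupp
      rw [← hx] at hg
      have b1 : ‖x - P x‖ ^ 2 ≤ Real.exp (-(4 * cs)) * ‖v‖ ^ 2 := by
        rw [norm_sub_P hP, hx, norm_embF]
        have h1 := hE1 v hv.1
        rw [hA, inner_secA hP] at h1
        linarith
      have b2 : ‖sh hu n x - P (sh hu n x)‖ ≤ ‖x - P x‖ := by
        have h1 : sh hu n x = sh hu n (P x) + sh hu n (x - P x) := by
          rw [← sh_add]; congr 1; abel
        have h2 : P (sh hu n (P x)) = sh hu n (P x) := inv_iter hu hinv n _ (P_idem hP x)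
        have h3 : sh hu n x - P (sh hu n x) =
            sh hu n (x - P x) - P (sh hu n (x - P x)) := by
          rw [h1, map_add, h2]; abel
        rw [h3]
        exact (norm_sub_P_le hP _).trans (norm_sh_le hu n _)
      have b3 := hEg (shiftN u n v)
      rw [hA, inner_secA hP, ← norm_embF q (shiftN u n v), ← norm_sub_P hP, hg] at b3
      have b4 : ‖sh hu n x - P (sh hu n x)‖ ^ 2 ≤ Real.exp (-(4 * cs)) * ‖v‖ ^ 2 :=
        (pow_le_pow_left₀ (norm_nonneg _) b2 2).trans b1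
      have b5 : Real.exp (-(2 * cs)) *
          ‖shiftN u n v - E.starProjection (shiftN u n v)‖ ^ 2 ≤
          Real.exp (-(2 * cs)) * (Real.exp (-cs) * ‖v‖) ^ 2 := by
        have h7 : Real.exp (-(2 * cs)) * (Real.exp (-cs) * ‖v‖) ^ 2 =
            Real.exp (-(4 * cs)) * ‖v‖ ^ 2 := by
          rw [mul_pow, ← mul_assoc, ← Real.exp_nat_mul, ← Real.exp_add]
          congr 2; push_cast; ring
        rw [h7]
        exact b3.trans b4
      have b6 := le_of_mul_le_mul_left b5 (Real.exp_pos _)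
      exact le_of_sq_le_sq b6 (by positivity)

end Crest.Agent.R113.Sec
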