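import Crest.Agent.R113.CS

/-! # T11: iterated two-valued scalings (SEQ) — blueprint 6835 (SEQ) -/

set_option autoImplicit false

namespace Crest.Agent.R113

open scoped BigOperators

variable {ι : Type*} [Fintype ι] [DecidableEq ι]

/-- Two-valued scaling, `ℓ¹` distance of the diagonals. -/
theorem sum_abs_dg_scal (X : Submodule ℂ (EuclideanSpace ℂ ι)) (A : Finset ι) {s : ℝ}
    (hs : 0 ≤ s) : ∑ i, |dg (X.map (scal A s)) i - dg X i| ≤
      2 * (trOn X A - trOn (X.map (scal A s)) A) := by
  classical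
  have h1 : ∑ i ∈ A, |dg (X.map (scal A s)) i - dg X i| =
      trOn X A - trOn (X.map (scal A s)) A := by
    unfold trOn
    rw [← Finset.sum_sub_distrib]
    refine Finset.sum_congr rfl fun i hi => ?_
    rw [abs_sub_comm, abs_of_nonneg (sub_nonneg.2 (cs_on X A hs hi))]
  have h2 : ∑ i ∈ Aᶜ, |dg (X.map (scal A s)) i - dg X i| =
      trOn (X.map (scal A s)) Aᶜ - trOn X Aᶜ := by
    unfold trOn
    rw [← Finset.sum_sub_distrib]
    refine Finset.sum_congr rfl fun i hi => ?_
    rw [abs_of_nonneg (sub_nonneg.2 (cs_off X A hs (Finset.mem_compl.1 hi)))]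
  have h3 := cs_abs X A Aᶜ hs
  have h4 := le_abs_self (trOn (X.map (scal A s)) Aᶜ - trOn X Aᶜ)
  rw [← Finset.sum_add_sum_compl A, h1, h2]
  linarith

theorem seq_scal (L : ℕ) (X : ℕ → Submodule ℂ (EuclideanSpace ℂ ι)) (A B : ℕ → Finset ι)
    (s : ℕ → ℝ) (ηf err : ℝ) (hη : 0 ≤ ηf + err) (hs : ∀ j < L, 0 ≤ s j)
    (hX : ∀ j < L, X (j + 1) = (X j).map (scal (A j) (s j)))
    (h0 : ∀ j < L, trOn (X 0) (A j) - trOn (X 0) (B j) ≤ ηf)
    (hMI : ∀ j < L, trOn (X j) (A j) - trOn (X (j + 1)) (A j) ≤
      trOn (X j) (A j) - trOn (X j) (B j) + err) :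
    (∀ j < L, trOn (X j) (A j) - trOn (X (j + 1)) (A j) ≤ 3 ^ j * (ηf + err)) ∧
    ∑ i, |dg (X L) i - dg (X 0) i| ≤ 3 ^ L * (ηf + err) ∧
    Real.sqrt (hsd (X L) (X 0)) ≤ 3 ^ L * Real.sqrt (2 * (ηf + err)) := by
  set mv : ℕ → ℝ := fun j => trOn (X j) (A j) - trOn (X (j + 1)) (A j) with hmv
  have hmv0 : ∀ j < L, 0 ≤ mv j := by
    intro j hj
    have := cs_abs (X j) (A j) (A j) (hs j hj)
    rw [← hX j hj] at this
    exact (abs_nonneg _).trans this
  -- traces of arbitrary sets along the sequence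
  have htr : ∀ (C : Finset ι) (j : ℕ), j ≤ L →
      |trOn (X j) C - trOn (X 0) C| ≤ ∑ i ∈ Finset.range j, mv i := by
    intro C j
    induction j with
    | zero => intro _; simp
    | succ j ih =>
      intro hj
      have h1 := cs_abs (X j) (A j) C (hs j (by omega))
      rw [← hX j (by omega)] at h1
      rw [Finset.sum_range_succ]
      calc |trOn (X (j + 1)) C - trOn (X 0) C|
          = |(trOn (X (j + 1)) C - trOn (X j) C) + (trOn (X j) C - trOn (X 0) C)| := by ring_nf
        _ ≤ |trOn (X (j + 1)) C - trOn (X j) C| + |trOn (X j) C - trOn (X 0) C| := abs_add_le _ _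
        _ ≤ _ := by linarith [ih (by omega)]
  have hbound : ∀ j < L, mv j ≤ 3 ^ j * (ηf + err) := by
    intro j
    induction j using Nat.strong_induction_on with
    | _ j ih =>
      intro hj
      have h1 := hMI j hj
      have h2 := abs_le.1 (htr (A j) j hj.le)
      have h3 := abs_le.1 (htr (B j) j hj.le)
      have h4 := h0 j hj
      have h5 : ∑ i ∈ Finset.range j, mv i ≤ ∑ i ∈ Finset.range j, 3 ^ i * (ηf + err) := by
        refine Finset.sum_le_sum fun i hi => ?_
        have := Finset.mem_range.1 hi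
        exact ih i this (by omega)
      have h6 : ∑ i ∈ Finset.range j, (3 : ℝ) ^ i * (ηf + err) = (3 ^ j - 1) / 2 * (ηf + err) := by
        rw [← Finset.sum_mul, geom_sum_eq (by norm_num)]
        norm_num
      rw [h6] at h5
      have h7 : mv j ≤ trOn (X j) (A j) - trOn (X j) (B j) + err := h1
      nlinarith
  refine ⟨hbound, ?_, ?_⟩
  · have h1 : ∀ j ≤ L, ∑ i, |dg (X j) i - dg (X 0) i| ≤ ∑ k ∈ Finset.range j, 2 * mv k := by
      intro j
      induction j with
      | zero => intro _; simp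
      | succ j ih =>
        intro hj
        have h2 := sum_abs_dg_scal (X j) (A j) (hs j (by omega))
        rw [← hX j (by omega)] at h2
        rw [Finset.sum_range_succ]
        calc ∑ i, |dg (X (j + 1)) i - dg (X 0) i|
            ≤ ∑ i, (|dg (X (j + 1)) i - dg (X j) i| + |dg (X j) i - dg (X 0) i|) := by
              refine Finset.sum_le_sum fun i _ => ?_
              exact abs_sub_le _ _ _
          _ = ∑ i, |dg (X (j + 1)) i - dg (X j) i| + ∑ i, |dg (X j) i - dg (X 0) i| :=
              Finset.sum_add_distrib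
          _ ≤ _ := by linarith [ih (by omega)]
    refine (h1 L le_rfl).trans ?_
    have h2 : ∑ k ∈ Finset.range L, 2 * mv k ≤ ∑ k ∈ Finset.range L, 2 * (3 ^ k * (ηf + err)) := by
      refine Finset.sum_le_sum fun k hk => ?_
      linarith [hbound k (Finset.mem_range.1 hk)]
    refine h2.trans ?_
    rw [← Finset.mul_sum, ← Finset.sum_mul, geom_sum_eq (by norm_num)]
    norm_num
    nlinarith
  · have h1 : ∀ j ≤ L, Real.sqrt (hsd (X j) (X 0)) ≤
        ∑ k ∈ Finset.range j, Real.sqrt (2 * mv k) := by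
      intro j
      induction j with
      | zero =>
        intro _
        have : hsd (X 0) (X 0) = 0 := by
          unfold hsd; simp
        rw [this]; simp
      | succ j ih =>
        intro hj
        have h2 := cs_hsd (X j) (A j) (hs j (by omega))
        rw [← hX j (by omega)] at h2
        rw [Finset.sum_range_succ]
        have h3 := hsd_triangle (X (j + 1)) (X j) (X 0)
        have h4 := Real.sqrt_le_sqrt h2
        linarith [ih (by omega)]
    refine (h1 L le_rfl).trans ?_
    have h2 : ∀ k ∈ Finset.range L, Real.sqrt (2 * mv k) ≤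
        2 * 3 ^ k * Real.sqrt (2 * (ηf + err)) := by
      intro k hk
      have h3 : 2 * mv k ≤ (2 * 3 ^ k) ^ 2 * (2 * (ηf + err)) := by
        have h4 := hbound k (Finset.mem_range.1 hk)
        have h5 : (1 : ℝ) ≤ 3 ^ k := one_le_pow₀ (by norm_num)
        nlinarith [mul_nonneg (show (0 : ℝ) ≤ 3 ^ k by positivity) hη]
      calc Real.sqrt (2 * mv k) ≤ Real.sqrt ((2 * 3 ^ k) ^ 2 * (2 * (ηf + err))) :=
            Real.sqrt_le_sqrt h3
        _ = _ := by rw [Real.sqrt_mul (by positivity), Real.sqrt_sq (by positivity)]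
    refine (Finset.sum_le_sum h2).trans ?_
    rw [← Finset.sum_mul, ← Finset.mul_sum, geom_sum_eq (by norm_num)]
    have := Real.sqrt_nonneg (2 * (ηf + err))
    nlinarith

end Crest.Agent.R113
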