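import Crest.Agent.R113.Basic
import Crest.Agent.R113.CircleDefs
import Crest.Agent.R113.SectionL

/-! # T13/T14: from the fibres to the finite model — blueprint 6834 sec. 5 -/

set_option autoImplicit false

namespace Crest.Agent.R113

open scoped BigOperators
open MeasureTheory

/-- T13a. Finite sections: `E` = spectral subspace of the section for eigenvalues
`≥ 1 - e^{-2cs}`, `E'_n = {≥ 1 - e^{-4cs}} ∩ ℂ^{[0,q-n)}`. -/
theorem section_lemma (P : l2Z →L[ℂ] l2Z) (hP : IsStarProjection P) (u : ℤ → ℝ)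
    (hu : ∀ m, 0 ≤ u m)
    (hinv : ∀ v v' : l2Z, P v = v → (∀ m : ℤ, v' (m + 1) = (Real.exp (-u m) : ℂ) * v m) →
      P v' = v')
    (q : ℕ) (cs : ℝ) (hcs : 1 ≤ cs) :
    ∃ E : Submodule ℂ (EuclideanSpace ℂ (Fin q)),
      |(Module.finrank ℂ E : ℝ) - ∑ j ∈ Finset.range q, ‖P (dl j)‖ ^ 2|
        ≤ 10 * Real.exp (2 * cs) * defect P q ∧
      ∑ i, ∑ j, ‖ent E i j - entZ P (i : ℕ) (j : ℕ)‖ ^ 2 ≤ 10 * Real.exp (2 * cs) * defect P q ∧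
      ∀ n : ℕ, ∃ E' : Submodule ℂ (EuclideanSpace ℂ (Fin q)),
        AppInv E E' u n (Real.exp (-cs)) (10 * Real.exp (4 * cs) * defect P q + n) :=
  Sec.section_lemma_aux P hP u hu hinv q cs hcs (defect P q) rfl

/-- T14. `L¹` mean ergodic theorem for the fibre trace. -/
theorem ergodic_L1 {θ : ℝ} (hθ : Irrational θ) (h : TT → ℝ) (hm : Measurable h)
    (h0 : ∀ x, 0 ≤ h x) (h1 : ∀ x, h x ≤ 1) :
    Filter.Tendsto (fun n : ℕ =>
      ∫ x : TT, |(∑ i ∈ Finset.range n, h (orb θ x i)) / n - ∫ y : TT, h y|)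
      Filter.atTop (nhds 0) := by
  sorry

/-- T13. The transfer theorem. -/
theorem transfer {θ : ℝ} (hθ : Irrational θ) {w : ℕ → ℕ → Bool} {c e : ℕ → ℝ} {g : ℕ → ℕ}
    {f : TT → ℝ} {lev : ℕ → TT → ℕ} {Bad : ℕ → Set TT} (hD : IsDesign θ w c e g f lev Bad)
    {P : TT → (l2Z →L[ℂ] l2Z)} {ρ : ℝ} (hP : FibreFamily θ f P ρ) :
    ∀ η1 : ℝ, 0 < η1 → ∃ l0 : ℕ, ∀ lh : ℕ, l0 ≤ lh → ∀ η' : ℝ, 0 < η' → ∃ R : ℕ, 1 ≤ R ∧
      ∀ (B J N q0 : ℕ) (cs η : ℝ), 10 ≤ B → 0 < η →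
        ∃ (q : ℕ) (u : ℤ → ℝ) (lev' : ℕ → ℤ → ℕ) (bad' : ℕ → Set ℤ)
          (E : Submodule ℂ (EuclideanSpace ℂ (Fin q))),
          q0 ≤ q ∧ OrbitData w c e g u lev' bad' ∧ OrbitCounts q N B J lev' bad' ∧
          |(Module.finrank ℂ E : ℝ) - ρ * q| ≤ η * q ∧
          (∀ n ≤ N, ∃ E' : Submodule ℂ (EuclideanSpace ℂ (Fin q)),
            AppInv E E' u n (Real.exp (-cs)) (η * q)) ∧
          ∑ i : Fin q, ∑ j : Fin q,
            min 1 (((((i : ℕ) : ℝ) - (j : ℕ)) / R) ^ 2) * ‖ent E i j‖ ^ 2 ≤ η' * q ∧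
          ∑ m ∈ Finset.range (q - lh),
            |∑ i ∈ Finset.range lh, ((if h : m + i < q then dg E ⟨m + i, h⟩ else 0) - ρ)|
              ≤ η1 * lh * q := by
  sorry

end Crest.Agent.R113
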