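import Crest.Agent.R113.TransferOp

/-! Row 113, S0149, task T13: the deterministic part of the transfer. -/

set_option autoImplicit false
set_option linter.unusedSectionVars false

open scoped InnerProductSpace ComplexConjugate

namespace Crest.Agent.R113.Transfer

/-- truncated `n`-th power of the weighted shift with weights `w : ℤ → ℝ` -/
noncomputable def shiftPowW (w : ℤ → ℝ) (q n : ℕ) (v : EuclideanSpace ℂ (Fin q)) :
    EuclideanSpace ℂ (Fin q) :=
  WithLp.toLp 2 fun j : Fin q => if h : n ≤ (j : ℕ) then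
    ((∏ i ∈ Finset.range n, w (((j : ℕ) - n + i : ℕ) : ℤ) : ℝ) : ℂ)
      * v ⟨(j : ℕ) - n, by have := j.2; omega⟩ else 0

lemma shiftPow_eq (θ : ℝ) (F : UnitAddCircle → ℝ) (x : UnitAddCircle) (q n : ℕ)
    (v : EuclideanSpace ℂ (Fin q)) :
    shiftPow θ F x q n v = shiftPowW (fun m => F (x + m • ((θ : ℝ) : UnitAddCircle))) q n v := rfl

lemma emb_shiftPowW {w : ℤ → ℝ} {hw : ∀ j, |w j| ≤ 1} (q n : ℕ) (v : EuclideanSpace ℂ (Fin q))
    (hv : ∀ m : Fin q, q ≤ (m : ℕ) + n → v m = 0) :
    emb q (shiftPowW w q n v) = ((wsh w hw) ^ n) (emb q v) := by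
  apply lp.ext
  funext k
  rw [wsh_pow_apply, emb_apply, emb_apply]
  by_cases h : 0 ≤ k ∧ k < q
  · rw [dif_pos h]
    simp only [shiftPowW]
    by_cases h2 : n ≤ k.toNat
    · rw [dif_pos h2, dif_pos (by omega)]
      congr 1
      · congr 1
        apply Finset.prod_congr rfl
        intro i _
        congr 1
        omega
      · have h3 : (⟨k.toNat - n, by omega⟩ : Fin q) = ⟨(k - (n : ℤ)).toNat, by omega⟩ := by
          apply Fin.ext
          simp only
          omega
        rw [h3]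
    · rw [dif_neg h2, dif_neg (by omega), mul_zero]
  · rw [dif_neg h]
    by_cases h2 : 0 ≤ k - n ∧ k - n < q
    · rw [dif_pos h2, hv _ (by simp only; omega), mul_zero]
    · rw [dif_neg h2, mul_zero]

lemma inv_pow {P T : L2Z →L[ℂ] L2Z} (hinv : (1 - P) * T * P = 0) (n : ℕ) :
    (1 - P) * T ^ n * P = 0 ∨ (1 - P) * P ≠ 0 := by
  by_cases hPP : (1 - P) * P = 0
  · left
    induction n with
    | zero => simpa using hPP
    | succ n ih =>
      have h1 : T ^ n * P = P * (T ^ n * P) := by
        have : (1 - P) * (T ^ n * P) = 0 := by rw [← mul_assoc]; exact ih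
        rw [sub_mul, one_mul, sub_eq_zero] at this
        exact this
      rw [pow_succ', mul_assoc, mul_assoc, h1]
      calc (1 - P) * (T * (P * (T ^ n * P))) = ((1 - P) * T * P) * (T ^ n * P) := by
            simp only [mul_assoc]
        _ = 0 := by rw [hinv, zero_mul]
  · right; exact hPP

lemma inv_norm {w : ℤ → ℝ} {hw : ∀ j, |w j| ≤ 1} {P : L2Z →L[ℂ] L2Z} (hP : IsStarProjection P)
    (hinv : (1 - P) * wsh w hw * P = 0) (n : ℕ) (h : L2Z) :
    ‖((wsh w hw) ^ n) h - P (((wsh w hw) ^ n) h)‖ ≤ ‖h - P h‖ := by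
  have hPP : P * P = P := hP.isIdempotentElem
  have h0 : (1 - P) * P = 0 := by rw [sub_mul, one_mul, hPP, sub_self]
  have h1 : (1 - P) * (wsh w hw) ^ n * P = 0 := by
    rcases inv_pow hinv n with h | h
    · exact h
    · exact absurd h0 h
  have h2 : ((1 - P) * (wsh w hw) ^ n * P) h = 0 := by rw [h1]; rfl
  have h3 : ((wsh w hw) ^ n) (P h) - P (((wsh w hw) ^ n) (P h)) = 0 := by
    simpa [mul_apply_eq_comp] using h2
  set S := (wsh w hw) ^ n with hS
  have h4 : S h - P (S h) = S (h - P h) - P (S (h - P h)) := by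
    rw [map_sub, map_sub]
    have : S h - P (S h) = (S h - S (P h)) - (P (S h) - P (S (P h))) +
      (S (P h) - P (S (P h))) := by abel
    rw [this, h3, add_zero]
  rw [h4]
  have h5 : ‖S (h - P h) - P (S (h - P h))‖ ≤ ‖S (h - P h)‖ := by
    have := proj_sub_norm hP (S (h - P h))
    have h6 : ‖S (h - P h) - P (S (h - P h))‖ ^ 2 ≤ ‖S (h - P h)‖ ^ 2 := by
      rw [this]; linarith [sq_nonneg ‖P (S (h - P h))‖]
    exact le_of_sq_le_sq h6 (norm_nonneg _)
  exact h5.trans (wsh_pow_norm_le n _)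
where
  le_of_sq_le_sq {a b : ℝ} (h : a ^ 2 ≤ b ^ 2) (hb : 0 ≤ b) : a ≤ b := abs_le_of_sq_le_sq' h hb |>.2

/-- the trace defect `tr (A - A²)` of the compression -/
noncomputable def defect (P : L2Z →L[ℂ] L2Z) (q : ℕ) : ℝ :=
  ∑ m : Fin q, (‖P (dz ((m : ℕ) : ℤ))‖ ^ 2 -
    ∑ m' : Fin q, ‖(P (dz ((m : ℕ) : ℤ)) : ℤ → ℂ) ((m' : ℕ) : ℤ)‖ ^ 2)

theorem determ {w : ℤ → ℝ} {hw : ∀ j, |w j| ≤ 1} {P : L2Z →L[ℂ] L2Z} (hP : IsStarProjection P)
    (hinv : (1 - P) * wsh w hw * P = 0) (q : ℕ) (c : ℝ) (hc : 1 ≤ c) :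
    ∃ E : Submodule ℂ (EuclideanSpace ℂ (Fin q)),
      |(Module.finrank ℂ E : ℝ) - ∑ m : Fin q, ‖P (dz ((m : ℕ) : ℤ))‖ ^ 2| ≤
        Real.exp (2 * c) * defect P q ∧
      (∀ n : ℕ, ∃ E' : Submodule ℂ (EuclideanSpace ℂ (Fin q)), E' ≤ E ∧
        (Module.finrank ℂ E : ℝ) ≤ Module.finrank ℂ E' + (2 * Real.exp (4 * c) * defect P q + n) ∧
        ∀ v ∈ E', (∀ m : Fin q, q ≤ (m : ℕ) + n → v m = 0) ∧
          ‖shiftPowW w q n v - E.starProjection (shiftPowW w q n v)‖ ≤ Real.exp (-c) * ‖v‖) ∧
      ∑ m : Fin q, |‖E.starProjection (dlt m)‖ ^ 2 - ‖P (dz ((m : ℕ) : ℤ))‖ ^ 2| ≤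
        Real.exp (2 * c) * defect P q ∧
      ∑ m : Fin q, ∑ m' : Fin q, ‖⟪dlt m', E.starProjection (dlt m)⟫_ℂ -
          (P (dz ((m : ℕ) : ℤ)) : ℤ → ℂ) ((m' : ℕ) : ℤ)‖ ^ 2 ≤
        Real.exp (2 * c) * defect P q := by
  classical
  set A := compr q P with hA
  set e := EuclideanSpace.basisFun (Fin q) ℂ with he
  have hem : ∀ m, e m = dlt m := fun m => by
    rw [he, EuclideanSpace.basisFun_apply]
  have h0 : ∀ v, 0 ≤ (⟪v, A v⟫_ℂ).re := fun v => by rw [hA, compr_quad hP]; positivity
  have hPle : ∀ h : L2Z, ‖P h‖ ^ 2 ≤ ‖h‖ ^ 2 := fun h => by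
    have := proj_sub_norm hP h
    have h2 := sq_nonneg ‖h - P h‖
    linarith
  have h1 : ∀ v, (⟪v, A v⟫_ℂ).re ≤ ‖v‖ ^ 2 := fun v => by
    rw [hA, compr_quad hP]
    refine (hPle _).trans ?_
    rw [(emb q).norm_map]
  have hexp2 : Real.exp (-2 * c) ≤ 1 / 2 := by
    have h2 : Real.exp (-2 * c) ≤ Real.exp (-1) := Real.exp_le_exp.2 (by linarith)
    have h3 : Real.exp (-1) < 1 / 2 := by
      rw [Real.exp_neg]
      have := Real.add_one_lt_exp (x := 1) (by norm_num)
      rw [inv_eq_one_div]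
      apply one_div_lt_one_div_of_lt <;> linarith
    linarith
  have hexp4 : Real.exp (-4 * c) ≤ Real.exp (-2 * c) := Real.exp_le_exp.2 (by linarith)
  obtain ⟨E, E1, hle, hE1, hEg, hcnt, hdim, hdiag, hHS⟩ := spectral_exists e A (compr_sym hP) h0 h1
    (1 - Real.exp (-2 * c)) (1 - Real.exp (-4 * c)) (by linarith) (by linarith)
    (by linarith [Real.exp_pos (-4 * c)])
  have hquad : ∀ m : Fin q, (⟪e m, A (e m)⟫_ℂ).re = ‖P (dz ((m : ℕ) : ℤ))‖ ^ 2 := fun m => by
    rw [hem, hA, compr_quad hP, emb_single]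
  have hAcoord : ∀ m m' : Fin q, ⟪dlt m', A (dlt m)⟫_ℂ =
      (P (dz ((m : ℕ) : ℤ)) : ℤ → ℂ) ((m' : ℕ) : ℤ) := fun m m' => by
    rw [hA, inner_compr, emb_single, emb_single, inner_dz]
  have hAnorm : ∀ m : Fin q, ‖A (e m)‖ ^ 2 =
      ∑ m' : Fin q, ‖(P (dz ((m : ℕ) : ℤ)) : ℤ → ℂ) ((m' : ℕ) : ℤ)‖ ^ 2 := fun m => by
    rw [norm_sq_eq_sum e]
    apply Finset.sum_congr rfl
    intro m' _
    rw [hem, hem, hAcoord]
  have hdef : ∑ m, ((⟪e m, A (e m)⟫_ℂ).re - ‖A (e m)‖ ^ 2) = defect P q := by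
    unfold defect
    apply Finset.sum_congr rfl
    intro m _
    rw [hquad, hAnorm]
  have hinvexp : ∀ a : ℝ, 1 / Real.exp (-2 * c) = Real.exp (2 * c) := fun _ => by
    rw [show -2 * c = -(2 * c) by ring, Real.exp_neg]; simp
  have hconv : ∀ a : ℝ, a / (1 - (1 - Real.exp (-2 * c))) = Real.exp (2 * c) * a := by
    intro a
    rw [sub_sub_cancel, div_eq_mul_one_div, hinvexp a]; ring
  have hdef0 : 0 ≤ defect P q := by
    have h5 := hdim
    rw [hdef, hconv] at h5
    have h6 := (abs_nonneg _).trans h5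
    exact nonneg_of_mul_nonneg_right h6 (Real.exp_pos _)
  rw [hdef, hconv] at hdim hdiag hHS
  rw [hdef] at hcnt
  simp_rw [hquad] at hdim
  refine ⟨E, hdim, ?_, ?_, ?_⟩
  · intro n
    set S : Finset (Fin q) := Finset.univ.filter (fun m => (m : ℕ) + n < q) with hS
    refine ⟨E1 ⊓ spanSet e S, inf_le_left.trans hle, ?_, ?_⟩
    · -- dimension count
      have hd1 := Submodule.finrank_sup_add_finrank_inf_eq E1 (spanSet e S)
      have hd2 : Module.finrank ℂ ↥(E1 ⊔ spanSet e S) ≤ q := by
        have := Submodule.finrank_le (E1 ⊔ spanSet e S)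
        simpa using this
      have hd3' : q ≤ Module.finrank ℂ (spanSet e S) + n := by
        rw [finrank_spanSet]
        have hc : Finset.card (Finset.univ.filter (fun m : Fin q => ¬ ((m : ℕ) + n < q))) ≤ n := by
          have : (Finset.univ.filter (fun m : Fin q => ¬ ((m : ℕ) + n < q))).card ≤
              (Finset.range n).card := by
            apply Finset.card_le_card_of_injOn (fun m : Fin q => q - 1 - (m : ℕ))
            · intro m hm
              have hm' : ¬ ((m : ℕ) + n < q) := by simpa using hm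
              have := m.2
              simp only [Finset.coe_range, Set.mem_Iio]
              omega
            · intro m _ m' _ hmm
              have := m.2; have := m'.2
              apply Fin.ext
              simp only at hmm
              omega
          simpa using this
        have hc2 := Finset.card_filter_add_card_filter_not (s := (Finset.univ : Finset (Fin q)))
          (fun m : Fin q => (m : ℕ) + n < q)
        rw [Finset.card_univ, Fintype.card_fin] at hc2
        rw [← hS] at hc2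
        omega
      have hd4 : Module.finrank ℂ E1 ≤ Module.finrank ℂ ↥(E1 ⊓ spanSet e S) + n := by omega
      have hd5 : (Module.finrank ℂ E1 : ℝ) ≤ Module.finrank ℂ ↥(E1 ⊓ spanSet e S) + n := by
        exact_mod_cast hd4
      -- from the count
      have hpos : 0 < (1 - Real.exp (-2 * c)) * (1 - (1 - Real.exp (-4 * c))) := by
        apply mul_pos
        · linarith
        · rw [sub_sub_cancel]; exact Real.exp_pos _
      have hd6 : (Module.finrank ℂ E : ℝ) - Module.finrank ℂ E1 ≤
          2 * Real.exp (4 * c) * defect P q := by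
        have h7 : (1 / 2) * Real.exp (-4 * c) ≤
            (1 - Real.exp (-2 * c)) * (1 - (1 - Real.exp (-4 * c))) := by
          rw [sub_sub_cancel]
          apply mul_le_mul_of_nonneg_right (by linarith) (Real.exp_pos _).le
        have h8 : (0 : ℝ) ≤ (Module.finrank ℂ E : ℝ) - Module.finrank ℂ E1 := by
          have := Submodule.finrank_mono hle
          have h9 : (Module.finrank ℂ E1 : ℝ) ≤ Module.finrank ℂ E := by exact_mod_cast this
          linarith
        have h10 : ((Module.finrank ℂ E : ℝ) - Module.finrank ℂ E1) *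
            ((1 / 2) * Real.exp (-4 * c)) ≤ defect P q :=
          (mul_le_mul_of_nonneg_left h7 h8).trans hcnt
        have h11 : Real.exp (-4 * c) * Real.exp (4 * c) = 1 := by
          rw [← Real.exp_add]; simp
        calc (Module.finrank ℂ E : ℝ) - Module.finrank ℂ E1
            = 2 * Real.exp (4 * c) * (((Module.finrank ℂ E : ℝ) - Module.finrank ℂ E1) *
              ((1 / 2) * Real.exp (-4 * c))) := by
              have : 2 * Real.exp (4 * c) * (((Module.finrank ℂ E : ℝ) - Module.finrank ℂ E1) *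
                ((1 / 2) * Real.exp (-4 * c))) = ((Module.finrank ℂ E : ℝ) - Module.finrank ℂ E1)
                * (Real.exp (-4 * c) * Real.exp (4 * c)) := by ring
              rw [this, h11, mul_one]
          _ ≤ 2 * Real.exp (4 * c) * defect P q :=
              mul_le_mul_of_nonneg_left h10 (by positivity)
      linarith
    · intro v hv
      have hv1 : v ∈ E1 := hv.1
      have hv2 : v ∈ spanSet e S := hv.2
      have hsupp : ∀ m : Fin q, q ≤ (m : ℕ) + n → v m = 0 := by
        intro m hm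
        have hmS : m ∉ S := by rw [hS, Finset.mem_filter]; push Not; intro _; exact hm
        have := inner_eq_zero_of_mem_spanSet e S hv2 hmS
        rw [hem] at this
        have h30 : ⟪dlt m, v⟫_ℂ = v m := by
          rw [EuclideanSpace.inner_single_left]; simp
        rw [h30] at this
        exact this
      refine ⟨hsupp, ?_⟩
      have hg := hEg (shiftPowW w q n v)
      rw [sub_sub_cancel] at hg
      rw [hA, compr_quad hP, emb_shiftPowW (hw := hw) q n v hsupp] at hg
      have hn : ‖shiftPowW w q n v‖ = ‖((wsh w hw) ^ n) (emb q v)‖ := by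
        rw [← emb_shiftPowW (hw := hw) q n v hsupp, (emb q).norm_map]
      rw [hn, ← proj_sub_norm hP] at hg
      have h20 := inv_norm hP hinv n (emb q v)
      have h21 : ‖emb q v - P (emb q v)‖ ^ 2 ≤ Real.exp (-4 * c) * ‖v‖ ^ 2 := by
        rw [proj_sub_norm hP, (emb q).norm_map]
        have := hE1 v hv1
        rw [hA, compr_quad hP] at this
        linarith
      have h22 : ‖((wsh w hw) ^ n) (emb q v) - P (((wsh w hw) ^ n) (emb q v))‖ ^ 2 ≤
          Real.exp (-4 * c) * ‖v‖ ^ 2 :=
        (pow_le_pow_left₀ (norm_nonneg _) h20 2).trans h21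
      have h23 := hg.trans h22
      have h24 : ‖shiftPowW w q n v - E.starProjection (shiftPowW w q n v)‖ ^ 2 ≤
          (Real.exp (-c) * ‖v‖) ^ 2 := by
        have h25 : Real.exp (-4 * c) = Real.exp (-2 * c) * Real.exp (-2 * c) := by
          rw [← Real.exp_add]; ring_nf
        rw [h25, mul_assoc] at h23
        have h26 := le_of_mul_le_mul_left h23 (Real.exp_pos _)
        rw [mul_pow, ← Real.exp_nat_mul]
        have h27 : Real.exp (((2 : ℕ) : ℝ) * -c) = Real.exp (-2 * c) := by
          congr 1; push_cast; ring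
        rw [h27]; exact h26
      exact (abs_le_of_sq_le_sq' h24 (by positivity)).2
  · refine le_trans (le_of_eq ?_) hdiag
    apply Finset.sum_congr rfl
    intro m _
    rw [hquad, hem]
  · refine le_trans (le_of_eq ?_) hHS
    apply Finset.sum_congr rfl
    intro m _
    rw [norm_sq_eq_sum e]
    apply Finset.sum_congr rfl
    intro m' _
    rw [hem, hem, inner_sub_right, hAcoord]

end Crest.Agent.R113.Transfer
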