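import Crest.Agent.R113.TransferLA
import Crest.Agent.R113.TransferDefs

/-! Row 113, S0149, task T13: compression of a projection on `ℓ²(ℤ)` to `ℂ^q`
and the deterministic part of the transfer. -/

set_option autoImplicit false
set_option linter.unusedSectionVars false

open scoped InnerProductSpace ComplexConjugate

namespace Crest.Agent.R113.Transfer

/-- basis vector of `ℓ²(ℤ)` -/
noncomputable abbrev dz (m : ℤ) : L2Z := lp.single 2 m (1 : ℂ)

lemma two_toReal_pos : 0 < (2 : ENNReal).toReal := by norm_num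

lemma inner_dz (m : ℤ) (f : L2Z) : ⟪dz m, f⟫_ℂ = f m := by
  rw [lp.inner_single_left]; simp

lemma dz_apply (m k : ℤ) : (dz m : L2Z) k = if k = m then 1 else 0 := by
  rw [lp.single_apply, Pi.single_apply]

lemma norm_dz (m : ℤ) : ‖dz m‖ = 1 := by
  rw [lp.norm_single (by norm_num)]; simp

section Shift

theorem wfun_sum_le {w : ℤ → ℝ} (hw : ∀ j, |w j| ≤ 1) (v : L2Z) (s : Finset ℤ) :
    ∑ k ∈ s, ‖(w (k - 1) : ℂ) * v (k - 1)‖ ^ (2 : ENNReal).toReal ≤ ‖v‖ ^ (2 : ENNReal).toReal := by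
  have h1 : ∀ k, ‖(w (k - 1) : ℂ) * v (k - 1)‖ ^ (2 : ENNReal).toReal ≤
      ‖v (k - 1)‖ ^ (2 : ENNReal).toReal := by
    intro k
    apply Real.rpow_le_rpow (norm_nonneg _) _ (le_of_lt two_toReal_pos)
    rw [norm_mul, Complex.norm_real]
    exact mul_le_of_le_one_left (norm_nonneg _) (hw _)
  calc ∑ k ∈ s, ‖(w (k - 1) : ℂ) * v (k - 1)‖ ^ (2 : ENNReal).toReal
      ≤ ∑ k ∈ s, ‖v (k - 1)‖ ^ (2 : ENNReal).toReal :=
        Finset.sum_le_sum fun k _ => h1 k
    _ = ∑ k ∈ s.map (Equiv.subRight (1 : ℤ)).toEmbedding,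
          ‖v k‖ ^ (2 : ENNReal).toReal := by
        rw [Finset.sum_map]; rfl
    _ ≤ ‖v‖ ^ (2 : ENNReal).toReal := lp.sum_rpow_le_norm_rpow two_toReal_pos v _

/-- The weighted shift operator `δ_j ↦ w_j δ_{j+1}` on `ℓ²(ℤ)`, for weights bounded by one. -/
noncomputable def wsh (w : ℤ → ℝ) (hw : ∀ j, |w j| ≤ 1) : L2Z →L[ℂ] L2Z :=
  LinearMap.mkContinuous
    { toFun := fun v => ⟨fun k => (w (k - 1) : ℂ) * v (k - 1), memℓp_gen' (wfun_sum_le hw v)⟩
      map_add' := by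
        intro u v
        apply lp.ext
        funext k
        change (w (k - 1) : ℂ) * (u + v) (k - 1) = (w (k - 1) : ℂ) * u (k - 1) + (w (k - 1) : ℂ) * v (k - 1)
        rw [lp.coeFn_add, Pi.add_apply, mul_add]
      map_smul' := by
        intro c v
        apply lp.ext
        funext k
        change (w (k - 1) : ℂ) * (c • v) (k - 1) = c * ((w (k - 1) : ℂ) * v (k - 1))
        rw [lp.coeFn_smul, Pi.smul_apply, smul_eq_mul]
        ring }
    1 (by
      intro v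
      rw [one_mul]
      apply lp.norm_le_of_forall_sum_le two_toReal_pos (norm_nonneg _)
      intro s
      exact wfun_sum_le hw v s)

theorem wsh_apply {w : ℤ → ℝ} {hw : ∀ j, |w j| ≤ 1} (v : L2Z) (k : ℤ) :
    wsh w hw v k = (w (k - 1) : ℂ) * v (k - 1) := rfl

theorem wsh_norm_le {w : ℤ → ℝ} {hw : ∀ j, |w j| ≤ 1} (v : L2Z) : ‖wsh w hw v‖ ≤ ‖v‖ := by
  have := (wsh w hw).le_of_opNorm_le (LinearMap.mkContinuous_norm_le _ zero_le_one _) v
  simpa using this

theorem wsh_single {w : ℤ → ℝ} {hw : ∀ j, |w j| ≤ 1} (m : ℤ) :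
    wsh w hw (dz m) = (w m : ℂ) • dz (m + 1) := by
  apply lp.ext
  funext k
  rw [wsh_apply, lp.coeFn_smul, Pi.smul_apply, dz_apply, dz_apply, smul_eq_mul]
  by_cases h : k = m + 1
  · subst h; simp
  · rw [if_neg (by omega), if_neg h, mul_zero, mul_zero]

theorem wsh_pow_apply {w : ℤ → ℝ} {hw : ∀ j, |w j| ≤ 1} (n : ℕ) (v : L2Z) (k : ℤ) :
    ((wsh w hw) ^ n) v k = ((∏ i ∈ Finset.range n, w (k - n + i) : ℝ) : ℂ) * v (k - n) := by
  induction n generalizing k with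
  | zero => simp
  | succ n ih =>
    rw [pow_succ', mul_apply_eq_comp, wsh_apply, ih]
    rw [Finset.prod_range_succ']
    have h1 : (k - 1 - (n : ℤ)) = k - ((n + 1 : ℕ) : ℤ) := by push_cast; ring
    rw [h1]
    -- reorganise the product
    have h2 : (∏ i ∈ Finset.range n, w (k - ((n + 1 : ℕ) : ℤ) + i)) * w (k - 1) =
        (∏ i ∈ Finset.range n, w (k - ((n + 1 : ℕ) : ℤ) + ((i + 1 : ℕ) : ℤ))) *
          w (k - ((n + 1 : ℕ) : ℤ) + ((0 : ℕ) : ℤ)) := by
      rw [← Finset.prod_range_succ' (fun i : ℕ => w (k - ((n + 1 : ℕ) : ℤ) + (i : ℤ))) n,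
        Finset.prod_range_succ]
      congr 2
      push_cast; ring
    rw [← h2]
    push_cast
    ring

theorem wsh_pow_norm_le {w : ℤ → ℝ} {hw : ∀ j, |w j| ≤ 1} (n : ℕ) (v : L2Z) :
    ‖((wsh w hw) ^ n) v‖ ≤ ‖v‖ := by
  induction n with
  | zero => simp
  | succ n ih =>
    rw [pow_succ', mul_apply_eq_comp]
    exact (wsh_norm_le _).trans ih

end Shift

section Embedding

variable (q : ℕ)

/-- the embedding `ℂ^q → ℓ²(ℤ)` -/
noncomputable def embL : EuclideanSpace ℂ (Fin q) →ₗ[ℂ] L2Z where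
  toFun v := ∑ m : Fin q, v m • dz ((m : ℕ) : ℤ)
  map_add' u v := by
    simp only [PiLp.add_apply, add_smul, Finset.sum_add_distrib]
  map_smul' c v := by
    simp only [PiLp.smul_apply, smul_eq_mul, mul_smul, Finset.smul_sum, RingHom.id_apply]

lemma embL_apply (v : EuclideanSpace ℂ (Fin q)) (k : ℤ) :
    (embL q v) k = if h : 0 ≤ k ∧ k < q then v ⟨k.toNat, by omega⟩ else 0 := by
  have h1 : (embL q v) k = ∑ m : Fin q, v m * (if k = ((m : ℕ) : ℤ) then 1 else 0) := by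
    have : (embL q v) k = ⟪dz k, embL q v⟫_ℂ := (inner_dz k _).symm
    rw [this]
    change ⟪dz k, ∑ m : Fin q, v m • dz ((m : ℕ) : ℤ)⟫_ℂ = _
    rw [inner_sum]
    apply Finset.sum_congr rfl
    intro m _
    rw [inner_smul_right, inner_dz, dz_apply]
  rw [h1]
  split_ifs with h
  · rw [Finset.sum_eq_single (⟨k.toNat, by omega⟩ : Fin q)]
    · rw [if_pos, mul_one]
      simp only
      omega
    · intro m _ hm
      rw [if_neg, mul_zero]
      intro h'
      apply hm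
      apply Fin.ext
      simp only
      omega
    · intro h'; exact absurd (Finset.mem_univ _) h'
  · apply Finset.sum_eq_zero
    intro m _
    rw [if_neg, mul_zero]
    intro h'
    have := m.2
    omega

lemma embL_single (m : Fin q) : embL q (dlt m) = dz ((m : ℕ) : ℤ) := by
  change ∑ m' : Fin q, (dlt m : EuclideanSpace ℂ (Fin q)) m' • dz ((m' : ℕ) : ℤ) = _
  rw [Finset.sum_eq_single m]
  · simp
  · intro m' _ hm
    simp [hm]
  · intro h; exact absurd (Finset.mem_univ _) h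

lemma embL_inner (u v : EuclideanSpace ℂ (Fin q)) : ⟪embL q u, embL q v⟫_ℂ = ⟪u, v⟫_ℂ := by
  change ⟪∑ m : Fin q, u m • dz ((m : ℕ) : ℤ), embL q v⟫_ℂ = _
  rw [sum_inner, PiLp.inner_apply]
  apply Finset.sum_congr rfl
  intro m _
  rw [inner_smul_left, inner_dz, embL_apply, dif_pos ⟨by omega, by have := m.2; omega⟩]
  simp [mul_comm]

/-- the isometric embedding `ℂ^q → ℓ²(ℤ)` -/
noncomputable def emb : EuclideanSpace ℂ (Fin q) →ₗᵢ[ℂ] L2Z :=
  (embL q).isometryOfInner (embL_inner q)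

lemma emb_apply (v : EuclideanSpace ℂ (Fin q)) (k : ℤ) :
    (emb q v) k = if h : 0 ≤ k ∧ k < q then v ⟨k.toNat, by omega⟩ else 0 := embL_apply q v k

lemma emb_single (m : Fin q) : emb q (dlt m) = dz ((m : ℕ) : ℤ) := embL_single q m

/-- the compression of an operator to `ℂ^q` -/
noncomputable def compr (P : L2Z →L[ℂ] L2Z) :
    EuclideanSpace ℂ (Fin q) →ₗ[ℂ] EuclideanSpace ℂ (Fin q) :=
  ((emb q).toContinuousLinearMap.adjoint ∘L P ∘L (emb q).toContinuousLinearMap :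
    EuclideanSpace ℂ (Fin q) →L[ℂ] EuclideanSpace ℂ (Fin q)).toLinearMap

lemma inner_compr (P : L2Z →L[ℂ] L2Z) (u v : EuclideanSpace ℂ (Fin q)) :
    ⟪u, compr q P v⟫_ℂ = ⟪emb q u, P (emb q v)⟫_ℂ := by
  change ⟪u, (emb q).toContinuousLinearMap.adjoint (P (emb q v))⟫_ℂ = _
  rw [ContinuousLinearMap.adjoint_inner_right]
  rfl

variable {q}

lemma proj_inner {P : L2Z →L[ℂ] L2Z} (hP : IsStarProjection P) (h : L2Z) :
    ⟪h, P h⟫_ℂ = (‖P h‖ ^ 2 : ℝ) := by
  have h1 : P (P h) = P h := by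
    have := hP.isIdempotentElem
    exact congrArg (fun T : L2Z →L[ℂ] L2Z => T h) this
  have h2 : ⟪h, P (P h)⟫_ℂ = ⟪P h, P h⟫_ℂ := by
    rw [← ContinuousLinearMap.adjoint_inner_left]
    have := hP.isSelfAdjoint
    rw [ContinuousLinearMap.isSelfAdjoint_iff'.1 this]
  rw [← h1, h2, inner_self_eq_norm_sq_to_K]
  rw [h1]
  norm_cast

lemma proj_sub_norm {P : L2Z →L[ℂ] L2Z} (hP : IsStarProjection P) (h : L2Z) :
    ‖h - P h‖ ^ 2 = ‖h‖ ^ 2 - ‖P h‖ ^ 2 := by
  have h1 := proj_inner hP h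
  have h2 : (⟪h, P h⟫_ℂ).re = ‖P h‖ ^ 2 := by rw [h1]; norm_cast
  have := @norm_sub_sq ℂ L2Z _ _ _ h (P h)
  rw [this]
  have h3 : RCLike.re ⟪h, P h⟫_ℂ = ‖P h‖ ^ 2 := h2
  rw [h3]; ring

lemma compr_sym {P : L2Z →L[ℂ] L2Z} (hP : IsStarProjection P) :
    (compr q P).IsSymmetric := by
  intro u v
  rw [← inner_conj_symm, inner_compr, inner_compr, inner_conj_symm,
    ← ContinuousLinearMap.adjoint_inner_right,
    ContinuousLinearMap.isSelfAdjoint_iff'.1 hP.isSelfAdjoint]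

lemma compr_quad {P : L2Z →L[ℂ] L2Z} (hP : IsStarProjection P) (v : EuclideanSpace ℂ (Fin q)) :
    (⟪v, compr q P v⟫_ℂ).re = ‖P (emb q v)‖ ^ 2 := by
  rw [inner_compr, proj_inner hP]
  norm_cast

end Embedding

end Crest.Agent.R113.Transfer
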