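import Crest.Agent.R113.TwoFib

/-!
# Row 113, S0150: the costs on the 2-adic odometer
-/

set_option autoImplicit false

namespace Crest.Agent.R113.Two

open Crest.AnalysisR.TwoAdic MeasureTheory Filter Topology

attribute [local instance] Crest.AnalysisR.TwoAdic.borelTwoAdic
  Crest.AnalysisR.TwoAdic.borelSpace_twoAdic

/-- Growth of the costs. -/
noncomputable def Gc (m : ℕ) : ℝ := 10 * 32 ^ (m ^ 2)

theorem Gc_mono : Monotone Gc := by
  intro a b h
  unfold Gc
  have : (32 : ℝ) ^ (a ^ 2) ≤ 32 ^ (b ^ 2) :=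
    pow_le_pow_right₀ (by norm_num) (Nat.pow_le_pow_left h 2)
  linarith

theorem Gc_zero : Gc 0 = 10 := by simp [Gc]

theorem Gc_ge_ten (m : ℕ) : 10 ≤ Gc m := by
  have := Gc_mono (Nat.zero_le m)
  rwa [Gc_zero] at this

theorem Gc_nonneg (m : ℕ) : 0 ≤ Gc m := le_trans (by norm_num) (Gc_ge_ten m)

theorem Gc_ge (m : ℕ) : 10 * (2 ^ (m + 1) - 1 : ℝ) ≤ Gc m := by
  unfold Gc
  rcases Nat.eq_zero_or_pos m with h | h
  · subst h; norm_num
  · have h1 : (2 : ℝ) ^ (m + 1) ≤ 32 ^ (m ^ 2) := by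
      have : (32 : ℝ) = 2 ^ 5 := by norm_num
      rw [this, ← pow_mul]
      apply pow_le_pow_right₀ (by norm_num)
      nlinarith
    linarith

/-- Valuation of `x + i`. -/
noncomputable def vv (x : ℤ_[2]) (i : ℤ) : ℕ := (x + (i : ℤ_[2])).valuation

/-- Maximal valuation over a window. -/
noncomputable def lv (x : ℤ_[2]) (a b : ℤ) : ℕ := (Finset.Icc a b).sup (vv x)

/-- Running maximum of the valuations. -/
noncomputable def lev (x : ℤ_[2]) (j : ℤ) : ℕ := if 0 ≤ j then lv x 0 j else lv x j (-1)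

/-- The cost. -/
noncomputable def cost (x : ℤ_[2]) (j : ℤ) : ℝ := Gc (lev x j)

/-- Generic points: those which are not integers. -/
def Gen (x : ℤ_[2]) : Prop := x ∉ Set.range (Int.cast : ℤ → ℤ_[2])

theorem Gen.add_ne {x : ℤ_[2]} (hx : Gen x) (i : ℤ) : x + (i : ℤ_[2]) ≠ 0 := by
  intro h
  apply hx
  refine ⟨-i, ?_⟩
  push_cast
  exact (eq_neg_of_add_eq_zero_left h).symm

theorem Gen.add {x : ℤ_[2]} (hx : Gen x) (i : ℤ) : Gen (x + (i : ℤ_[2])) := by
  rintro ⟨j, hj⟩
  apply hx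
  refine ⟨j - i, ?_⟩
  push_cast
  rw [hj]; ring

theorem Gen.add_one {x : ℤ_[2]} (hx : Gen x) : Gen (x + 1) := by
  have := hx.add 1
  simpa using this

theorem le_vv_iff {x : ℤ_[2]} (hx : Gen x) (i : ℤ) (k : ℕ) :
    k ≤ vv x i ↔ (x + (i : ℤ_[2])) ∈ (Ideal.span {((2 : ℕ) : ℤ_[2]) ^ k} : Ideal ℤ_[2]) :=
  (PadicInt.mem_span_pow_iff_le_valuation _ (hx.add_ne i) k).symm

/-- Each window of length `2^k` contains a point of valuation at least `k`. -/
theorem exists_window {x : ℤ_[2]} (hx : Gen x) (k : ℕ) (a : ℤ) :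
    ∃ i : ℤ, a ≤ i ∧ i < a + 2 ^ k ∧ k ≤ vv x i := by
  have h1 := PadicInt.appr_spec (p := 2) k x
  set r : ℤ := (x.appr k : ℤ) with hr
  set i : ℤ := a + ((-r - a) % (2 ^ k)) with hi
  have hpos : (0 : ℤ) < 2 ^ k := by positivity
  have h2 := Int.emod_nonneg (-r - a) hpos.ne'
  have h3 := Int.emod_lt_of_pos (-r - a) hpos
  refine ⟨i, by omega, by omega, ?_⟩
  rw [le_vv_iff hx]
  -- x + i = (x - r) + (r + i), and 2^k ∣ r + i
  have h4 : (2 ^ k : ℤ) ∣ r + i := by
    have := Int.emod_add_mul_ediv (-r - a) (2 ^ k)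
    refine ⟨-((-r - a) / 2 ^ k), ?_⟩
    rw [hi]
    linarith
  obtain ⟨q, hq⟩ := h4
  have h5 : x + (i : ℤ_[2]) = (x - (x.appr k : ℤ_[2])) + ((2 : ℕ) : ℤ_[2]) ^ k * (q : ℤ_[2]) := by
    have h6 : ((r + i : ℤ) : ℤ_[2]) = ((2 ^ k * q : ℤ) : ℤ_[2]) := by rw [hq]
    push_cast at h6
    have h7 : (r : ℤ_[2]) = (x.appr k : ℤ_[2]) := by rw [hr]; push_cast; rfl
    rw [h7] at h6
    push_cast
    rw [← h6]
    ring
  rw [h5]
  exact Ideal.add_mem _ h1 (Ideal.mul_mem_right _ _ (Ideal.subset_span rfl))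

theorem vv_le_lv {x : ℤ_[2]} {a b i : ℤ} (h1 : a ≤ i) (h2 : i ≤ b) : vv x i ≤ lv x a b :=
  Finset.le_sup (f := vv x) (Finset.mem_Icc.2 ⟨h1, h2⟩)

theorem lv_le {x : ℤ_[2]} {a b : ℤ} {m : ℕ} (h : ∀ i, a ≤ i → i ≤ b → vv x i ≤ m) :
    lv x a b ≤ m :=
  Finset.sup_le fun i hi => h i (Finset.mem_Icc.1 hi).1 (Finset.mem_Icc.1 hi).2

theorem lv_mono {x : ℤ_[2]} {a b a' b' : ℤ} (h1 : a' ≤ a) (h2 : b ≤ b') :
    lv x a b ≤ lv x a' b' :=
  lv_le fun _ hi1 hi2 => vv_le_lv (h1.trans hi1) (hi2.trans h2)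

theorem vv_shift (x : ℤ_[2]) (i : ℤ) : vv (x + 1) i = vv x (i + 1) := by
  unfold vv
  congr 1
  push_cast
  ring

theorem lv_shift (x : ℤ_[2]) (a b : ℤ) : lv (x + 1) a b = lv x (a + 1) (b + 1) := by
  apply le_antisymm
  · apply lv_le
    intro i h1 h2
    rw [vv_shift]
    exact vv_le_lv (by omega) (by omega)
  · apply lv_le
    intro i h1 h2
    have : vv x i = vv (x + 1) (i - 1) := by rw [vv_shift]; congr 1; ring
    rw [this]
    exact vv_le_lv (by omega) (by omega)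

/-- Lower bound for the costs. -/
theorem cost_ge {x : ℤ_[2]} (hx : Gen x) (j : ℤ) :
    10 * (if 0 ≤ j then (j : ℝ) + 1 else -(j : ℝ)) ≤ cost x j := by
  -- t = number of points of the window
  have key : ∀ (t : ℕ), 0 < t → ∀ (a b : ℤ), b = a + t - 1 → 10 * (t : ℝ) ≤ Gc (lv x a b) := by
    intro t ht a b hb
    set k := Nat.log 2 t with hk
    have h1 : 2 ^ k ≤ t := Nat.pow_log_le_self 2 ht.ne'
    have h2 : t < 2 ^ (k + 1) := Nat.lt_pow_succ_log_self (by norm_num) t
    obtain ⟨i, hi1, hi2, hi3⟩ := exists_window hx k a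
    have h4 : k ≤ lv x a b := by
      refine hi3.trans (vv_le_lv hi1 ?_)
      have : ((2 : ℤ) ^ k) ≤ t := by exact_mod_cast h1
      omega
    refine le_trans ?_ ((Gc_ge k).trans (Gc_mono h4))
    have h5 : (t : ℝ) + 1 ≤ 2 ^ (k + 1) := by exact_mod_cast h2
    linarith
  unfold cost lev
  split_ifs with h
  · have := key (j + 1).toNat (by omega) 0 j (by omega)
    have h3 : (((j + 1).toNat : ℕ) : ℝ) = (j : ℝ) + 1 := by
      have : (((j + 1).toNat : ℕ) : ℤ) = j + 1 := Int.toNat_of_nonneg (by omega)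
      exact_mod_cast this
    rwa [h3] at this
  · have := key (-j).toNat (by omega) j (-1) (by omega)
    have h3 : (((-j).toNat : ℕ) : ℝ) = -(j : ℝ) := by
      have : (((-j).toNat : ℕ) : ℤ) = -j := Int.toNat_of_nonneg (by omega)
      exact_mod_cast this
    rwa [h3] at this

theorem cost_ge_ten (x : ℤ_[2]) (j : ℤ) : 10 ≤ cost x j := Gc_ge_ten _

/-- Lower bound for window sums. -/
theorem cost_sum_ge {x : ℤ_[2]} (hx : Gen x) (j : ℤ) (n : ℕ) :
    10 * (((n + 1) ^ 2 / 4 : ℕ) : ℝ) ≤ ∑ i ∈ Finset.range n, cost x (j + i) := by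
  set hh : ℤ → ℤ := fun k => if 0 ≤ k then k + 1 else -k with hhh
  set Φ : ℤ → ℤ := fun k => k + k * |k| with hΦ
  have hstep : ∀ k : ℤ, Φ (k + 1) - Φ k = 2 * hh k := by
    intro k
    simp only [hΦ, hhh]
    split_ifs with h
    · rw [abs_of_nonneg h, abs_of_nonneg (by linarith : (0 : ℤ) ≤ k + 1)]
      ring
    · rw [abs_of_nonpos (by omega : k + 1 ≤ 0), abs_of_nonpos (by omega : k ≤ 0)]
      ring
  have hsum : Φ (j + n) - Φ j = 2 * ∑ i ∈ Finset.range n, hh (j + i) := by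
    induction n with
    | zero => simp
    | succ n ih =>
      rw [Finset.sum_range_succ]
      have h1 := hstep (j + n)
      have h3 : Φ (j + ((n + 1 : ℕ) : ℤ)) = Φ (j + n + 1) := by
        congr 1; push_cast; ring
      rw [h3]
      linarith
  have hcost : 10 * ((∑ i ∈ Finset.range n, hh (j + i) : ℤ) : ℝ) ≤
      ∑ i ∈ Finset.range n, cost x (j + i) := by
    push_cast
    rw [Finset.mul_sum]
    apply Finset.sum_le_sum
    intro i _
    have h2 := cost_ge hx (j + i)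
    refine le_trans (le_of_eq ?_) h2
    simp only [hhh]
    split_ifs with h <;> push_cast <;> ring
  refine le_trans ?_ hcost
  have hquad : ∀ (a : ℤ) (m : ℤ), 0 ≤ m → m ^ 2 ≤ 2 * ((a + m) * |a + m| - a * |a|) := by
    intro a m hm
    rcases le_total 0 a with h | h
    · rw [abs_of_nonneg h, abs_of_nonneg (by linarith)]
      nlinarith [mul_nonneg h hm]
    · rcases le_total 0 (a + m) with h2 | h2
      · rw [abs_of_nonpos h, abs_of_nonneg h2]
        nlinarith [sq_nonneg (2 * a + m)]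
      · rw [abs_of_nonpos h, abs_of_nonpos h2]
        nlinarith [mul_nonneg (neg_nonneg.2 h) hm, mul_nonneg (neg_nonneg.2 h2) hm]
  have h4 := hquad j n (by positivity)
  have h6 : 4 * ((n + 1) ^ 2 / 4) ≤ (n + 1) ^ 2 := Nat.mul_div_le _ _
  have h7 : ((((n + 1) ^ 2 / 4 : ℕ) : ℕ) : ℤ) ≤ ∑ i ∈ Finset.range n, hh (j + i) := by
    have h8 : 4 * ((((n + 1) ^ 2 / 4 : ℕ) : ℕ) : ℤ) ≤ ((n : ℤ) + 1) ^ 2 := by exact_mod_cast h6
    have h9 : Φ (j + n) - Φ j = n + ((j + n) * |j + n| - j * |j|) := by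
      simp only [hΦ]; ring
    generalize ((((n + 1) ^ 2 / 4 : ℕ) : ℕ) : ℤ) = F at *
    generalize ∑ i ∈ Finset.range n, hh (j + i) = s at *
    by_contra hcon
    push Not at hcon
    have h10 : s + 1 ≤ F := hcon
    nlinarith
  have h11 := (Int.cast_le (R := ℝ)).2 h7
  rw [Int.cast_natCast] at h11
  linarith

theorem Gc_growth {K m : ℕ} (h1 : K ≤ m) (h2 : 1 ≤ m) :
    (K : ℝ) * ((2 : ℝ) ^ (m + 2)) ^ 3 * (Gc m + 1) ≤ Gc (m + 1) := by
  have hK : (K : ℝ) ≤ 2 ^ m := by
    have : K ≤ 2 ^ m := h1.trans (Nat.lt_two_pow_self).le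
    exact_mod_cast this
  have hG : Gc m + 1 ≤ 2 * Gc m := by
    have := Gc_ge_ten m
    linarith
  have h3 : Gc (m + 1) = 2 ^ (10 * m + 5) * Gc m := by
    unfold Gc
    have e1 : (32 : ℝ) = 2 ^ 5 := by norm_num
    rw [e1, ← pow_mul, ← pow_mul]
    have e2 : 5 * (m + 1) ^ 2 = (10 * m + 5) + 5 * m ^ 2 := by ring
    rw [e2, pow_add]
    ring
  calc (K : ℝ) * ((2 : ℝ) ^ (m + 2)) ^ 3 * (Gc m + 1)
      ≤ 2 ^ m * ((2 : ℝ) ^ (m + 2)) ^ 3 * (2 * Gc m) := by
        apply mul_le_mul _ hG (by linarith [Gc_nonneg m]) (by positivity)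
        exact mul_le_mul_of_nonneg_right hK (by positivity)
    _ = 2 ^ (4 * m + 7) * Gc m := by
        rw [← pow_mul]
        have : (4 * m + 7) = m + (m + 2) * 3 + 1 := by ring
        rw [this, pow_add, pow_add, pow_one]
        ring
    _ ≤ 2 ^ (10 * m + 5) * Gc m := by
        apply mul_le_mul_of_nonneg_right _ (Gc_nonneg m)
        apply pow_le_pow_right₀ (by norm_num)
        omega
    _ = Gc (m + 1) := h3.symm

/-- The costs of a generic point are valley shaped. -/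
theorem valley_cost {x : ℤ_[2]} (hx : Gen x) : Valley (cost x) where
  nonneg := fun j => le_trans (by norm_num) (cost_ge_ten x j)
  lev := by
    intro K
    -- choose the level
    set m : ℕ := max (K + 1) (lv x (-K) K) with hm
    have hKm : K ≤ m := by omega
    have hm1 : 1 ≤ m := by omega
    have hlv : lv x (-K) K ≤ m := le_max_right _ _
    -- first bad point to the right
    have hexR : ∃ t : ℕ, m + 1 ≤ vv x t := by
      obtain ⟨i, hi1, _, hi3⟩ := exists_window hx (m + 1) 0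
      exact ⟨i.toNat, by rwa [Int.toNat_of_nonneg hi1]⟩
    have hexL : ∃ t : ℕ, m + 1 ≤ vv x (-1 - t) := by
      obtain ⟨i, _, hi2, hi3⟩ := exists_window hx (m + 1) (-2 ^ (m + 1))
      refine ⟨(-1 - i).toNat, ?_⟩
      rw [Int.toNat_of_nonneg (by omega)]
      have : (-1 - (-1 - i)) = i := by ring
      rwa [this]
    classical
    set R : ℕ := Nat.find hexR with hR
    set t : ℕ := Nat.find hexL with ht
    have hRs : m + 1 ≤ vv x R := Nat.find_spec hexR
    have hts : m + 1 ≤ vv x (-1 - t) := Nat.find_spec hexL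
    have hRm : ∀ i : ℤ, 0 ≤ i → i < R → vv x i ≤ m := by
      intro i h1 h2
      have h3 : i.toNat < R := by omega
      have := Nat.find_min hexR h3
      rw [Int.toNat_of_nonneg h1] at this
      omega
    have htm : ∀ i : ℤ, -(t : ℤ) ≤ i → i < 0 → vv x i ≤ m := by
      intro i h1 h2
      have h3 : (-1 - i).toNat < t := by omega
      have := Nat.find_min hexL h3
      rw [Int.toNat_of_nonneg (by omega)] at this
      have h4 : (-1 - (-1 - i)) = i := by ring
      rw [h4] at this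
      omega
    have hRle : (R : ℤ) < 2 ^ (m + 1) := by
      obtain ⟨i, hi1, hi2, hi3⟩ := exists_window hx (m + 1) 0
      by_contra hcon
      push Not at hcon
      have := hRm i hi1 (by omega)
      omega
    have htle : (t : ℤ) < 2 ^ (m + 1) := by
      obtain ⟨i, hi1, hi2, hi3⟩ := exists_window hx (m + 1) (-2 ^ (m + 1))
      by_contra hcon
      push Not at hcon
      have := htm i (by omega) (by omega)
      omega
    have hRK : (K : ℤ) < R := by
      by_contra hcon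
      push Not at hcon
      have h1 : vv x R ≤ lv x (-K) K := vv_le_lv (by omega) (by omega)
      omega
    have htK : (K : ℤ) ≤ t := by
      by_contra hcon
      push Not at hcon
      have h1 : vv x (-1 - t) ≤ lv x (-K) K := vv_le_lv (by omega) (by omega)
      omega
    refine ⟨-(t : ℤ), R, Gc m, Gc (m + 1), by omega, by omega, ?_, ?_, ?_, ?_⟩
    · have h1 : (K : ℝ) ≤ 2 ^ m := by
        have : K ≤ 2 ^ m := hKm.trans (Nat.lt_two_pow_self).le
        exact_mod_cast this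
      have h2 := Gc_ge m
      have h3 : (1 : ℝ) ≤ 2 ^ m := one_le_pow₀ (by norm_num)
      rw [pow_succ] at h2
      linarith
    · intro i h1 h2
      unfold cost lev
      apply Gc_mono
      split_ifs with h
      · exact lv_le fun k hk1 hk2 => hRm k hk1 (by omega)
      · exact lv_le fun k hk1 hk2 => htm k (by omega) (by omega)
    · intro i h
      unfold cost lev
      apply Gc_mono
      rcases h with h | h
      · rw [if_neg (by omega)]
        exact hts.trans (vv_le_lv (by omega) (by omega))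
      · rw [if_pos (by omega)]
        exact hRs.trans (vv_le_lv (by omega) (by omega))
    · refine le_trans ?_ (Gc_growth hKm hm1)
      apply mul_le_mul_of_nonneg_right _ (by linarith [Gc_nonneg m])
      apply mul_le_mul_of_nonneg_left _ (Nat.cast_nonneg K)
      have h5 : (R : ℤ) - (-(t : ℤ)) + 1 ≤ 2 ^ (m + 2) := by
        have : (2 : ℤ) ^ (m + 2) = 2 ^ (m + 1) + 2 ^ (m + 1) := by ring
        omega
      have h6 : (((R : ℤ) - (-(t : ℤ)) : ℤ) + 1 : ℝ) ≤ 2 ^ (m + 2) := by exact_mod_cast h5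
      apply pow_le_pow_left₀ _ h6
      have h7 : (0 : ℤ) ≤ (R : ℤ) - (-(t : ℤ)) + 1 := by omega
      exact_mod_cast h7

end Crest.Agent.R113.Two
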