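import Crest.Prelude.Def_TwoAdicShift

/-!
# Row 113, S0150: shared definitions for the fibred weighted shift over the 2-adic odometer
-/

set_option autoImplicit false

namespace Crest.Agent.R113.Two

open Crest.AnalysisR.TwoAdic MeasureTheory

attribute [local instance] Crest.AnalysisR.TwoAdic.borelTwoAdic
  Crest.AnalysisR.TwoAdic.borelSpace_twoAdic

/-- Valley-shaped, very fast growing costs on `ℤ`: arbitrarily long windows `[L, R)` on which the
cost is at most `lo`, while outside of it the cost is at least `hi`, with `hi` much larger than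
`lo` and the length of the window. -/
structure Valley (c : ℤ → ℝ) : Prop where
  nonneg : ∀ j, 0 ≤ c j
  lev : ∀ K : ℕ, ∃ (L R : ℤ) (lo hi : ℝ), L ≤ -(K : ℤ) ∧ (K : ℤ) ≤ R ∧ (K : ℝ) ≤ lo ∧
    (∀ i : ℤ, L ≤ i → i < R → c i ≤ lo) ∧ (∀ i : ℤ, (i < L ∨ R ≤ i) → hi ≤ c i) ∧
    (K : ℝ) * ((R - L : ℤ) + 1 : ℝ) ^ 3 * (lo + 1) ≤ hi

end Crest.Agent.R113.Two
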