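import Crest.Agent.R113.TwoShift

/-!
# Row 113, S0150: fibred operators on `L²(ℤ₂; ℓ²(ℤ))`
-/

set_option autoImplicit false

namespace Crest.Agent.R113.Two

open Crest.AnalysisR.TwoAdic MeasureTheory Filter Topology

attribute [local instance] Crest.AnalysisR.TwoAdic.borelTwoAdic
  Crest.AnalysisR.TwoAdic.borelSpace_twoAdic

instance haar_isAddHaar : Measure.IsAddHaarMeasure haarTwoAdic := by
  unfold haarTwoAdic; infer_instance

instance haar_isProb : IsProbabilityMeasure haarTwoAdic := by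
  constructor
  have h := Measure.addHaarMeasure_self (K₀ := (⊤ : TopologicalSpace.PositiveCompacts ℤ_[2]))
  simpa [haarTwoAdic] using h

/-- A uniformly bounded, weakly measurable family of operators on `ℓ²(ℤ)`. -/
structure MeasFam (A : ℤ_[2] → (seqHilbert →L[ℂ] seqHilbert)) (M : ℝ) : Prop where
  bound : ∀ x, ‖A x‖ ≤ M
  meas : ∀ j, AEStronglyMeasurable (fun x => A x (basisVec j)) haarTwoAdic

theorem MeasFam.aesm {A : ℤ_[2] → (seqHilbert →L[ℂ] seqHilbert)} {M : ℝ} (hA : MeasFam A M)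
    {f : ℤ_[2] → seqHilbert} (hf : AEStronglyMeasurable f haarTwoAdic) :
    AEStronglyMeasurable (fun x => A x (f x)) haarTwoAdic := by
  have hlim : ∀ x, Tendsto (fun s : Finset ℤ => ∑ j ∈ s, (f x) j • A x (basisVec j)) atTop
      (𝓝 (A x (f x))) := by
    intro x
    have h := (hasSum_basis (f x)).mapL (A x)
    simpa only [map_smul, HasSum, SummationFilter.unconditional_filter] using h
  refine aestronglyMeasurable_of_tendsto_ae (u := (atTop : Filter (Finset ℤ)))
    (f := fun s x => ∑ j ∈ s, (f x) j • A x (basisVec j)) ?_ (Eventually.of_forall hlim)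
  intro s
  apply Finset.aestronglyMeasurable_fun_sum
  intro j _
  exact ((coord_continuous j).comp_aestronglyMeasurable hf).smul (hA.meas j)

theorem MeasFam.memLp {A : ℤ_[2] → (seqHilbert →L[ℂ] seqHilbert)} {M : ℝ} (hA : MeasFam A M)
    (f : fibreSpace) : MemLp (fun x => A x (f x)) 2 haarTwoAdic := by
  refine MemLp.of_le_mul (g := f) (c := M) (Lp.memLp f) (hA.aesm (Lp.aestronglyMeasurable f)) ?_
  refine Eventually.of_forall fun x => ?_
  exact (A x).le_of_opNorm_le (hA.bound x) _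

theorem MeasFam.nonneg {A : ℤ_[2] → (seqHilbert →L[ℂ] seqHilbert)} {M : ℝ} (hA : MeasFam A M) :
    0 ≤ M := le_trans (norm_nonneg _) (hA.bound 0)

/-- The operator on `L²(ℤ₂; ℓ²(ℤ))` acting fibrewise by the family `A`. -/
noncomputable def fibOp (A : ℤ_[2] → (seqHilbert →L[ℂ] seqHilbert)) (M : ℝ) (hA : MeasFam A M) :
    fibreSpace →L[ℂ] fibreSpace :=
  LinearMap.mkContinuous
    { toFun := fun f => (hA.memLp f).toLp _
      map_add' := by
        intro f g
        apply Lp.ext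
        filter_upwards [(hA.memLp (f + g)).coeFn_toLp, (hA.memLp f).coeFn_toLp,
          (hA.memLp g).coeFn_toLp, Lp.coeFn_add f g,
          Lp.coeFn_add ((hA.memLp f).toLp _) ((hA.memLp g).toLp _)] with x h1 h2 h3 h4 h5
        rw [h1, h5, Pi.add_apply, h2, h3, h4, Pi.add_apply, map_add]
      map_smul' := by
        intro c f
        apply Lp.ext
        filter_upwards [(hA.memLp (c • f)).coeFn_toLp, (hA.memLp f).coeFn_toLp,
          Lp.coeFn_smul c f, Lp.coeFn_smul c ((hA.memLp f).toLp _)] with x h1 h2 h4 h5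
        simp only [RingHom.id_apply]
        rw [h1, h5, Pi.smul_apply, h2, h4, Pi.smul_apply, map_smul] }
    M (by
      intro f
      apply Lp.norm_le_mul_norm_of_ae_le_mul
      filter_upwards [(hA.memLp f).coeFn_toLp] with x h1
      simp only [LinearMap.coe_mk, AddHom.coe_mk]
      rw [h1]
      exact (A x).le_of_opNorm_le (hA.bound x) _)

theorem fibOp_ae {A : ℤ_[2] → (seqHilbert →L[ℂ] seqHilbert)} {M : ℝ} (hA : MeasFam A M)
    (f : fibreSpace) : ∀ᵐ x ∂haarTwoAdic,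
      (fibOp A M hA f : ℤ_[2] → seqHilbert) x = A x ((f : ℤ_[2] → seqHilbert) x) :=
  (hA.memLp f).coeFn_toLp

theorem fibOp_norm_le {A : ℤ_[2] → (seqHilbert →L[ℂ] seqHilbert)} {M : ℝ} (hA : MeasFam A M) :
    ‖fibOp A M hA‖ ≤ M :=
  LinearMap.mkContinuous_norm_le _ hA.nonneg _

/-- An operator acting fibrewise is bounded by the essential bound of the fibres. -/
theorem norm_le_of_fib {T : fibreSpace →L[ℂ] fibreSpace}
    {A : ℤ_[2] → (seqHilbert →L[ℂ] seqHilbert)}
    (hT : ∀ f : fibreSpace, ∀ᵐ x ∂haarTwoAdic, (T f : ℤ_[2] → seqHilbert) x = A x (f x))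
    {C : ℝ} (hC0 : 0 ≤ C) (hC : ∀ᵐ x ∂haarTwoAdic, ‖A x‖ ≤ C) : ‖T‖ ≤ C := by
  apply ContinuousLinearMap.opNorm_le_bound _ hC0
  intro f
  apply Lp.norm_le_mul_norm_of_ae_le_mul
  filter_upwards [hT f, hC] with x h1 h2
  rw [h1]
  exact (A x).le_of_opNorm_le h2 _

theorem pow_ae_of_fib {T : fibreSpace →L[ℂ] fibreSpace}
    {A : ℤ_[2] → (seqHilbert →L[ℂ] seqHilbert)}
    (hT : ∀ f : fibreSpace, ∀ᵐ x ∂haarTwoAdic, (T f : ℤ_[2] → seqHilbert) x = A x (f x))
    (n : ℕ) (f : fibreSpace) : ∀ᵐ x ∂haarTwoAdic,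
      ((T ^ n) f : ℤ_[2] → seqHilbert) x = (A x ^ n) (f x) := by
  induction n with
  | zero => exact Eventually.of_forall fun x => by simp
  | succ n ih =>
    filter_upwards [hT ((T ^ n) f), ih] with x h1 h2
    have e1 : (T ^ (n + 1)) f = T ((T ^ n) f) := by rw [pow_succ']; rfl
    have e2 : (A x ^ (n + 1)) (f x) = A x ((A x ^ n) (f x)) := by rw [pow_succ']; rfl
    rw [e1, h1, h2, e2]

theorem mp_add (a : ℤ_[2]) : MeasurePreserving (fun x : ℤ_[2] => x + a) haarTwoAdic haarTwoAdic :=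
  measurePreserving_add_right haarTwoAdic a

/-- Translation: `(trOp a f) x = f (x + a)`. -/
noncomputable def trOp (a : ℤ_[2]) : fibreSpace →ₗᵢ[ℂ] fibreSpace :=
  Lp.compMeasurePreservingₗᵢ ℂ (fun x : ℤ_[2] => x + a) (mp_add a)

theorem trOp_ae (a : ℤ_[2]) (f : fibreSpace) : ∀ᵐ x ∂haarTwoAdic,
    (trOp a f : ℤ_[2] → seqHilbert) x = f (x + a) :=
  Lp.coeFn_compMeasurePreserving f (mp_add a)

theorem ae_add {P : ℤ_[2] → Prop} (a : ℤ_[2]) (h : ∀ᵐ x ∂haarTwoAdic, P x) :
    ∀ᵐ x ∂haarTwoAdic, P (x + a) :=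
  (mp_add a).quasiMeasurePreserving.ae h

/-- The operator `(V f)(x + 1) = A x (f x)`. -/
noncomputable def backOp (A : ℤ_[2] → (seqHilbert →L[ℂ] seqHilbert)) (M : ℝ) (hA : MeasFam A M) :
    fibreSpace →L[ℂ] fibreSpace :=
  (trOp (-1)).toContinuousLinearMap.comp (fibOp A M hA)

theorem backOp_ae {A : ℤ_[2] → (seqHilbert →L[ℂ] seqHilbert)} {M : ℝ} (hA : MeasFam A M)
    (f : fibreSpace) : ∀ᵐ x ∂haarTwoAdic,
      (backOp A M hA f : ℤ_[2] → seqHilbert) (x + 1) = A x ((f : ℤ_[2] → seqHilbert) x) := by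
  have h1 := ae_add 1 (trOp_ae (-1) (fibOp A M hA f))
  filter_upwards [h1, fibOp_ae hA f] with x hx h2
  change (trOp (-1) (fibOp A M hA f) : ℤ_[2] → seqHilbert) (x + 1) = _
  rw [hx, add_neg_cancel_right, h2]

theorem backOp_norm_le {A : ℤ_[2] → (seqHilbert →L[ℂ] seqHilbert)} {M : ℝ} (hA : MeasFam A M) :
    ‖backOp A M hA‖ ≤ M := by
  apply ContinuousLinearMap.opNorm_le_bound _ hA.nonneg
  intro f
  change ‖trOp (-1) (fibOp A M hA f)‖ ≤ _
  rw [(trOp (-1)).norm_map]
  exact (fibOp A M hA).le_of_opNorm_le (fibOp_norm_le hA) f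

/-- Families of weighted shifts with measurable weights are measurable families. -/
theorem measFam_wsh (w : ℤ → ℤ_[2] → ℝ) (d : ℤ) (M : ℝ) (hw : ∀ x j, |w j x| ≤ M)
    (hm : ∀ j, Measurable (w j)) :
    MeasFam (fun x => wsh (fun j => w j x) d M (hw x)) M where
  bound := fun x => wsh_norm_le
  meas := by
    intro j
    have h : (fun x => wsh (fun j => w j x) d M (hw x) (basisVec j)) =
        fun x => ((w j x : ℝ) : ℂ) • (basisVec (j + d) : seqHilbert) := by
      funext x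
      exact wsh_basis j
    rw [h]
    have h2 : AEStronglyMeasurable (fun x => ((w j x : ℝ) : ℂ)) haarTwoAdic :=
      (Complex.measurable_ofReal.comp (hm j)).stronglyMeasurable.aestronglyMeasurable
    exact h2.smul aestronglyMeasurable_const

end Crest.Agent.R113.Two
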