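import Crest.Prelude.Def_TwoAdicShift

/-!
# Row 113: S0148 from S0150

Abstract step: a bounded operator `S` on `fibreSpace`, acting fibrewise, with rapidly decreasing
powers and such that `S`, some `V` in the commutant and the bounded multipliers act transitively,
gives on every separable infinite-dimensional complex Hilbert space a nonzero quasinilpotent
operator without nontrivial hyperinvariant subspaces.
-/

set_option autoImplicit false

namespace Crest.Agent.R113.Two

open Crest.AnalysisR.TwoAdic MeasureTheory Filter Topology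

attribute [local instance] Crest.AnalysisR.TwoAdic.borelTwoAdic
  Crest.AnalysisR.TwoAdic.borelSpace_twoAdic

namespace Hyper

/-! ### Separable infinite-dimensional Hilbert spaces -/

/-- In a separable Hilbert space the index set of a Hilbert basis is countable. -/
theorem countable_of_hilbertBasis {ι : Type*} {K : Type*} [NormedAddCommGroup K]
    [InnerProductSpace ℂ K] [TopologicalSpace.SeparableSpace K] (b : HilbertBasis ι ℂ K) :
    Countable ι := by
  have hdist : ∀ i j : ι, i ≠ j → 1 ≤ dist (b i) (b j) := by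
    intro i j hij
    have h1 : ‖b i‖ = 1 := b.orthonormal.1 i
    have h2 : ‖b j‖ = 1 := b.orthonormal.1 j
    have h0 : inner ℂ (b i) (b j) = 0 := b.orthonormal.2 hij
    have h3 : ‖b i - b j‖ * ‖b i - b j‖ = ‖b i‖ * ‖b i‖ + ‖b j‖ * ‖b j‖ := by
      have := norm_sub_mul_self (𝕜 := ℂ) (b i) (b j)
      rw [h0] at this
      simpa using this
    rw [h1, h2] at h3
    rw [dist_eq_norm]
    nlinarith [norm_nonneg (b i - b j)]
  have hdisj : Pairwise (Function.onFun Disjoint fun i : ι => Metric.ball (b i) (1 / 2)) := by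
    intro i j hij
    apply Metric.ball_disjoint_ball
    have := hdist i j hij
    linarith
  have : (Set.univ : Set ι).Countable :=
    Set.PairwiseDisjoint.countable_of_isOpen (a := (Set.univ : Set ι))
      (s := fun i => Metric.ball (b i) (1 / 2))
      (fun i _ j _ hij => hdisj hij) (fun i _ => Metric.isOpen_ball)
      (fun i _ => ⟨b i, Metric.mem_ball_self (by norm_num)⟩)
  exact Set.countable_univ_iff.1 this

/-- Every separable infinite-dimensional complex Hilbert space is isometric to `ℓ²(ℕ)`. -/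
theorem exists_isometry_l2 (K : Type*) [NormedAddCommGroup K] [InnerProductSpace ℂ K]
    [CompleteSpace K] [TopologicalSpace.SeparableSpace K] (hK : ¬ FiniteDimensional ℂ K) :
    Nonempty (K ≃ₗᵢ[ℂ] lp (fun _ : ℕ => ℂ) 2) := by
  obtain ⟨w, b, hb⟩ := exists_hilbertBasis ℂ K
  have : Countable w := countable_of_hilbertBasis b
  have : Infinite w := by
    by_contra hfin
    rw [not_infinite_iff_finite] at hfin
    have : Fintype w := Fintype.ofFinite w
    apply hK
    exact b.toOrthonormalBasis.toBasis.finiteDimensional_of_finite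
  obtain ⟨e⟩ : Nonempty (w ≃ ℕ) := nonempty_equiv_of_countable
  have b' : HilbertBasis ℕ ℂ K := HilbertBasis.mk (v := fun n => b (e.symm n))
    (b.orthonormal.comp _ e.symm.injective) (by
      have : Set.range (fun n => b (e.symm n)) = Set.range b := by
        rw [← e.symm.surjective.range_comp b]; rfl
      rw [this]
      exact b.dense_span.ge)
  exact ⟨b'.repr⟩

theorem exists_isometry (H : Type*) [NormedAddCommGroup H] [InnerProductSpace ℂ H]
    [CompleteSpace H] [TopologicalSpace.SeparableSpace H] (hH : ¬ FiniteDimensional ℂ H)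
    (K : Type*) [NormedAddCommGroup K] [InnerProductSpace ℂ K]
    [CompleteSpace K] [TopologicalSpace.SeparableSpace K] (hK : ¬ FiniteDimensional ℂ K) :
    Nonempty (H ≃ₗᵢ[ℂ] K) := by
  obtain ⟨e⟩ := exists_isometry_l2 H hH
  obtain ⟨f⟩ := exists_isometry_l2 K hK
  exact ⟨e.trans f.symm⟩

/-! ### `fibreSpace` is separable and infinite-dimensional -/

/-- the standard Hilbert basis of `ℓ²(ℤ)` -/
noncomputable def stdBasis : HilbertBasis ℤ ℂ seqHilbert :=
  HilbertBasis.ofRepr (LinearIsometryEquiv.refl ℂ seqHilbert)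

theorem stdBasis_apply (j : ℤ) : stdBasis j = basisVec j := by
  rw [← HilbertBasis.repr_symm_single]
  rfl

theorem separable_seqHilbert : TopologicalSpace.SeparableSpace seqHilbert := by
  have h1 : TopologicalSpace.IsSeparable
      (Submodule.span ℂ (Set.range stdBasis) : Set seqHilbert) :=
    TopologicalSpace.IsSeparable.span (TopologicalSpace.isSeparable_range
      (continuous_of_discreteTopology))
  have h2 := h1.closure
  have h3 : closure (Submodule.span ℂ (Set.range stdBasis) : Set seqHilbert) = Set.univ := by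
    rw [← Submodule.topologicalClosure_coe, stdBasis.dense_span]
    rfl
  rw [h3] at h2
  exact TopologicalSpace.isSeparable_univ_iff.1 h2

theorem orthonormal_basisVec : Orthonormal ℂ basisVec := by
  have h : (basisVec : ℤ → seqHilbert) = stdBasis := funext fun j => (stdBasis_apply j).symm
  rw [h]
  exact stdBasis.orthonormal

theorem not_finiteDimensional_seqHilbert : ¬ FiniteDimensional ℂ seqHilbert := by
  intro h
  have h1 := orthonormal_basisVec.linearIndependent
  have : Finite ℤ := h1.finite_of_isNoetherian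
  exact not_finite ℤ

instance instFiniteHaar : IsFiniteMeasure haarTwoAdic := by
  unfold haarTwoAdic; infer_instance

theorem haarTwoAdic_ne_zero : haarTwoAdic ≠ 0 := by
  intro h
  have h1 : haarTwoAdic ((⊤ : TopologicalSpace.PositiveCompacts ℤ_[2]) : Set ℤ_[2]) = 1 :=
    MeasureTheory.Measure.addHaarMeasure_self
  rw [h] at h1
  simp at h1

theorem separable_fibreSpace : TopologicalSpace.SeparableSpace fibreSpace := by
  have := separable_seqHilbert
  have : SecondCountableTopology ℤ_[2] := inferInstance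
  have : Fact ((2 : ENNReal) ≠ ⊤) := ⟨by simp⟩
  have : SecondCountableTopology fibreSpace := Lp.SecondCountableTopology
  infer_instance

theorem not_finiteDimensional_fibreSpace : ¬ FiniteDimensional ℂ fibreSpace := by
  intro h
  apply not_finiteDimensional_seqHilbert
  have : NeZero haarTwoAdic := ⟨haarTwoAdic_ne_zero⟩
  refine FiniteDimensional.of_injective (Lp.constₗ 2 haarTwoAdic ℂ (E := seqHilbert)) ?_
  rw [← LinearMap.ker_eq_bot, LinearMap.ker_eq_bot']
  intro c hc
  have h1 : ‖Lp.const 2 haarTwoAdic c‖ = 0 := by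
    rw [Lp.constₗ_apply] at hc
    rw [hc]; simp
  rw [Lp.norm_const (μ := haarTwoAdic) (p := 2) (c := c) (by norm_num)] at h1
  rcases mul_eq_zero.1 h1 with h2 | h2
  · exact norm_eq_zero.1 h2
  · exfalso
    have h3 : 0 < haarTwoAdic.real Set.univ := by
      rw [measureReal_def]
      exact ENNReal.toReal_pos (by
        rw [Ne, Measure.measure_univ_eq_zero]; exact haarTwoAdic_ne_zero) (measure_ne_top _ _)
    have := Real.rpow_pos_of_pos h3 (1 / (2 : ENNReal).toReal)
    linarith

/-! ### Multipliers -/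

/-- the multiplication operator by a bounded measurable function -/
theorem exists_multiplier (g : ℤ_[2] → ℂ) (hg : Measurable g) (C : ℝ) (hC : ∀ x, ‖g x‖ ≤ C) :
    ∃ M : fibreSpace →L[ℂ] fibreSpace, ∀ f : fibreSpace,
      ∀ᵐ x ∂haarTwoAdic, (M f : ℤ_[2] → seqHilbert) x = g x • (f : ℤ_[2] → seqHilbert) x := by
  have hmem : MemLp g ⊤ haarTwoAdic :=
    memLp_top_of_bound hg.aestronglyMeasurable C (Eventually.of_forall hC)
  let B : ℂ →L[ℂ] seqHilbert →L[ℂ] seqHilbert := ContinuousLinearMap.lsmul ℂ ℂ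
  have : Fact ((1 : ENNReal) ≤ ⊤) := ⟨le_top⟩
  have : Fact ((1 : ENNReal) ≤ 2) := ⟨by norm_num⟩
  refine ⟨B.holderL haarTwoAdic ⊤ 2 2 hmem.toLp, fun f => ?_⟩
  have h1 := B.coeFn_holder (r := 2) (hmem.toLp) f
  have h2 := hmem.coeFn_toLp
  filter_upwards [h1, h2] with x hx hx2
  rw [ContinuousLinearMap.holderL_apply_apply, hx, hx2]
  rfl

/-! ### Powers -/

theorem tendsto_exp_bound (u : ℕ → ℝ) (hu0 : ∀ n, 0 ≤ u n)
    (hu : ∀ n : ℕ, 1 ≤ n → u n ≤ Real.exp (-10 * (((n + 1) ^ 2 / 4 : ℕ) : ℝ))) :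
    Tendsto (fun n : ℕ => u n ^ (1 / (n : ℝ))) atTop (𝓝 0) := by
  have hb : ∀ n : ℕ, 1 ≤ n → u n ^ (1 / (n : ℝ)) ≤ Real.exp (-(n : ℝ)) := by
    intro n hn
    have hn0 : (0 : ℝ) < n := by exact_mod_cast hn
    have h1 : u n ^ (1 / (n : ℝ)) ≤ (Real.exp (-10 * (((n + 1) ^ 2 / 4 : ℕ) : ℝ))) ^ (1 / (n : ℝ)) :=
      Real.rpow_le_rpow (hu0 n) (hu n hn) (by positivity)
    refine h1.trans ?_
    rw [← Real.exp_mul]
    apply Real.exp_le_exp.2
    have h2 : (n : ℝ) ^ 2 ≤ 4 * (((n + 1) ^ 2 / 4 : ℕ) : ℝ) := by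
      have : n ^ 2 ≤ 4 * ((n + 1) ^ 2 / 4) := by
        have h3 := Nat.div_add_mod ((n + 1) ^ 2) 4
        have h4 := Nat.mod_lt ((n + 1) ^ 2) (show 0 < 4 by norm_num)
        nlinarith
      exact_mod_cast this
    rw [mul_one_div, div_le_iff₀ hn0]
    nlinarith
  have h0 : Tendsto (fun n : ℕ => Real.exp (-(n : ℝ))) atTop (𝓝 0) :=
    Real.tendsto_exp_neg_atTop_nhds_zero.comp tendsto_natCast_atTop_atTop
  refine tendsto_of_tendsto_of_tendsto_of_le_of_le' tendsto_const_nhds h0 ?_ ?_
  · exact Eventually.of_forall fun n => Real.rpow_nonneg (hu0 n) _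
  · filter_upwards [eventually_ge_atTop 1] with n hn using hb n hn

/-! ### Main statement -/

/-- Transfer to an arbitrary separable infinite-dimensional Hilbert space. -/
theorem hyper_transfer (S : fibreSpace →L[ℂ] fibreSpace) (hS0 : S ≠ 0)
    (hnorm : ∀ n : ℕ, 1 ≤ n → ‖S ^ n‖ ≤ Real.exp (-10 * (((n + 1) ^ 2 / 4 : ℕ) : ℝ)))
    (hlast : ∀ W : Submodule ℂ fibreSpace, IsClosed (W : Set fibreSpace) →
      (∀ A : fibreSpace →L[ℂ] fibreSpace, A * S = S * A → ∀ v ∈ W, A v ∈ W) → W = ⊥ ∨ W = ⊤)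
    (H : Type*) [NormedAddCommGroup H] [InnerProductSpace ℂ H] [CompleteSpace H]
    [TopologicalSpace.SeparableSpace H] (hH : ¬ FiniteDimensional ℂ H) :
    ∃ T : H →L[ℂ] H, T ≠ 0 ∧
      Tendsto (fun n : ℕ => ‖T ^ n‖ ^ (1 / (n : ℝ))) atTop (𝓝 0) ∧
      ∀ V : Submodule ℂ H, IsClosed (V : Set H) →
        (∀ A : H →L[ℂ] H, A * T = T * A → ∀ v ∈ V, A v ∈ V) → V = ⊥ ∨ V = ⊤ := by
  have := separable_fibreSpace
  obtain ⟨e⟩ := exists_isometry H hH fibreSpace not_finiteDimensional_fibreSpace
  let E : H →L[ℂ] fibreSpace := (e : H ≃L[ℂ] fibreSpace)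
  let F : fibreSpace →L[ℂ] H := (e.symm : fibreSpace ≃L[ℂ] H)
  have hEF : ∀ v, E (F v) = v := fun v => e.apply_symm_apply v
  have hFE : ∀ v, F (E v) = v := fun v => e.symm_apply_apply v
  have hEn : ∀ v, ‖E v‖ = ‖v‖ := fun v => e.norm_map v
  have hFn : ∀ v, ‖F v‖ = ‖v‖ := fun v => e.symm.norm_map v
  let T : H →L[ℂ] H := F.comp (S.comp E)
  have hT : ∀ v, T v = F (S (E v)) := fun v => rfl
  have hpow : ∀ n : ℕ, ∀ v, (T ^ n) v = F ((S ^ n) (E v)) := by
    intro n
    induction n with
    | zero => intro v; simp [hFE]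
    | succ n ih =>
      intro v
      rw [pow_succ', mul_apply_eq_comp, ih, hT, hEF, pow_succ',
        mul_apply_eq_comp]
  refine ⟨T, ?_, ?_, ?_⟩
  · intro h0
    apply hS0
    ext1 v
    have h1 : T (F v) = 0 := by rw [h0]; rfl
    rw [hT, hEF] at h1
    have h2 := congrArg E h1
    rw [hEF, map_zero] at h2
    simpa using h2
  · apply tendsto_exp_bound _ (fun n => norm_nonneg _)
    intro n hn
    refine le_trans ?_ (hnorm n hn)
    apply ContinuousLinearMap.opNorm_le_bound _ (norm_nonneg _)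
    intro v
    rw [hpow, hFn]
    refine ((S ^ n).le_opNorm _).trans ?_
    rw [hEn]
  · intro V hV hinv
    let W : Submodule ℂ fibreSpace := V.comap (F : fibreSpace →ₗ[ℂ] H)
    have hW : ∀ v, v ∈ W ↔ F v ∈ V := fun v => Iff.rfl
    have hWc : IsClosed (W : Set fibreSpace) := hV.preimage F.continuous
    have := hlast W hWc (by
      intro A hA v hv
      rw [hW] at hv ⊢
      have h1 := hinv (F.comp (A.comp E)) (by
        ext1 w
        have h2 : A (S (E w)) = S (A (E w)) := by
          have := congrArg (fun B : fibreSpace →L[ℂ] fibreSpace => B (E w)) hA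
          simpa using this
        change F (A (E (F (S (E w))))) = F (S (E (F (A (E w)))))
        rw [hEF, hEF, h2]) (F v) hv
      change F (A (E (F v))) ∈ V at h1
      rwa [hEF] at h1)
    rcases this with h | h
    · left
      rw [eq_bot_iff]
      intro v hv
      have h1 : E v ∈ W := by rw [hW, hFE]; exact hv
      rw [h] at h1
      have h2 : E v = 0 := by simpa using h1
      have h3 := congrArg F h2
      rw [hFE, map_zero] at h3
      simpa using h3
    · right
      rw [eq_top_iff]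
      intro v _
      have h1 : E v ∈ W := by rw [h]; trivial
      rw [hW, hFE] at h1
      exact h1

end Hyper

open Hyper in
/-- S0148 from the data of S0150. -/
theorem hyper_of (Sfib : ℤ_[2] → (seqHilbert →L[ℂ] seqHilbert))
    (S V : fibreSpace →L[ℂ] fibreSpace)
    (hS : ∀ f : fibreSpace, ∀ᵐ x ∂haarTwoAdic,
      (S f : ℤ_[2] → seqHilbert) x = Sfib x ((f : ℤ_[2] → seqHilbert) x))
    (hS0 : S ≠ 0)
    (hnorm : ∀ n : ℕ, 1 ≤ n → ‖S ^ n‖ ≤ Real.exp (-10 * (((n + 1) ^ 2 / 4 : ℕ) : ℝ)))
    (hVS : V * S = S * V)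
    (hlast : ∀ W : Submodule ℂ fibreSpace, IsClosed (W : Set fibreSpace) →
        (∀ f ∈ W, S f ∈ W) → (∀ f ∈ W, V f ∈ W) →
        (∀ g : ℤ_[2] → ℂ, Measurable g → (∃ C : ℝ, ∀ x, ‖g x‖ ≤ C) →
          ∀ f ∈ W, ∀ f' : fibreSpace,
            (∀ᵐ x ∂haarTwoAdic,
              (f' : ℤ_[2] → seqHilbert) x = g x • (f : ℤ_[2] → seqHilbert) x) → f' ∈ W) →
        W = ⊥ ∨ W = ⊤)
    (H : Type*) [NormedAddCommGroup H] [InnerProductSpace ℂ H] [CompleteSpace H]
    [TopologicalSpace.SeparableSpace H] (hH : ¬ FiniteDimensional ℂ H) :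
    ∃ T : H →L[ℂ] H, T ≠ 0 ∧
      Tendsto (fun n : ℕ => ‖T ^ n‖ ^ (1 / (n : ℝ))) atTop (𝓝 0) ∧
      ∀ V : Submodule ℂ H, IsClosed (V : Set H) →
        (∀ A : H →L[ℂ] H, A * T = T * A → ∀ v ∈ V, A v ∈ V) → V = ⊥ ∨ V = ⊤ := by
  refine hyper_transfer S hS0 hnorm ?_ H hH
  intro W hW hinv
  refine hlast W hW (fun f hf => hinv S rfl f hf) (fun f hf => hinv V hVS f hf) ?_
  rintro g hg ⟨C, hC⟩ f hf f' hf'
  obtain ⟨M, hM⟩ := exists_multiplier g hg C hC
  have hcomm : M * S = S * M := by
    ext1 h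
    apply Lp.ext
    have h1 := hM (S h)
    have h2 := hS h
    have h3 := hS (M h)
    have h4 := hM h
    filter_upwards [h1, h2, h3, h4] with x h1 h2 h3 h4
    rw [mul_apply_eq_comp, mul_apply_eq_comp, h1, h2, h3, h4, map_smul]
  have h5 := hinv M hcomm f hf
  have h6 : f' = M f := by
    apply Lp.ext
    filter_upwards [hf', hM f] with x h7 h8
    rw [h7, h8]
  rw [h6]
  exact h5

end Crest.Agent.R113.Two
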