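import Crest.Agent.R113.TwoV

/-!
# Row 113, S0150: the operators and all clauses except unicellularity and transitivity
-/

set_option autoImplicit false

namespace Crest.Agent.R113.Two

open Crest.AnalysisR.TwoAdic MeasureTheory Filter Topology

attribute [local instance] Crest.AnalysisR.TwoAdic.borelTwoAdic
  Crest.AnalysisR.TwoAdic.borelSpace_twoAdic

/-- The fibre shifts. -/
noncomputable def Sf (x : ℤ_[2]) : seqHilbert →L[ℂ] seqHilbert :=
  wsh (fun j => bet j x) 1 (Real.exp (-10)) (bet_abs_le x)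

/-- The fibres of the intertwiner. -/
noncomputable def Vf (x : ℤ_[2]) : seqHilbert →L[ℂ] seqHilbert :=
  wsh (fun j => bb j x) (-1) 1 (bb_abs_le x)

theorem Sf_meas : MeasFam Sf (Real.exp (-10)) :=
  measFam_wsh bet 1 (Real.exp (-10)) bet_abs_le measurable_bet

theorem Vf_meas : MeasFam Vf 1 :=
  measFam_wsh bb (-1) 1 bb_abs_le measurable_bb

/-- The shift. -/
noncomputable def SS : fibreSpace →L[ℂ] fibreSpace := fibOp Sf _ Sf_meas

/-- The intertwiner. -/
noncomputable def VV : fibreSpace →L[ℂ] fibreSpace := backOp Vf _ Vf_meas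

theorem Sf_basis (x : ℤ_[2]) (j : ℤ) :
    Sf x (basisVec j) = ((bet j x : ℝ) : ℂ) • basisVec (j + 1) := wsh_basis j

theorem Sf_basis_exp (x : ℤ_[2]) (j : ℤ) :
    Sf x (basisVec j) = ((Real.exp (-cost (gen x) j) : ℝ) : ℂ) • basisVec (j + 1) := wsh_basis j

theorem Vf_basis (x : ℤ_[2]) (j : ℤ) :
    Vf x (basisVec j) = ((bb j x : ℝ) : ℂ) • basisVec (j - 1) := wsh_basis j

theorem SS_ae (f : fibreSpace) : ∀ᵐ x ∂haarTwoAdic,
    (SS f : ℤ_[2] → seqHilbert) x = Sf x ((f : ℤ_[2] → seqHilbert) x) := fibOp_ae Sf_meas f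

theorem VV_ae (f : fibreSpace) : ∀ᵐ x ∂haarTwoAdic,
    (VV f : ℤ_[2] → seqHilbert) (x + 1) = Vf x ((f : ℤ_[2] → seqHilbert) x) := backOp_ae Vf_meas f

theorem VV_norm : ‖VV‖ ≤ 1 := backOp_norm_le Vf_meas

theorem comm_fib {x : ℤ_[2]} (hx : Gen x) (v : seqHilbert) :
    Vf x (Sf x v) = Sf (x + 1) (Vf x v) := by
  apply lp.ext
  funext k
  unfold Vf Sf
  rw [wsh_apply, wsh_apply, wsh_apply, wsh_apply]
  have h := bb_comm hx k
  have e1 : k - -1 = k + 1 := by ring
  have e2 : k + 1 - 1 = k := by ring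
  have e3 : k - 1 - -1 = k := by ring
  rw [e1, e2, e3, ← mul_assoc, ← mul_assoc]
  congr 1
  rw [← Complex.ofReal_mul, ← Complex.ofReal_mul, h, mul_comm]

theorem VS_comm : VV * SS = SS * VV := by
  ext1 f
  change VV (SS f) = SS (VV f)
  apply Lp.ext
  have h : ∀ᵐ x ∂haarTwoAdic, (VV (SS f) : ℤ_[2] → seqHilbert) (x + 1) =
      (SS (VV f) : ℤ_[2] → seqHilbert) (x + 1) := by
    filter_upwards [ae_gen, VV_ae (SS f), SS_ae f, ae_add 1 (SS_ae (VV f)), VV_ae f]
      with x h1 h2 h3 h4 h5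
    rw [h2, h3, h4, h5, comm_fib h1]
  have h2 := ae_add (-1) h
  filter_upwards [h2] with x hx
  simpa using hx

theorem Sf_pow_norm {x : ℤ_[2]} (hx : Gen x) (n : ℕ) :
    ‖Sf x ^ n‖ ≤ Real.exp (-10 * (((n + 1) ^ 2 / 4 : ℕ) : ℝ)) := by
  unfold Sf
  apply wsh_pow_norm_le
  intro j
  have h1 : ∏ i ∈ Finset.range n, bet (j + i) x =
      Real.exp (-∑ i ∈ Finset.range n, cost x (j + i)) := by
    unfold bet
    rw [gen_eq hx, ← Finset.sum_neg_distrib, Real.exp_sum]
  rw [h1, abs_of_pos (Real.exp_pos _)]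
  apply Real.exp_le_exp.2
  have := cost_sum_ge hx j n
  linarith

theorem SS_pow_norm (n : ℕ) :
    ‖SS ^ n‖ ≤ Real.exp (-10 * (((n + 1) ^ 2 / 4 : ℕ) : ℝ)) := by
  apply norm_le_of_fib (fun f => pow_ae_of_fib SS_ae n f) (Real.exp_pos _).le
  filter_upwards [ae_gen] with x hx
  exact Sf_pow_norm hx n

/-- Units near `1`. -/
def OO : Set ℤ_[2] := {x : ℤ_[2] | ‖x - 1‖ < 1}

theorem isOpen_OO : IsOpen OO := isOpen_lt (by fun_prop) continuous_const

theorem val_OO {x : ℤ_[2]} (hx : x ∈ OO) : x.valuation = 0 := by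
  have h1 : ‖x - 1‖ < 1 := hx
  have h2 : ‖x‖ = 1 := by
    have h3 : x = 1 + (x - 1) := by ring
    rw [h3]
    have h4 : ‖(1 : ℤ_[2])‖ ≠ ‖x - 1‖ := by
      rw [norm_one]; exact h1.ne'
    rw [PadicInt.norm_add_eq_max_of_ne h4, norm_one]
    exact max_eq_left h1.le
  have h5 : x ≠ 0 := by
    intro h; rw [h, norm_zero] at h2; norm_num at h2
  have h6 := PadicInt.norm_eq_zpow_neg_valuation h5
  rw [h2] at h6
  have h7 : ((2 : ℕ) : ℝ) ^ (0 : ℤ) = ((2 : ℕ) : ℝ) ^ (-(x.valuation : ℤ)) := by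
    rw [zpow_zero]; exact h6
  have h3 := zpow_right_injective₀ (by norm_num : (0 : ℝ) < ((2 : ℕ) : ℝ))
    (by norm_num : ((2 : ℕ) : ℝ) ≠ 1) h7
  have h4 : (0 : ℤ) = -(x.valuation : ℤ) := h3
  omega

theorem OO_pos : 0 < haarTwoAdic OO :=
  isOpen_OO.measure_pos haarTwoAdic ⟨1, by simp [OO]⟩

theorem SS_norm : ‖SS‖ = Real.exp (-10) := by
  apply le_antisymm (fibOp_norm_le Sf_meas)
  set f : fibreSpace := indicatorConstLp 2 isOpen_OO.measurableSet (measure_ne_top _ _)
    (basisVec 0 : seqHilbert) with hf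
  have hfae : ∀ᵐ x ∂haarTwoAdic, (f : ℤ_[2] → seqHilbert) x =
      OO.indicator (fun _ => (basisVec 0 : seqHilbert)) x := indicatorConstLp_coeFn
  have hfn : 0 < ‖f‖ := by
    rw [norm_pos_iff]
    intro h0
    have h1 : ∀ᵐ x ∂haarTwoAdic, x ∉ OO := by
      have h2 : ∀ᵐ x ∂haarTwoAdic, (f : ℤ_[2] → seqHilbert) x = 0 := by
        rw [h0]; exact Lp.coeFn_zero _ _ _
      filter_upwards [hfae, h2] with x h3 h4 h5
      rw [h4, Set.indicator_of_mem h5] at h3
      have := norm_basisVec 0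
      rw [← h3, norm_zero] at this
      norm_num at this
    rw [ae_iff] at h1
    simp only [not_not] at h1
    exact OO_pos.ne' h1
  have hle : ‖f‖ ≤ Real.exp 10 * ‖SS f‖ := by
    apply Lp.norm_le_mul_norm_of_ae_le_mul
    filter_upwards [hfae, SS_ae f, ae_gen] with x h1 h2 h3
    by_cases hx : x ∈ OO
    · rw [h2, h1, Set.indicator_of_mem hx, Sf_basis, norm_smul, norm_basisVec, norm_basisVec,
        Complex.norm_real, Real.norm_eq_abs, abs_of_pos (bet_pos _ _)]
      unfold bet cost lev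
      rw [gen_eq h3, if_pos le_rfl]
      have h4 : lv x 0 0 = 0 := by
        unfold lv
        rw [Finset.Icc_self, Finset.sup_singleton, vv_zero, val_OO hx]
      rw [h4, Gc_zero, mul_one, ← Real.exp_add]
      norm_num
    · rw [h1, Set.indicator_of_notMem hx, norm_zero]
      positivity
  have h2 : ‖SS f‖ ≤ ‖SS‖ * ‖f‖ := SS.le_opNorm f
  have h3 : ‖f‖ ≤ Real.exp 10 * (‖SS‖ * ‖f‖) :=
    hle.trans (mul_le_mul_of_nonneg_left h2 (Real.exp_pos _).le)
  have h4 : 1 ≤ Real.exp 10 * ‖SS‖ := by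
    by_contra hcon
    push Not at hcon
    nlinarith
  have h5 : Real.exp (-10) ≤ ‖SS‖ := by
    rw [Real.exp_neg, inv_le_iff_one_le_mul₀' (Real.exp_pos _)]
    exact h4
  exact h5

theorem SS_ne : SS ≠ 0 := by
  intro h
  have := SS_norm
  rw [h, norm_zero] at this
  exact absurd this (Real.exp_pos _).ne

theorem closure_tail {x : ℤ_[2]} (hx : Gen x) (h : ℤ) :
    closure (Vf x '' (tailSpace h : Set seqHilbert)) = (tailSpace (h - 1) : Set seqHilbert) := by
  apply subset_antisymm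
  · apply closure_minimal
    · rintro _ ⟨v, hv, rfl⟩
      have hv' : v ∈ tailSpace h := hv
      change Vf x v ∈ tailSpace (h - 1)
      rw [mem_tail_iff] at hv' ⊢
      intro j hj
      unfold Vf
      rw [wsh_apply, hv' _ (by omega), mul_zero]
    · exact Submodule.isClosed_topologicalClosure _
  · have h1 : (Submodule.span ℂ (Set.range fun j : {j : ℤ // h - 1 ≤ j} => basisVec (j : ℤ))) ≤
        (tailSpace h).map (Vf x).toLinearMap := by
      rw [Submodule.span_le]
      rintro _ ⟨⟨j, hj⟩, rfl⟩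
      refine ⟨((bb (j + 1) x : ℝ) : ℂ)⁻¹ • basisVec (j + 1),
        Submodule.smul_mem _ _ (basisVec_mem_tail (by omega)), ?_⟩
      change Vf x _ = basisVec j
      rw [map_smul, Vf_basis, smul_smul, inv_mul_cancel₀, one_smul]
      · congr 1; ring
      · exact_mod_cast (bb_pos hx _).ne'
    have h2 : (tailSpace (h - 1) : Set seqHilbert) =
        closure ((Submodule.span ℂ (Set.range fun j : {j : ℤ // h - 1 ≤ j} => basisVec (j : ℤ)) :
          Submodule ℂ seqHilbert) : Set seqHilbert) := by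
      rw [tailSpace, Submodule.topologicalClosure_coe]
    rw [h2]
    exact closure_mono h1

theorem closure_range {x : ℤ_[2]} (hx : Gen x) : closure (Set.range (Vf x)) = Set.univ := by
  rw [Set.eq_univ_iff_forall]
  intro v
  have hcl : IsClosed (closure (Set.range (Vf x))) := isClosed_closure
  refine hcl.mem_of_tendsto (hasSum_basis v) (Filter.Eventually.of_forall fun s => ?_)
  apply subset_closure
  have : ∑ j ∈ s, v j • basisVec j ∈ LinearMap.range (Vf x).toLinearMap := by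
    apply Submodule.sum_mem
    intro j _
    apply Submodule.smul_mem
    refine ⟨((bb (j + 1) x : ℝ) : ℂ)⁻¹ • basisVec (j + 1), ?_⟩
    change Vf x _ = basisVec j
    rw [map_smul, Vf_basis, smul_smul, inv_mul_cancel₀, one_smul]
    · congr 1; ring
    · exact_mod_cast (bb_pos hx _).ne'
  exact this

end Crest.Agent.R113.Two
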