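import Crest.Agent.R113.TwoDefs

/-!
# Row 113, S0150: weighted shifts on `ℓ²(ℤ)`
-/

set_option autoImplicit false

namespace Crest.Agent.R113.Two

open Crest.AnalysisR.TwoAdic MeasureTheory

/-- Truncated-free weighted shift: `(wsh w d v) k = w (k - d) * v (k - d)`. -/
noncomputable def wfun (w : ℤ → ℝ) (d : ℤ) (v : ℤ → ℂ) : ℤ → ℂ :=
  fun k => (w (k - d) : ℂ) * v (k - d)

theorem two_toReal_pos : 0 < (2 : ENNReal).toReal := by norm_num

theorem summable_sq (v : seqHilbert) : Summable fun k : ℤ => ‖v k‖ ^ (2 : ℝ) := by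
  have := (lp.memℓp v).summable two_toReal_pos
  simpa using this

theorem wfun_sum_le {w : ℤ → ℝ} {M : ℝ} (hw : ∀ j, |w j| ≤ M) (d : ℤ) (v : seqHilbert)
    (s : Finset ℤ) :
    ∑ k ∈ s, ‖wfun w d v k‖ ^ (2 : ENNReal).toReal ≤ (M * ‖v‖) ^ (2 : ENNReal).toReal := by
  have hM : 0 ≤ M := le_trans (abs_nonneg _) (hw 0)
  have h1 : ∀ k, ‖wfun w d v k‖ ^ (2 : ENNReal).toReal ≤
      M ^ (2 : ENNReal).toReal * ‖v (k - d)‖ ^ (2 : ENNReal).toReal := by
    intro k
    rw [← Real.mul_rpow hM (norm_nonneg _)]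
    apply Real.rpow_le_rpow (norm_nonneg _) _ (le_of_lt two_toReal_pos)
    unfold wfun
    rw [norm_mul, Complex.norm_real]
    exact mul_le_mul_of_nonneg_right (hw _) (norm_nonneg _)
  calc ∑ k ∈ s, ‖wfun w d v k‖ ^ (2 : ENNReal).toReal
      ≤ ∑ k ∈ s, M ^ (2 : ENNReal).toReal * ‖v (k - d)‖ ^ (2 : ENNReal).toReal :=
        Finset.sum_le_sum fun k _ => h1 k
    _ = M ^ (2 : ENNReal).toReal * ∑ k ∈ s.map (Equiv.subRight d).toEmbedding,
          ‖v k‖ ^ (2 : ENNReal).toReal := by
        rw [← Finset.mul_sum, Finset.sum_map]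
        rfl
    _ ≤ M ^ (2 : ENNReal).toReal * ‖v‖ ^ (2 : ENNReal).toReal := by
        apply mul_le_mul_of_nonneg_left _ (Real.rpow_nonneg hM _)
        exact lp.sum_rpow_le_norm_rpow two_toReal_pos v _
    _ = (M * ‖v‖) ^ (2 : ENNReal).toReal := by
        rw [Real.mul_rpow hM (norm_nonneg _)]

theorem wfun_mem {w : ℤ → ℝ} {M : ℝ} (hw : ∀ j, |w j| ≤ M) (d : ℤ) (v : seqHilbert) :
    Memℓp (wfun w d v) 2 :=
  memℓp_gen' (wfun_sum_le hw d v)

/-- The weighted shift operator on `ℓ²(ℤ)`: `δ_j ↦ w_j δ_{j+d}`, for bounded weights. -/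
noncomputable def wsh (w : ℤ → ℝ) (d : ℤ) (M : ℝ) (hw : ∀ j, |w j| ≤ M) :
    seqHilbert →L[ℂ] seqHilbert :=
  LinearMap.mkContinuous
    { toFun := fun v => ⟨wfun w d v, wfun_mem hw d v⟩
      map_add' := by
        intro u v
        apply lp.ext
        funext k
        change (w (k - d) : ℂ) * (u + v) (k - d) = (w (k - d) : ℂ) * u (k - d) + (w (k - d) : ℂ) * v (k - d)
        rw [lp.coeFn_add, Pi.add_apply, mul_add]
      map_smul' := by
        intro c v
        apply lp.ext
        funext k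
        change (w (k - d) : ℂ) * (c • v) (k - d) = c * ((w (k - d) : ℂ) * v (k - d))
        rw [lp.coeFn_smul, Pi.smul_apply, smul_eq_mul]
        ring }
    M (by
      intro v
      have hM : 0 ≤ M := le_trans (abs_nonneg _) (hw 0)
      apply lp.norm_le_of_forall_sum_le two_toReal_pos (by positivity)
      intro s
      exact wfun_sum_le hw d v s)

theorem wsh_apply {w : ℤ → ℝ} {d : ℤ} {M : ℝ} {hw : ∀ j, |w j| ≤ M} (v : seqHilbert) (k : ℤ) :
    wsh w d M hw v k = (w (k - d) : ℂ) * v (k - d) := rfl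

theorem wsh_norm_le {w : ℤ → ℝ} {d : ℤ} {M : ℝ} {hw : ∀ j, |w j| ≤ M} :
    ‖wsh w d M hw‖ ≤ M :=
  LinearMap.mkContinuous_norm_le _ (le_trans (abs_nonneg _) (hw 0)) _

theorem wsh_basis {w : ℤ → ℝ} {d : ℤ} {M : ℝ} {hw : ∀ j, |w j| ≤ M} (j : ℤ) :
    wsh w d M hw (basisVec j) = ((w j : ℝ) : ℂ) • basisVec (j + d) := by
  apply lp.ext
  funext k
  rw [wsh_apply]
  simp only [basisVec, lp.coeFn_smul, Pi.smul_apply, lp.single_apply, smul_eq_mul]
  by_cases h : k = j + d
  · subst h
    simp
  · have h2 : k - d ≠ j := by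
      intro h3; exact h (by omega)
    simp [Pi.single_apply, h, h2]

theorem basisVec_apply (j k : ℤ) : (basisVec j : seqHilbert) k = if k = j then 1 else 0 := by
  simp [basisVec, lp.single_apply, Pi.single_apply]

theorem norm_basisVec (j : ℤ) : ‖(basisVec j : seqHilbert)‖ = 1 := by
  have := lp.norm_single (E := fun _ : ℤ => ℂ) (p := 2) (by norm_num) j (1 : ℂ)
  simpa [basisVec] using this

theorem inner_basisVec (j : ℤ) (v : seqHilbert) : inner ℂ (basisVec j) v = v j := by
  rw [basisVec, lp.inner_single_left]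
  simp

/-- Expansion of a vector. -/
theorem hasSum_basis (v : seqHilbert) : HasSum (fun j : ℤ => v j • basisVec j) v := by
  have h := lp.hasSum_single (E := fun _ : ℤ => ℂ) (p := 2) (by norm_num) v
  have h2 : (fun j : ℤ => v j • basisVec j) =
      fun j : ℤ => lp.single (E := fun _ : ℤ => ℂ) 2 j (v j) := by
    funext j
    rw [basisVec, ← lp.single_smul, smul_eq_mul, mul_one]
  rw [h2]
  exact h

/-- The `k`-th coordinate as a continuous functional. -/
theorem coord_continuous (k : ℤ) : Continuous fun v : seqHilbert => v k :=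
  (lp.evalCLM ℂ (fun _ : ℤ => ℂ) 2 k).continuous

theorem basisVec_mem_tail {h j : ℤ} (hj : h ≤ j) : basisVec j ∈ tailSpace h :=
  Submodule.le_topologicalClosure _ (Submodule.subset_span ⟨⟨j, hj⟩, rfl⟩)

theorem mem_tail_iff {h : ℤ} {v : seqHilbert} :
    v ∈ tailSpace h ↔ ∀ j : ℤ, j < h → v j = 0 := by
  constructor
  · intro hv j hj
    have hcl : IsClosed {u : seqHilbert | u j = 0} :=
      isClosed_eq (coord_continuous j) continuous_const
    have hsub : ((Submodule.span ℂ (Set.range fun j : {j : ℤ // h ≤ j} => basisVec (j : ℤ)) :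
        Submodule ℂ seqHilbert) : Set seqHilbert) ⊆ {u : seqHilbert | u j = 0} := by
      intro u hu
      have hu' : u ∈ Submodule.span ℂ (Set.range fun j : {j : ℤ // h ≤ j} => basisVec (j : ℤ)) := hu
      induction hu' using Submodule.span_induction with
      | mem x hx =>
        obtain ⟨⟨i, hi⟩, rfl⟩ := hx
        have : j ≠ i := by omega
        simp [basisVec_apply, this]
      | zero => simp
      | add x y _ _ hx hy =>
        have hx' : x j = 0 := hx (by assumption)
        have hy' : y j = 0 := hy (by assumption)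
        simp [lp.coeFn_add, hx', hy']
      | smul a x _ hx =>
        have hx' : x j = 0 := hx (by assumption)
        simp [lp.coeFn_smul, hx']
    have := closure_minimal hsub hcl
    exact this (by
      have h1 : v ∈ closure ((Submodule.span ℂ (Set.range fun j : {j : ℤ // h ≤ j} =>
        basisVec (j : ℤ)) : Submodule ℂ seqHilbert) : Set seqHilbert) := by
        have h2 : v ∈ tailSpace h := hv
        rw [tailSpace] at h2
        rwa [← Submodule.topologicalClosure_coe]
      exact h1)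
  · intro hv
    have hs := hasSum_basis v
    have hcl : IsClosed (tailSpace h : Set seqHilbert) := Submodule.isClosed_topologicalClosure _
    refine hcl.mem_of_tendsto hs (Filter.Eventually.of_forall fun s => ?_)
    apply Submodule.sum_mem
    intro j _
    by_cases hj : h ≤ j
    · exact Submodule.smul_mem _ _ (basisVec_mem_tail hj)
    · rw [hv j (by omega), zero_smul]
      exact Submodule.zero_mem _

/-- The product of `n` consecutive weights. -/
theorem wsh_pow_apply {w : ℤ → ℝ} {M : ℝ} {hw : ∀ j, |w j| ≤ M} (n : ℕ) (v : seqHilbert)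
    (k : ℤ) :
    ((wsh w 1 M hw) ^ n) v k =
      ((∏ i ∈ Finset.range n, w (k - n + i) : ℝ) : ℂ) * v (k - n) := by
  induction n generalizing k with
  | zero => simp
  | succ n ih =>
    rw [pow_succ']
    change wsh w 1 M hw (((wsh w 1 M hw) ^ n) v) k = _
    rw [wsh_apply, ih, Finset.prod_range_succ]
    have h1 : k - 1 - (n : ℤ) = k - ((n + 1 : ℕ) : ℤ) := by push_cast; ring
    have h2 : k - ((n + 1 : ℕ) : ℤ) + (n : ℤ) = k - 1 := by push_cast; ring
    rw [h1, h2]
    push_cast
    ring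

/-- Norm bound for powers. -/
theorem wsh_pow_norm_le {w : ℤ → ℝ} {M : ℝ} {hw : ∀ j, |w j| ≤ M} (n : ℕ) {C : ℝ}
    (hC : ∀ j : ℤ, |∏ i ∈ Finset.range n, w (j + i)| ≤ C) :
    ‖(wsh w 1 M hw) ^ n‖ ≤ C := by
  have h : (wsh w 1 M hw) ^ n = wsh (fun j => ∏ i ∈ Finset.range n, w (j + i)) n C hC := by
    ext v k
    rw [wsh_pow_apply, wsh_apply]
  rw [h]
  exact wsh_norm_le

/-- Any bounded operator which acts on basis vectors as a weighted shift is given by the
coordinate formula. -/
theorem shift_apply_of_basis (A : seqHilbert →L[ℂ] seqHilbert) (w : ℤ → ℝ) (d : ℤ)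
    (hA : ∀ j, A (basisVec j) = ((w j : ℝ) : ℂ) • basisVec (j + d)) (v : seqHilbert) (k : ℤ) :
    A v k = (w (k - d) : ℂ) * v (k - d) := by
  have hs := (hasSum_basis v).mapL A
  have hs2 := hs.mapL (lp.evalCLM ℂ (fun _ : ℤ => ℂ) 2 k)
  have h3 : HasSum (fun j : ℤ => (lp.evalCLM ℂ (fun _ : ℤ => ℂ) 2 k) (A (v j • basisVec j)))
      ((w (k - d) : ℂ) * v (k - d)) := by
    have h4 : (fun j : ℤ => (lp.evalCLM ℂ (fun _ : ℤ => ℂ) 2 k) (A (v j • basisVec j))) =
        fun j : ℤ => if j = k - d then ((w (k - d) : ℂ) * v (k - d)) else 0 := by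
      funext j
      rw [map_smul, hA]
      change (v j • (((w j : ℝ) : ℂ) • basisVec (j + d)) : seqHilbert) k = _
      rw [lp.coeFn_smul, Pi.smul_apply, lp.coeFn_smul, Pi.smul_apply, basisVec_apply]
      by_cases h : j = k - d
      · subst h
        simp
        ring
      · have h' : k ≠ j + d := by
          intro h2; exact h (by omega)
        simp [h, h']
    rw [h4]
    exact hasSum_ite_eq _ _
  exact hs2.unique h3

end Crest.Agent.R113.Two
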