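import Crest.Agent.R113.TwoFib

/-!
# Row 113, S0150: transitivity
-/

set_option autoImplicit false

namespace Crest.Agent.R113.Two

open Crest.AnalysisR.TwoAdic MeasureTheory Filter Topology

attribute [local instance] Crest.AnalysisR.TwoAdic.borelTwoAdic
  Crest.AnalysisR.TwoAdic.borelSpace_twoAdic

/-- Powers of the intertwiner move the coordinates to the left. -/
theorem back_coord {Vfib : ℤ_[2] → (seqHilbert →L[ℂ] seqHilbert)}
    {V : fibreSpace →L[ℂ] fibreSpace} {b : ℤ → ℤ_[2] → ℝ}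
    (hVb : ∀ x j, Vfib x (basisVec j) = (b j x : ℂ) • basisVec (j - 1))
    (hbpos : ∀ᵐ x ∂haarTwoAdic, ∀ j, 0 < b j x)
    (hV : ∀ f : fibreSpace, ∀ᵐ x ∂haarTwoAdic,
      (V f : ℤ_[2] → seqHilbert) (x + 1) = Vfib x ((f : ℤ_[2] → seqHilbert) x))
    (f : fibreSpace) (p : ℕ) : ∀ᵐ x ∂haarTwoAdic, ∀ j : ℤ,
      (f : ℤ_[2] → seqHilbert) x (j + p) ≠ 0 →
        (((V ^ p) f : fibreSpace) : ℤ_[2] → seqHilbert) (x + p) j ≠ 0 := by
  induction p with
  | zero =>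
    refine Eventually.of_forall fun x j h => ?_
    simpa using h
  | succ p ih =>
    have h1 := ae_add (p : ℤ_[2]) (hV ((V ^ p) f))
    have h2 := ae_add (p : ℤ_[2]) hbpos
    filter_upwards [ih, h1, h2] with x h3 h4 h5 j hj
    have e1 : (V ^ (p + 1)) f = V ((V ^ p) f) := by rw [pow_succ']; rfl
    have e2 : x + ((p + 1 : ℕ) : ℤ_[2]) = x + (p : ℤ_[2]) + 1 := by push_cast; ring
    rw [e1, e2, h4]
    have h6 := shift_apply_of_basis (Vfib (x + p)) (fun j => b j (x + p)) (-1)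
      (fun j => hVb (x + p) j) ((((V ^ p) f : fibreSpace) : ℤ_[2] → seqHilbert) (x + p)) j
    rw [h6]
    have e3 : j - -1 = j + 1 := by ring
    rw [e3]
    apply mul_ne_zero
    · exact_mod_cast (h5 (j + 1)).ne'
    · apply h3
      have e4 : j + 1 + (p : ℤ) = j + ((p + 1 : ℕ) : ℤ) := by push_cast; ring
      rwa [e4]

/-- Multiplier invariance localises orthogonality. -/
theorem inner_ae_zero (W : Submodule ℂ fibreSpace)
    (hW : ∀ g : ℤ_[2] → ℂ, Measurable g → (∃ C : ℝ, ∀ x, ‖g x‖ ≤ C) →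
      ∀ f ∈ W, ∀ f' : fibreSpace,
        (∀ᵐ x ∂haarTwoAdic, (f' : ℤ_[2] → seqHilbert) x = g x • (f : ℤ_[2] → seqHilbert) x) →
          f' ∈ W)
    {f g : fibreSpace} (hf : f ∈ W) (hg : g ∈ Wᗮ) :
    ∀ᵐ x ∂haarTwoAdic, inner ℂ ((g : ℤ_[2] → seqHilbert) x) ((f : ℤ_[2] → seqHilbert) x) = 0 := by
  have hint : Integrable (fun x => inner ℂ ((g : ℤ_[2] → seqHilbert) x)
      ((f : ℤ_[2] → seqHilbert) x)) haarTwoAdic := L2.integrable_inner g f
  have key : ∀ s, MeasurableSet s → ∫ x in s, inner ℂ ((g : ℤ_[2] → seqHilbert) x)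
      ((f : ℤ_[2] → seqHilbert) x) ∂haarTwoAdic = 0 := by
    intro s hs
    have hm : MemLp (s.indicator (f : ℤ_[2] → seqHilbert)) 2 haarTwoAdic :=
      (Lp.memLp f).indicator hs
    have hf' : hm.toLp _ ∈ W := by
      refine hW (s.indicator fun _ => 1) (measurable_const.indicator hs) ⟨1, fun x => ?_⟩ f hf _ ?_
      · by_cases hx : x ∈ s
        · rw [Set.indicator_of_mem hx]; simp
        · rw [Set.indicator_of_notMem hx]; simp
      · filter_upwards [hm.coeFn_toLp] with x hx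
        rw [hx]
        by_cases hxs : x ∈ s
        · rw [Set.indicator_of_mem hxs, Set.indicator_of_mem hxs, one_smul]
        · rw [Set.indicator_of_notMem hxs, Set.indicator_of_notMem hxs, zero_smul]
    have h0 : inner ℂ g (hm.toLp _) = 0 :=
      (Submodule.mem_orthogonal' W g).1 hg _ hf'
    rw [L2.inner_def] at h0
    rw [← integral_indicator hs, ← h0]
    apply integral_congr_ae
    filter_upwards [hm.coeFn_toLp] with x hx
    rw [hx]
    by_cases hxs : x ∈ s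
    · rw [Set.indicator_of_mem hxs, Set.indicator_of_mem hxs]
    · rw [Set.indicator_of_notMem hxs, Set.indicator_of_notMem hxs, inner_zero_right]
  exact hint.ae_eq_zero_of_forall_setIntegral_eq_zero fun s hs _ => key s hs

theorem pow_mem_of_inv {W : Submodule ℂ fibreSpace} {T : fibreSpace →L[ℂ] fibreSpace}
    (hT : ∀ f ∈ W, T f ∈ W) (n : ℕ) : ∀ f ∈ W, (T ^ n) f ∈ W := by
  induction n with
  | zero => intro f hf; simpa using hf
  | succ n ih =>
    intro f hf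
    rw [pow_succ']
    exact hT _ (ih f hf)

/-- A nonzero element has a coordinate which is nonzero on a set of positive measure. -/
theorem exists_coord {f : fibreSpace} (hf : f ≠ 0) :
    ∃ j : ℤ, haarTwoAdic {x | (f : ℤ_[2] → seqHilbert) x j ≠ 0} ≠ 0 := by
  by_contra hcon
  push Not at hcon
  apply hf
  apply Lp.ext
  have h1 : ∀ᵐ x ∂haarTwoAdic, ∀ j : ℤ, (f : ℤ_[2] → seqHilbert) x j = 0 := by
    rw [ae_all_iff]
    intro j
    rw [ae_iff]
    exact hcon j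
  filter_upwards [h1, Lp.coeFn_zero seqHilbert 2 haarTwoAdic] with x h2 h3
  rw [h3]
  apply lp.ext
  funext j
  rw [h2 j]
  simp

theorem measurable_coord_set (f : fibreSpace) (j : ℤ) :
    MeasurableSet {x | (f : ℤ_[2] → seqHilbert) x j ≠ 0} := by
  have h1 : StronglyMeasurable (fun x => (f : ℤ_[2] → seqHilbert) x j) :=
    (coord_continuous j).comp_stronglyMeasurable (Lp.stronglyMeasurable f)
  exact (h1.measurable (measurableSet_singleton (0 : ℂ))).compl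

theorem ergodic_add_one : Ergodic (fun x : ℤ_[2] => 1 + x) haarTwoAdic := by
  apply ergodic_add_left_of_denseRange_nsmul
  have h := PadicInt.denseRange_natCast (p := 2)
  have e : (fun n : ℕ => n • (1 : ℤ_[2])) = fun n : ℕ => (n : ℤ_[2]) := by
    funext n; simp
  rw [e]
  exact h

/-- **Transitivity**. -/
theorem transitive {Sfib Vfib : ℤ_[2] → (seqHilbert →L[ℂ] seqHilbert)}
    {S V : fibreSpace →L[ℂ] fibreSpace} {b : ℤ → ℤ_[2] → ℝ}
    (hS : ∀ f : fibreSpace, ∀ᵐ x ∂haarTwoAdic,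
      (S f : ℤ_[2] → seqHilbert) x = Sfib x ((f : ℤ_[2] → seqHilbert) x))
    (hVb : ∀ x j, Vfib x (basisVec j) = (b j x : ℂ) • basisVec (j - 1))
    (hbpos : ∀ᵐ x ∂haarTwoAdic, ∀ j, 0 < b j x)
    (hV : ∀ f : fibreSpace, ∀ᵐ x ∂haarTwoAdic,
      (V f : ℤ_[2] → seqHilbert) (x + 1) = Vfib x ((f : ℤ_[2] → seqHilbert) x))
    (hU : ∀ (x : ℤ_[2]) (f g : seqHilbert) (j k : ℤ), j ≤ k → f j ≠ 0 → g k ≠ 0 →
      ∃ n : ℕ, inner ℂ g ((Sfib x ^ n) f) ≠ 0)
    (W : Submodule ℂ fibreSpace) (hWc : IsClosed (W : Set fibreSpace))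
    (hWS : ∀ f ∈ W, S f ∈ W) (hWV : ∀ f ∈ W, V f ∈ W)
    (hWm : ∀ g : ℤ_[2] → ℂ, Measurable g → (∃ C : ℝ, ∀ x, ‖g x‖ ≤ C) →
      ∀ f ∈ W, ∀ f' : fibreSpace,
        (∀ᵐ x ∂haarTwoAdic, (f' : ℤ_[2] → seqHilbert) x = g x • (f : ℤ_[2] → seqHilbert) x) →
          f' ∈ W) :
    W = ⊥ ∨ W = ⊤ := by
  by_contra hcon
  push Not at hcon
  obtain ⟨h1, h2⟩ := hcon
  obtain ⟨f, hf, hf0⟩ := (Submodule.ne_bot_iff W).1 h1
  have : CompleteSpace W := hWc.completeSpace_coe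
  have h3 : Wᗮ ≠ ⊥ := by
    intro h; exact h2 ((Submodule.orthogonal_eq_bot_iff).1 h)
  obtain ⟨g, hg, hg0⟩ := (Submodule.ne_bot_iff _).1 h3
  -- pointwise orthogonality
  have hae : ∀ᵐ x ∂haarTwoAdic, ∀ n p : ℕ, inner ℂ ((g : ℤ_[2] → seqHilbert) x)
      ((Sfib x ^ n) ((((V ^ p) f : fibreSpace) : ℤ_[2] → seqHilbert) x)) = 0 := by
    rw [ae_all_iff]; intro n
    rw [ae_all_iff]; intro p
    have h4 := inner_ae_zero W hWm (pow_mem_of_inv hWS n _ (pow_mem_of_inv hWV p f hf)) hg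
    filter_upwards [h4, pow_ae_of_fib hS n ((V ^ p) f)] with x h5 h6
    rwa [h6] at h5
  have hsep : ∀ᵐ x ∂haarTwoAdic, ∀ (p : ℕ) (j k : ℤ),
      (((V ^ p) f : fibreSpace) : ℤ_[2] → seqHilbert) x j ≠ 0 →
        (g : ℤ_[2] → seqHilbert) x k ≠ 0 → k < j := by
    filter_upwards [hae] with x hx p j k hj hk
    by_contra hlt
    push Not at hlt
    obtain ⟨n, hn⟩ := hU x _ _ j k hlt hj hk
    exact hn (hx n p)
  obtain ⟨j1, hj1⟩ := exists_coord hf0
  obtain ⟨k1, hk1⟩ := exists_coord hg0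
  set A : Set ℤ_[2] := {x | (f : ℤ_[2] → seqHilbert) x j1 ≠ 0} with hA
  set B : Set ℤ_[2] := {x | (g : ℤ_[2] → seqHilbert) x k1 ≠ 0} with hB
  have hAB : ∀ p : ℕ, j1 - k1 ≤ p → ∀ᵐ x ∂haarTwoAdic, x ∈ A → x + (p : ℤ_[2]) ∉ B := by
    intro p hp
    filter_upwards [back_coord hVb hbpos hV f p, ae_add (p : ℤ_[2]) hsep] with x h5 h6 hxA hxB
    have e : j1 - (p : ℤ) + p = j1 := by ring
    have h7 := h6 p (j1 - p) k1 (h5 (j1 - p) (by rw [e]; exact hxA)) hxB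
    omega
  set N : ℕ := (j1 - k1).toNat with hN
  have hNp : ∀ p : ℕ, N ≤ p → j1 - k1 ≤ p := by intro p hp; omega
  set D : Set ℤ_[2] := ⋃ p : {p : ℕ // N ≤ p}, (fun x : ℤ_[2] => x + ((p : ℕ) : ℤ_[2])) ⁻¹' B
    with hD
  have hBm : MeasurableSet B := measurable_coord_set g k1
  have hDm : MeasurableSet D :=
    MeasurableSet.iUnion fun p => (measurable_add_const _) hBm
  have hDsub : (fun x : ℤ_[2] => 1 + x) ⁻¹' D ⊆ D := by
    intro x hx
    simp only [hD, Set.mem_preimage, Set.mem_iUnion] at hx ⊢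
    obtain ⟨⟨p, hp⟩, hxp⟩ := hx
    refine ⟨⟨p + 1, by omega⟩, ?_⟩
    have e : x + ((p + 1 : ℕ) : ℤ_[2]) = 1 + x + (p : ℤ_[2]) := by push_cast; ring
    simp only [e]
    exact hxp
  rcases ergodic_add_one.ae_empty_or_univ_of_preimage_ae_le hDm.nullMeasurableSet
    hDsub.eventuallyLE with h5 | h5
  · have h6 : haarTwoAdic D = 0 := by
      rw [measure_congr h5]; exact measure_empty
    have h7 : haarTwoAdic ((fun x : ℤ_[2] => x + (N : ℤ_[2])) ⁻¹' B) = 0 := by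
      apply measure_mono_null _ h6
      intro x hx
      simp only [hD, Set.mem_iUnion]
      exact ⟨⟨N, le_rfl⟩, hx⟩
    rw [(mp_add (N : ℤ_[2])).measure_preimage hBm.nullMeasurableSet] at h7
    exact hk1 h7
  · have h6 : ∀ᵐ x ∂haarTwoAdic, x ∈ D := by
      filter_upwards [h5] with x hx
      have : (x ∈ D) = (x ∈ Set.univ) := hx
      rw [this]; trivial
    have h7 : ∀ᵐ x ∂haarTwoAdic, ∀ p : {p : ℕ // N ≤ p}, x ∈ A → x + ((p : ℕ) : ℤ_[2]) ∉ B := by
      rw [ae_all_iff]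
      rintro ⟨p, hp⟩
      exact hAB p (hNp p hp)
    have h8 : ∀ᵐ x ∂haarTwoAdic, x ∉ A := by
      filter_upwards [h6, h7] with x h9 h10 hxA
      simp only [hD, Set.mem_iUnion] at h9
      obtain ⟨p, hp⟩ := h9
      exact h10 p hxA hp
    rw [ae_iff] at h8
    simp only [not_not] at h8
    exact hj1 h8

end Crest.Agent.R113.Two
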