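import Crest.Agent.R113.UniCore

/-!
Row 113, S0150, part (U): the unicellular lemma for a valley-shaped weighted shift:
`unicell_pair` and `unicell`.
-/

set_option autoImplicit false
open Filter Topology
open Crest.AnalysisR.TwoAdic
open Crest.Agent.R113.Uni

namespace Crest.Agent.R113.Two

theorem exp_small {W x : ℝ} (hx : 4 * W ≤ x) : W * Real.exp (-x) ≤ 1 / 4 := by
  have h1 : x + 1 ≤ Real.exp x := Real.add_one_le_exp x
  have h2 : Real.exp (-x) * Real.exp x = 1 := by rw [← Real.exp_add]; simp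
  have h3 : 0 < Real.exp (-x) := Real.exp_pos _
  have h4 : W * Real.exp (-x) * 4 ≤ Real.exp (-x) * Real.exp x := by
    nlinarith
  linarith

/-- a convenient reformulation of `Valley`. -/
theorem valley_gap {c : ℤ → ℝ} (hv : Valley c) (X : ℝ) :
    ∃ (L : ℝ) (P : ℕ) (a b : ℤ), X ≤ L ∧ X * ((P : ℝ) + 1) ≤ L ∧ 4 ≤ L ∧
      (∀ t : ℤ, |(t : ℝ)| ≤ X → a ≤ t ∧ t ≤ b) ∧
      (∀ i, a ≤ i → i < b → c i ≤ L / 4) ∧ (∀ i, (i < a ∨ b ≤ i) → 16 * L ≤ c i) ∧
      -(P : ℤ) ≤ a ∧ b ≤ P := by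
  obtain ⟨K, hK⟩ : ∃ K : ℕ, 64 + 16 * |X| ≤ K := exists_nat_ge _
  obtain ⟨a, b, lo, hi, ha, hb, hlo, hlow, hhigh, hbig⟩ := hv.lev K
  have hX0 := abs_nonneg X
  have hX1 := le_abs_self X
  have hK64 : (64 : ℝ) ≤ K := by linarith only [hK, hX0]
  have hKX : 16 * |X| ≤ K := by linarith only [hK, hX0]
  have hab : a ≤ 0 ∧ 0 ≤ b := by constructor <;> omega
  obtain ⟨w, hw⟩ : ∃ w : ℝ, w = ((b - a : ℤ) : ℝ) + 1 := ⟨_, rfl⟩
  rw [← hw] at hbig
  have hw1 : 1 ≤ w := by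
    have : (0 : ℝ) ≤ ((b - a : ℤ) : ℝ) := by
      have : (0 : ℤ) ≤ b - a := by omega
      exact_mod_cast this
    rw [hw]
    linarith only [this]
  have hlo0 : 0 ≤ lo := by linarith only [hlo, hK64]
  have hw3 : w ≤ w ^ 3 := by
    have h2 : (1 : ℝ) ≤ w ^ 2 := one_le_pow₀ hw1
    calc w = w * 1 := by ring
      _ ≤ w * w ^ 2 := mul_le_mul_of_nonneg_left h2 (by linarith only [hw1])
      _ = w ^ 3 := by ring
  have hK0 : (0 : ℝ) ≤ K := by linarith only [hK64]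
  have hhi1 : (K : ℝ) * w * (lo + 1) ≤ hi := by
    refine le_trans ?_ hbig
    apply mul_le_mul_of_nonneg_right _ (by linarith only [hlo0])
    exact mul_le_mul_of_nonneg_left hw3 hK0
  have hhi2 : (K : ℝ) * w ≤ hi := by
    have h1 : 0 ≤ (K : ℝ) * w := by positivity
    have h2 : (K : ℝ) * w * 1 ≤ (K : ℝ) * w * (lo + 1) :=
      mul_le_mul_of_nonneg_left (by linarith only [hlo0]) h1
    linarith only [h2, hhi1]
  have hhi3 : (K : ℝ) * (lo + 1) ≤ hi := by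
    have h1 : 0 ≤ (K : ℝ) * (lo + 1) := by positivity
    have h2 : (K : ℝ) * (lo + 1) * 1 ≤ (K : ℝ) * (lo + 1) * w :=
      mul_le_mul_of_nonneg_left hw1 h1
    linarith only [h2, hhi1]
  have hhi4 : (K : ℝ) ≤ hi := by
    have h2 : (K : ℝ) * 1 ≤ (K : ℝ) * w := mul_le_mul_of_nonneg_left hw1 hK0
    linarith only [h2, hhi2]
  obtain ⟨P, hP⟩ : ∃ P : ℕ, P = (b - a).toNat := ⟨_, rfl⟩
  have hPz : (P : ℤ) = b - a := by omega
  have hPw : (P : ℝ) + 1 = w := by
    rw [hw, ← hPz]; simp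
  refine ⟨hi / 16, P, a, b, ?_, ?_, ?_, ?_, ?_, ?_, by omega, by omega⟩
  · linarith only [hKX, hX1, hhi4]
  · rw [hPw]
    have h1 : X * w ≤ |X| * w := mul_le_mul_of_nonneg_right hX1 (by linarith only [hw1])
    have h2 : 16 * |X| * w ≤ K * w := mul_le_mul_of_nonneg_right hKX (by linarith only [hw1])
    linarith only [h1, h2, hhi2]
  · linarith only [hK64, hhi4]
  · intro t ht
    have h1 : |(t : ℝ)| ≤ K := by linarith only [ht, hX1, hX0, hKX]
    have h2 : |t| ≤ (K : ℤ) := by exact_mod_cast h1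
    have h3 := abs_le.mp h2
    constructor <;> omega
  · intro i h1 h2
    have h3 := hlow i h1 h2
    have h4 : 64 * (lo + 1) ≤ K * (lo + 1) :=
      mul_le_mul_of_nonneg_right hK64 (by linarith only [hlo0])
    linarith only [h3, h4, hhi3]
  · intro i h1
    have := hhigh i h1
    linarith only [this]

/-- the pigeonhole argument. -/
theorem exists_const {c F G : ℤ → ℝ} {L mu : ℝ} {k0 l0 : ℤ} {N : ℕ} {R1 R2 : ℤ}
    (hkl0 : k0 < l0) (hmu : 0 < mu) (hF0 : 0 < F k0) (hG0 : 0 < G l0)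
    (hN : R1 + R2 < N)
    (hexk : ∀ i : ℕ, i ≤ N → ∃ k : ℤ, (-R1 ≤ k ∧ k ≤ k0 ∧
      ∀ j, j ≤ k0 → wA c F (L + mu * i) j ≤ wA c F (L + mu * i) k))
    (hexl : ∀ i : ℕ, i ≤ N → ∃ l : ℤ, (l ≤ R2 ∧ l0 ≤ l ∧
      ∀ j, l0 ≤ j → wB c G (L + mu * i) j ≤ wB c G (L + mu * i) l)) :
    ∃ (i : ℕ) (k l : ℤ), i < N ∧ k ≤ k0 ∧ l0 ≤ l ∧
      (∀ j, j ≤ k0 → wA c F (L + mu * i) j ≤ wA c F (L + mu * i) k) ∧
      (∀ j, j ≤ k0 → wA c F (L + mu * (i + 1 : ℕ)) j ≤ wA c F (L + mu * (i + 1 : ℕ)) k) ∧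
      (∀ j, l0 ≤ j → wB c G (L + mu * i) j ≤ wB c G (L + mu * i) l) ∧
      (∀ j, l0 ≤ j → wB c G (L + mu * (i + 1 : ℕ)) j ≤ wB c G (L + mu * (i + 1 : ℕ)) l) := by
  have hexk' : ∀ i : ℕ, ∃ k : ℤ, i ≤ N → (-R1 ≤ k ∧ k ≤ k0 ∧
      ∀ j, j ≤ k0 → wA c F (L + mu * i) j ≤ wA c F (L + mu * i) k) := by
    intro i
    by_cases hi : i ≤ N
    · obtain ⟨k, hk⟩ := hexk i hi
      exact ⟨k, fun _ => hk⟩
    · exact ⟨0, fun h => absurd h hi⟩
  have hexl' : ∀ i : ℕ, ∃ l : ℤ, i ≤ N → (l ≤ R2 ∧ l0 ≤ l ∧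
      ∀ j, l0 ≤ j → wB c G (L + mu * i) j ≤ wB c G (L + mu * i) l) := by
    intro i
    by_cases hi : i ≤ N
    · obtain ⟨k, hk⟩ := hexl i hi
      exact ⟨k, fun _ => hk⟩
    · exact ⟨0, fun h => absurd h hi⟩
  choose kk hkk using hexk'
  choose ll hll using hexl'
  by_contra hcon
  push Not at hcon
  have hind : ∀ i : ℕ, i ≤ N → (i : ℤ) ≤ ll i - kk i := by
    intro i
    induction i with
    | zero =>
      intro h
      have h1 := (hkk 0 h).2.1
      have h2 := (hll 0 h).2.1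
      push_cast
      omega
    | succ i ih =>
      intro h
      have hi : i ≤ N := by omega
      have ih' := ih hi
      have hlt : L + mu * (i : ℝ) < L + mu * ((i + 1 : ℕ) : ℝ) := by
        push_cast
        linarith only [hmu]
      have h1 : kk (i + 1) ≤ kk i := argmax_left_mono hlt hF0 (hkk i hi).2.1
        (hkk (i + 1) h).2.1 (hkk i hi).2.2 (hkk (i + 1) h).2.2
      have h2 : ll i ≤ ll (i + 1) := argmax_right_mono hlt hG0 (hll i hi).2.1
        (hll (i + 1) h).2.1 (hll i hi).2.2 (hll (i + 1) h).2.2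
      by_cases h4 : kk i = kk (i + 1)
      · by_cases h5 : ll i = ll (i + 1)
        · exfalso
          have h6 := (hkk (i + 1) h).2.2
          rw [← h4] at h6
          have h7 := (hll (i + 1) h).2.2
          rw [← h5] at h7
          obtain ⟨j, hj1, hj2⟩ := hcon i (kk i) (ll i) (by omega) (hkk i hi).2.1 (hll i hi).2.1
            (hkk i hi).2.2 h6 (hll i hi).2.2
          exact absurd (h7 j hj1) (not_le.mpr hj2)
        · push_cast
          omega
      · push_cast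
        omega
  have h1 := hind N le_rfl
  have h2 := (hkk N le_rfl).1
  have h3 := (hll N le_rfl).1
  omega

/-- the case `k0 < l0`. -/
theorem pair_lt {c : ℤ → ℝ} (hv : Valley c) {S : seqHilbert →L[ℂ] seqHilbert}
    (hS : IsShift c S) (f g : seqHilbert) (k0 l0 : ℤ) (hkl0 : k0 < l0)
    (hf : (f : ℤ → ℂ) k0 ≠ 0) (hg : (g : ℤ → ℂ) l0 ≠ 0) :
    ∃ n : ℕ, inner ℂ g ((S ^ n) f) ≠ 0 := by
  have hF0 : 0 < ‖(f : ℤ → ℂ) k0‖ := norm_pos_iff.mpr hf
  have hG0 : 0 < ‖(g : ℤ → ℂ) l0‖ := norm_pos_iff.mpr hg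
  have hW := WW_nonneg
  obtain ⟨mu, hmu⟩ : ∃ mu : ℝ, mu = 4 * WW + 1 := ⟨_, rfl⟩
  obtain ⟨rF, hrF⟩ : ∃ rF : ℝ, rF = ‖f‖ / ‖(f : ℤ → ℂ) k0‖ := ⟨_, rfl⟩
  obtain ⟨rG, hrG⟩ : ∃ rG : ℝ, rG = ‖g‖ / ‖(g : ℤ → ℂ) l0‖ := ⟨_, rfl⟩
  have hrF0 : 0 ≤ rF := by rw [hrF]; positivity
  have hrG0 : 0 ≤ rG := by rw [hrG]; positivity
  obtain ⟨C0, hC0⟩ : ∃ C0 : ℝ, C0 = ‖(f : ℤ → ℂ) k0‖ * ‖(g : ℤ → ℂ) l0‖ *
    Real.exp (-(gam c l0 - gam c k0)) := ⟨_, rfl⟩
  have hC0pos : 0 < C0 := by rw [hC0]; positivity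
  obtain ⟨Q, hQ⟩ : ∃ Q : ℝ, Q = (‖f‖ ^ 2 + ‖g‖ ^ 2) / 2 := ⟨_, rfl⟩
  have hQ0 : 0 ≤ Q := by rw [hQ]; positivity
  obtain ⟨C1, hC1⟩ : ∃ C1 : ℝ, C1 = 4 + 2 * |(k0 : ℝ)| + 2 * |(l0 : ℝ)| + 1 := ⟨_, rfl⟩
  have hC1pos : 0 ≤ C1 := by rw [hC1]; positivity
  have hmu1 : 1 ≤ mu := by linarith only [hmu, hW]
  have n1 : 0 ≤ WW * (rF + rG) := by positivity
  have n2 : 0 ≤ Q / C0 := by positivity
  have n3 : 0 ≤ mu * C1 := by positivity
  have n4 : 0 ≤ |(k0 : ℝ)| := abs_nonneg _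
  have n5 : 0 ≤ |(l0 : ℝ)| := abs_nonneg _
  obtain ⟨X, hX⟩ : ∃ X : ℝ, X = rF + rG + 8 * (WW * (rF + rG)) + 4 * (Q / C0) +
    mu * C1 + |(k0 : ℝ)| + |(l0 : ℝ)| + 4 := ⟨_, rfl⟩
  obtain ⟨L, P, a, b, hXL, hXP, hL4, hwin, hlow, hhigh, hPa, hPb⟩ := valley_gap hv X
  have hak : a ≤ k0 := (hwin k0 (by linarith only [hX, hrF0, hrG0, n1, n2, n3, n5])).1
  have hlb : l0 ≤ b := (hwin l0 (by linarith only [hX, hrF0, hrG0, n1, n2, n3, n4])).2
  have hexp12 : L ≤ Real.exp (12 * L) := by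
    have := Real.add_one_le_exp (12 * L)
    linarith only [this, hL4]
  have hnF : ‖f‖ ≤ ‖(f : ℤ → ℂ) k0‖ * Real.exp (12 * L) := by
    have h1 : rF ≤ Real.exp (12 * L) := by
      linarith only [hX, hrG0, n1, n2, n3, n4, n5, hXL, hexp12]
    calc ‖f‖ = ‖(f : ℤ → ℂ) k0‖ * rF := by rw [hrF]; field_simp
      _ ≤ _ := mul_le_mul_of_nonneg_left h1 hF0.le
  have hnG : ‖g‖ ≤ ‖(g : ℤ → ℂ) l0‖ * Real.exp (12 * L) := by
    have h1 : rG ≤ Real.exp (12 * L) := by
      linarith only [hX, hrF0, n1, n2, n3, n4, n5, hXL, hexp12]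
    calc ‖g‖ = ‖(g : ℤ → ℂ) l0‖ * rG := by rw [hrG]; field_simp
      _ ≤ _ := mul_le_mul_of_nonneg_left h1 hG0.le
  obtain ⟨N, hN⟩ : ∃ N : ℕ, N = (2 * (|k0| + P) + 2 * (|l0| + P) + 1).toNat := ⟨_, rfl⟩
  have hNz : (N : ℤ) = 2 * (|k0| + P) + 2 * (|l0| + P) + 1 := by
    have := abs_nonneg k0
    have := abs_nonneg l0
    omega
  have hNR : (N : ℝ) = 2 * (|(k0 : ℝ)| + P) + 2 * (|(l0 : ℝ)| + P) + 1 := by
    have : ((N : ℤ) : ℝ) = ((2 * (|k0| + P) + 2 * (|l0| + P) + 1 : ℤ) : ℝ) := by rw [hNz]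
    push_cast at this
    exact this
  have hP0 : (0 : ℝ) ≤ P := Nat.cast_nonneg _
  have hNle : mu * N ≤ 3 * L := by
    have h1 : (N : ℝ) ≤ C1 * (P + 1) := by
      rw [hNR, hC1]
      have e1 : 0 ≤ |(k0 : ℝ)| * P := by positivity
      have e2 : 0 ≤ |(l0 : ℝ)| * P := by positivity
      linarith only [e1, e2, hP0, n4, n5]
    have h2 : mu * N ≤ mu * C1 * (P + 1) := by
      rw [mul_assoc]
      exact mul_le_mul_of_nonneg_left h1 (by linarith only [hmu1])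
    have h3 : mu * C1 * ((P : ℝ) + 1) ≤ X * (P + 1) := by
      apply mul_le_mul_of_nonneg_right _ (by linarith only [hP0])
      linarith only [hX, hrF0, hrG0, n1, n2, n4, n5]
    linarith only [h2, h3, hXP, hL4]
  have hlamle : ∀ i : ℕ, i ≤ N → L + mu * i ≤ 4 * L := by
    intro i hi
    have : (i : ℝ) ≤ N := by exact_mod_cast hi
    have : mu * i ≤ mu * N := mul_le_mul_of_nonneg_left this (by linarith only [hmu1])
    linarith only [this, hNle]
  have hlamge : ∀ i : ℕ, L ≤ L + mu * i := by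
    intro i
    have : 0 ≤ mu * (i : ℝ) := by positivity
    linarith only [this]
  have hPlow : ∀ i : ℤ, i < -(P : ℤ) → 16 * L ≤ c i := fun i hi => hhigh i (Or.inl (by omega))
  have hPhigh : ∀ i : ℤ, (P : ℤ) ≤ i → 16 * L ≤ c i := fun i hi => hhigh i (Or.inr (by omega))
  obtain ⟨i, k, l, hiN, hk, hl, hA1, hA2, hB1, hB2⟩ := exists_const (c := c)
    (F := fun j => ‖(f : ℤ → ℂ) j‖) (G := fun j => ‖(g : ℤ → ℂ) j‖) (L := L) (mu := mu)
    (k0 := k0) (l0 := l0) (N := N) (R1 := 2 * (|k0| + P)) (R2 := 2 * (|l0| + P))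
    hkl0 (by linarith only [hmu1]) hF0 hG0 (by omega)
    (fun i hi => exists_max_left _ k0 (-(2 * (|k0| + P)))
        (by have := neg_abs_le k0; have := abs_nonneg k0; omega)
        (wA_far hv.nonneg (by linarith only [hL4]) (hlamle i hi)
          (by linarith only [hlamge i, hL4]) hPlow
          (fun j => norm_coord_le f j) hF0.le hnF))
    (fun i hi => exists_max_right _ l0 (2 * (|l0| + P))
        (by have := le_abs_self l0; have := abs_nonneg l0; omega)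
        (wB_far hv.nonneg (by linarith only [hL4]) (hlamle i hi)
          (by linarith only [hlamge i, hL4]) hPhigh
          (fun j => norm_coord_le g j) hG0.le hnG))
  refine ⟨(l - k).toNat, ?_⟩
  refine pair_ne_zero (c := c) hS f g (L := L) (lam1 := L + mu * i)
    (lam2 := L + mu * ((i + 1 : ℕ) : ℝ)) (mu := mu) (a := a) (b := b) (k0 := k0) (l0 := l0)
    (k := k) (l := l) hmu1 ?_ (by linarith only [hL4]) (by linarith only [hL4]) hlow hhigh
    hak hlb hkl0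
    hf hg (by linarith only [hlamge i, hL4]) (hlamle i hiN.le) (hlamge _) hk hl
    hA1 hA2 hB1 hB2 ?_ ?_ ?_
  · push_cast; ring
  · apply exp_small
    linarith only [hmu]
  · rw [← hrF, ← hrG]
    apply exp_small
    linarith only [hX, hrF0, hrG0, n1, n2, n3, n4, n5, hXL, hL4]
  · rw [← hQ, ← hC0]
    have h1 : 4 * (Q / C0) ≤ L := by
      linarith only [hX, hrF0, hrG0, n1, n3, n4, n5, hXL]
    have h2 : Q ≤ 1 / 4 * C0 * L := by
      have e1 : Q / C0 * C0 = Q := by field_simp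
      have e2 : 4 * (Q / C0) * C0 ≤ L * C0 := mul_le_mul_of_nonneg_right h1 hC0pos.le
      linarith only [e1, e2]
    have h3 : 1 / 4 * C0 * L ≤ 1 / 4 * C0 * Real.exp (12 * L) :=
      mul_le_mul_of_nonneg_left hexp12 (by positivity)
    linarith only [h2, h3]

/-- **Unicellular lemma, pairing form.** -/
theorem unicell_pair {c : ℤ → ℝ} (hv : Valley c) {S : seqHilbert →L[ℂ] seqHilbert}
    (hS : ∀ j, S (basisVec j) = ((Real.exp (-c j) : ℝ) : ℂ) • basisVec (j + 1))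
    (f g : seqHilbert) (j k : ℤ) (hjk : j ≤ k) (hf : (f : ℤ → ℂ) j ≠ 0)
    (hg : (g : ℤ → ℂ) k ≠ 0) : ∃ n : ℕ, inner ℂ g ((S ^ n) f) ≠ 0 := by
  have hS' : IsShift c S := hS
  rcases lt_or_eq_of_le hjk with h | h
  · exact pair_lt hv hS' f g j k h hf hg
  · subst h
    by_cases h1 : ∃ j', j' < j ∧ (f : ℤ → ℂ) j' ≠ 0
    · obtain ⟨j', h2, h3⟩ := h1
      exact pair_lt hv hS' f g j' j h2 h3 hg
    · by_cases h4 : ∃ k', j < k' ∧ (g : ℤ → ℂ) k' ≠ 0
      · obtain ⟨k', h2, h3⟩ := h4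
        exact pair_lt hv hS' f g j k' h2 hf h3
      · push Not at h1 h4
        refine ⟨0, ?_⟩
        have h5 := lp.hasSum_inner (𝕜 := ℂ) g f
        have h6 : HasSum (fun i : ℤ => inner ℂ ((g : ℤ → ℂ) i) ((f : ℤ → ℂ) i))
            (inner ℂ ((g : ℤ → ℂ) j) ((f : ℤ → ℂ) j)) := by
          refine hasSum_single j ?_
          intro i hi
          rcases lt_or_gt_of_ne hi with h7 | h7
          · rw [h1 i h7]; simp
          · rw [h4 i h7]; simp
        have h7 : inner ℂ g f = inner ℂ ((g : ℤ → ℂ) j) ((f : ℤ → ℂ) j) := h5.unique h6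
        simp only [pow_zero, one_apply_eq_self]
        rw [h7]
        simp [hf, hg]

theorem mem_tailSpace_iff (h : ℤ) (f : seqHilbert) :
    f ∈ tailSpace h ↔ ∀ j, j < h → (f : ℤ → ℂ) j = 0 := by
  constructor
  · intro hf j hj
    have hle : tailSpace h ≤ LinearMap.ker ((innerSL ℂ (basisVec j)).toLinearMap) := by
      unfold tailSpace
      refine Submodule.topologicalClosure_minimal _ ?_ ?_
      · rw [Submodule.span_le]
        rintro _ ⟨⟨i, hi⟩, rfl⟩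
        simp only [SetLike.mem_coe, LinearMap.mem_ker]
        show inner ℂ (basisVec j) (basisVec i) = 0
        rw [coord_eq, basisVec_apply, if_neg (by omega)]
      · exact (innerSL ℂ (basisVec j)).isClosed_ker
    have := hle hf
    rw [LinearMap.mem_ker] at this
    have h2 : inner ℂ (basisVec j) f = 0 := this
    rwa [coord_eq] at h2
  · intro hf
    have h1 := hasSum_basis f
    have hcl : IsClosed (tailSpace h : Set seqHilbert) := by
      unfold tailSpace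
      exact Submodule.isClosed_topologicalClosure _
    refine hcl.mem_of_tendsto h1 (Eventually.of_forall ?_)
    intro s
    refine Submodule.sum_mem _ ?_
    intro j _
    by_cases hj : j < h
    · rw [hf j hj, zero_smul]; exact Submodule.zero_mem _
    · refine Submodule.smul_mem _ _ ?_
      unfold tailSpace
      exact Submodule.le_topologicalClosure _ (Submodule.subset_span ⟨⟨j, by omega⟩, rfl⟩)

/-- **Unicellular lemma.** -/
theorem unicell {c : ℤ → ℝ} (hv : Valley c) {S : seqHilbert →L[ℂ] seqHilbert}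
    (hS : ∀ j, S (basisVec j) = ((Real.exp (-c j) : ℝ) : ℂ) • basisVec (j + 1))
    (W : Submodule ℂ seqHilbert) (hW : IsClosed (W : Set seqHilbert)) :
    (∀ v ∈ W, S v ∈ W) ↔ (W = ⊥ ∨ W = ⊤ ∨ ∃ h : ℤ, W = tailSpace h) := by
  have hS' : IsShift c S := hS
  constructor
  · intro hinv
    by_cases hbot : W = ⊥
    · exact Or.inl hbot
    by_cases htop : W = ⊤
    · exact Or.inr (Or.inl htop)
    refine Or.inr (Or.inr ?_)
    have : CompleteSpace W := hW.completeSpace_coe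
    have hpow : ∀ (n : ℕ), ∀ v ∈ W, (S ^ n) v ∈ W := by
      intro n
      induction n with
      | zero => intro v hv; simpa using hv
      | succ n ih =>
        intro v hv
        rw [pow_succ', mul_apply_eq_comp]
        exact hinv _ (ih v hv)
    have hkey : ∀ f ∈ W, ∀ g ∈ Wᗮ, ∀ j k : ℤ, (f : ℤ → ℂ) j ≠ 0 → (g : ℤ → ℂ) k ≠ 0 → k < j := by
      intro f hf g hg j k hj hk
      by_contra hlt
      push Not at hlt
      obtain ⟨n, hn⟩ := unicell_pair hv hS f g j k hlt hj hk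
      exact hn (Submodule.inner_left_of_mem_orthogonal (hpow n f hf) hg)
    have hne : ∀ f : seqHilbert, f ≠ 0 → ∃ j : ℤ, (f : ℤ → ℂ) j ≠ 0 := by
      intro f hf
      by_contra hcon
      push Not at hcon
      apply hf
      apply lp.ext
      funext j
      exact hcon j
    obtain ⟨f0, hf0W, hf0⟩ := Submodule.exists_mem_ne_zero_of_ne_bot hbot
    have hperp : Wᗮ ≠ ⊥ := by
      intro h
      exact htop ((Submodule.orthogonal_eq_bot_iff).mp h)
    obtain ⟨g0, hg0W, hg0⟩ := Submodule.exists_mem_ne_zero_of_ne_bot hperp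
    obtain ⟨j0, hj0⟩ := hne f0 hf0
    obtain ⟨k0, hk0⟩ := hne g0 hg0
    obtain ⟨h, ⟨f1, hf1W, hf1⟩, hmin⟩ := Int.exists_least_of_bdd
      (P := fun j => ∃ f ∈ W, (f : ℤ → ℂ) j ≠ 0)
      ⟨k0, fun z ⟨f, hf, hz⟩ => (hkey f hf g0 hg0W z k0 hz hk0).le⟩ ⟨j0, f0, hf0W, hj0⟩
    refine ⟨h, le_antisymm ?_ ?_⟩
    · intro f hf
      rw [mem_tailSpace_iff]
      intro j hj
      by_contra hne'
      exact absurd (hmin j ⟨f, hf, hne'⟩) (not_le.mpr hj)
    · intro f hf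
      rw [mem_tailSpace_iff] at hf
      rw [← Submodule.orthogonal_orthogonal W]
      rw [Submodule.mem_orthogonal]
      intro g hg
      have h5 := lp.hasSum_inner (𝕜 := ℂ) g f
      have h6 : HasSum (fun i : ℤ => inner ℂ ((g : ℤ → ℂ) i) ((f : ℤ → ℂ) i)) 0 := by
        have : (fun i : ℤ => inner ℂ ((g : ℤ → ℂ) i) ((f : ℤ → ℂ) i)) = fun _ => 0 := by
          funext i
          by_cases hi : i < h
          · rw [hf i hi]; simp
          · have : (g : ℤ → ℂ) i = 0 := by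
              by_contra hgi
              have := hkey f1 hf1W g hg h i hf1 hgi
              omega
            rw [this]; simp
        rw [this]
        exact hasSum_zero
      exact h5.unique h6
  · rintro (h | h | ⟨h, hh⟩)
    · subst h
      intro v hv
      rw [Submodule.mem_bot] at hv ⊢
      rw [hv, map_zero]
    · subst h
      intro v _
      exact Submodule.mem_top
    · subst hh
      intro v hv
      rw [mem_tailSpace_iff] at hv ⊢
      intro j hj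
      have := shift_apply hS' v (j - 1)
      rw [sub_add_cancel] at this
      rw [this, hv (j - 1) (by omega), mul_zero]

end Crest.Agent.R113.Two
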