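import Crest.Agent.R113.TwoCost

/-!
# Row 113, S0150: the backward intertwiner: weights and commutation
-/

set_option autoImplicit false

namespace Crest.Agent.R113.Two

open Crest.AnalysisR.TwoAdic MeasureTheory Filter Topology

attribute [local instance] Crest.AnalysisR.TwoAdic.borelTwoAdic
  Crest.AnalysisR.TwoAdic.borelSpace_twoAdic

/-- Difference of the costs of the same position seen from `x` and from `x + 1`. -/
noncomputable def dl (x : ℤ_[2]) (j : ℤ) : ℝ := cost x j - cost (x + 1) (j - 1)

theorem lev_shift_pos {x : ℤ_[2]} {j : ℤ} (hj : 1 ≤ j) : lev (x + 1) (j - 1) = lv x 1 j := by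
  unfold lev
  rw [if_pos (by omega), lv_shift]
  congr 1 <;> ring

theorem lev_shift_nonpos {x : ℤ_[2]} {j : ℤ} (hj : j ≤ 0) : lev (x + 1) (j - 1) = lv x j 0 := by
  unfold lev
  rw [if_neg (by omega), lv_shift]
  congr 1; ring

theorem vv_zero (x : ℤ_[2]) : vv x 0 = x.valuation := by
  unfold vv; simp

theorem dl_nonneg {x : ℤ_[2]} {j : ℤ} (hj : 0 ≤ j) : 0 ≤ dl x j := by
  unfold dl cost
  rw [sub_nonneg]
  apply Gc_mono
  rcases eq_or_lt_of_le hj with h | h
  · subst h
    rw [lev_shift_nonpos le_rfl]
    unfold lev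
    simp
  · rw [lev_shift_pos (by omega)]
    unfold lev
    rw [if_pos hj]
    exact lv_mono (by norm_num) le_rfl

theorem dl_nonpos {x : ℤ_[2]} {j : ℤ} (hj : j < 0) : dl x j ≤ 0 := by
  unfold dl cost
  rw [sub_nonpos]
  apply Gc_mono
  rw [lev_shift_nonpos hj.le]
  unfold lev
  rw [if_neg (by omega)]
  exact lv_mono le_rfl (by norm_num)

theorem dl_le {x : ℤ_[2]} (hx : Gen x) {j : ℤ} (hj : 0 ≤ j) :
    dl x j ≤ if j < 2 ^ x.valuation then Gc x.valuation else 0 := by
  rcases eq_or_lt_of_le hj with h | h
  · subst h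
    have : dl x 0 ≤ 0 := by
      unfold dl cost
      rw [sub_nonpos]
      apply Gc_mono
      rw [lev_shift_nonpos le_rfl]
      unfold lev
      simp
    split_ifs
    · exact this.trans (Gc_nonneg _)
    · exact this
  · have h0 : lev x j ≤ max (vv x 0) (lv x 1 j) := by
      unfold lev
      rw [if_pos hj]
      apply lv_le
      intro i h1 h2
      rcases eq_or_lt_of_le h1 with h3 | h3
      · subst h3; exact le_max_left _ _
      · exact le_max_of_le_right (vv_le_lv (by omega) h2)
    unfold dl cost
    rw [lev_shift_pos (by omega)]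
    rw [vv_zero] at h0
    split_ifs with h2
    · rcases le_max_iff.1 h0 with h3 | h3
      · have := Gc_mono h3
        have := Gc_nonneg (lv x 1 j)
        linarith
      · have := Gc_mono h3
        have := Gc_nonneg x.valuation
        linarith
    · have h4 : x.valuation ≤ lv x 1 j := by
        obtain ⟨i, hi1, hi2, hi3⟩ := exists_window hx x.valuation 1
        exact hi3.trans (vv_le_lv hi1 (by omega))
      have h5 : lev x j ≤ lv x 1 j := h0.trans (max_le h4 le_rfl)
      have := Gc_mono h5
      linarith

theorem dl_ge {x : ℤ_[2]} (hx : Gen x) {j : ℤ} (hj : j < 0) :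
    -dl x j ≤ if -2 ^ x.valuation ≤ j then Gc x.valuation else 0 := by
  have h0 : lv x j 0 ≤ max (vv x 0) (lv x j (-1)) := by
    apply lv_le
    intro i h1 h2
    rcases eq_or_lt_of_le h2 with h3 | h3
    · subst h3; exact le_max_left _ _
    · exact le_max_of_le_right (vv_le_lv h1 (by omega))
  unfold dl cost
  rw [lev_shift_nonpos hj.le]
  have hlev : lev x j = lv x j (-1) := by unfold lev; rw [if_neg (by omega)]
  rw [hlev]
  rw [vv_zero] at h0
  split_ifs with h2
  · rcases le_max_iff.1 h0 with h3 | h3
    · have := Gc_mono h3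
      have := Gc_nonneg (lv x j (-1))
      linarith
    · have := Gc_mono h3
      have := Gc_nonneg x.valuation
      linarith
  · have h4 : x.valuation ≤ lv x j (-1) := by
      obtain ⟨i, hi1, hi2, hi3⟩ := exists_window hx x.valuation (-2 ^ x.valuation)
      exact hi3.trans (vv_le_lv (by omega) (by omega))
    have h5 : lv x j 0 ≤ lv x j (-1) := h0.trans (max_le h4 le_rfl)
    have := Gc_mono h5
    linarith

/-- Primitive of `dl`. -/
noncomputable def BB (x : ℤ_[2]) (j : ℤ) : ℝ :=
  if 0 ≤ j then ∑ i ∈ Finset.Ico 0 j, dl x i else ∑ i ∈ Finset.Ico j 0, -dl x i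

theorem BB_succ (x : ℤ_[2]) (j : ℤ) : BB x (j + 1) = BB x j + dl x j := by
  unfold BB
  rcases lt_trichotomy j (-1) with h | h | h
  · rw [if_neg (by omega), if_neg (by omega)]
    have : Finset.Ico j 0 = insert j (Finset.Ico (j + 1) 0) := by
      ext i; simp only [Finset.mem_insert, Finset.mem_Ico]; omega
    rw [this, Finset.sum_insert (by simp)]
    ring
  · subst h
    rw [if_pos (by norm_num), if_neg (by norm_num)]
    have : Finset.Ico (-1 : ℤ) 0 = {-1} := by
      ext i; simp only [Finset.mem_singleton, Finset.mem_Ico]; omega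
    rw [this]
    simp
  · rw [if_pos (by omega), if_pos (by omega)]
    have : Finset.Ico 0 (j + 1) = insert j (Finset.Ico 0 j) := by
      ext i; simp only [Finset.mem_insert, Finset.mem_Ico]; omega
    rw [this, Finset.sum_insert (by simp)]
    ring

theorem BB_le {x : ℤ_[2]} (hx : Gen x) (j : ℤ) :
    BB x j ≤ 2 ^ x.valuation * Gc x.valuation := by
  unfold BB
  split_ifs with h
  · calc ∑ i ∈ Finset.Ico 0 j, dl x i
        ≤ ∑ i ∈ Finset.Ico 0 j, (if i < 2 ^ x.valuation then Gc x.valuation else 0) :=
          Finset.sum_le_sum fun i hi => dl_le hx (Finset.mem_Ico.1 hi).1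
      _ = ∑ i ∈ (Finset.Ico 0 j).filter (fun i => i < 2 ^ x.valuation), Gc x.valuation := by
          rw [Finset.sum_filter]
      _ ≤ ∑ i ∈ Finset.Ico (0 : ℤ) (2 ^ x.valuation), Gc x.valuation := by
          apply Finset.sum_le_sum_of_subset_of_nonneg
          · intro i hi
            simp only [Finset.mem_filter, Finset.mem_Ico] at hi ⊢
            exact ⟨hi.1.1, hi.2⟩
          · intro i _ _; exact Gc_nonneg _
      _ = 2 ^ x.valuation * Gc x.valuation := by
          rw [Finset.sum_const, Int.card_Ico, nsmul_eq_mul]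
          congr 1
          have : ((2 : ℤ) ^ x.valuation - 0).toNat = 2 ^ x.valuation := by
            rw [sub_zero]
            exact_mod_cast Int.toNat_natCast (2 ^ x.valuation)
          rw [this]
          push_cast; rfl
  · calc ∑ i ∈ Finset.Ico j 0, -dl x i
        ≤ ∑ i ∈ Finset.Ico j 0, (if -2 ^ x.valuation ≤ i then Gc x.valuation else 0) :=
          Finset.sum_le_sum fun i hi => dl_ge hx (Finset.mem_Ico.1 hi).2
      _ = ∑ i ∈ (Finset.Ico j 0).filter (fun i => -2 ^ x.valuation ≤ i), Gc x.valuation := by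
          rw [Finset.sum_filter]
      _ ≤ ∑ i ∈ Finset.Ico (-2 ^ x.valuation : ℤ) 0, Gc x.valuation := by
          apply Finset.sum_le_sum_of_subset_of_nonneg
          · intro i hi
            simp only [Finset.mem_filter, Finset.mem_Ico] at hi ⊢
            exact ⟨hi.2, hi.1.2⟩
          · intro i _ _; exact Gc_nonneg _
      _ = 2 ^ x.valuation * Gc x.valuation := by
          rw [Finset.sum_const, Int.card_Ico, nsmul_eq_mul]
          congr 1
          have : ((0 : ℤ) - (-2 ^ x.valuation)).toNat = 2 ^ x.valuation := by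
            rw [sub_neg_eq_add, zero_add]
            exact_mod_cast Int.toNat_natCast (2 ^ x.valuation)
          rw [this]
          push_cast; rfl

instance nebot_zero : (𝓝[≠] (0 : ℤ_[2])).NeBot := by
  rw [← mem_closure_iff_nhdsWithin_neBot, Metric.mem_closure_iff]
  intro ε hε
  obtain ⟨n, hn⟩ := exists_pow_lt_of_lt_one hε (by norm_num : (1 / 2 : ℝ) < 1)
  refine ⟨(2 : ℤ_[2]) ^ n, ?_, ?_⟩
  · intro h
    have h2 : (2 : ℤ_[2]) ^ n = 0 := h
    have h3 : ((2 : ℕ) : ℤ_[2]) ≠ 0 := by
      exact_mod_cast (PadicInt.prime_p (p := 2)).ne_zero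
    exact pow_ne_zero n (by exact_mod_cast h3) h2
  · rw [dist_zero_left, norm_pow]
    have h4 : ‖(2 : ℤ_[2])‖ = 1 / 2 := by
      have := PadicInt.norm_p (p := 2)
      push_cast at this
      rw [this]; norm_num
    rw [h4]
    exact hn

theorem ae_gen : ∀ᵐ x ∂haarTwoAdic, Gen x := by
  have h : (Set.range (Int.cast : ℤ → ℤ_[2])).Countable := Set.countable_range _
  have := h.measure_zero haarTwoAdic
  rw [ae_iff]
  have h2 : {a : ℤ_[2] | ¬ Gen a} = Set.range (Int.cast : ℤ → ℤ_[2]) := by
    ext a; unfold Gen; simp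
  rw [h2]
  exact this

/-- A fixed generic point. -/
theorem exists_gen : ∃ x : ℤ_[2], Gen x := ae_gen.exists

open Classical in
/-- Replace integers by a fixed generic point. -/
noncomputable def gen (x : ℤ_[2]) : ℤ_[2] := if Gen x then x else Classical.choose exists_gen

theorem gen_gen (x : ℤ_[2]) : Gen (gen x) := by
  unfold gen
  split_ifs with h
  · exact h
  · exact Classical.choose_spec exists_gen

theorem gen_eq {x : ℤ_[2]} (hx : Gen x) : gen x = x := if_pos hx

/-- Weights of the shift. -/
noncomputable def bet (j : ℤ) (x : ℤ_[2]) : ℝ := Real.exp (-cost (gen x) j)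

open Classical in
/-- Weights of the backward intertwiner. -/
noncomputable def bb (j : ℤ) (x : ℤ_[2]) : ℝ :=
  if Gen x then Real.exp (BB x j - 2 ^ x.valuation * Gc x.valuation) else 0

theorem bet_pos (j : ℤ) (x : ℤ_[2]) : 0 < bet j x := Real.exp_pos _

theorem bet_le (j : ℤ) (x : ℤ_[2]) : bet j x ≤ Real.exp (-10) :=
  Real.exp_le_exp.2 (neg_le_neg (cost_ge_ten _ _))

theorem bet_abs_le (x : ℤ_[2]) (j : ℤ) : |bet j x| ≤ Real.exp (-10) := by
  rw [abs_of_pos (bet_pos j x)]; exact bet_le j x

theorem bb_nonneg (j : ℤ) (x : ℤ_[2]) : 0 ≤ bb j x := by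
  unfold bb; split_ifs
  · exact (Real.exp_pos _).le
  · exact le_rfl

theorem bb_le_one (j : ℤ) (x : ℤ_[2]) : bb j x ≤ 1 := by
  unfold bb; split_ifs with h
  · rw [Real.exp_le_one_iff]
    linarith [BB_le h j]
  · norm_num

theorem bb_pos {x : ℤ_[2]} (hx : Gen x) (j : ℤ) : 0 < bb j x := by
  unfold bb; rw [if_pos hx]; exact Real.exp_pos _

theorem bb_abs_le (x : ℤ_[2]) (j : ℤ) : |bb j x| ≤ 1 := by
  rw [abs_of_nonneg (bb_nonneg j x)]; exact bb_le_one j x

theorem measurable_valuation : Measurable (fun x : ℤ_[2] => x.valuation) := by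
  apply measurable_to_countable'
  intro n
  have h : (fun x : ℤ_[2] => x.valuation) ⁻¹' {n} =
      ({x : ℤ_[2] | x ≠ 0} ∩ {x : ℤ_[2] | ‖x‖ = ((2 : ℕ) : ℝ) ^ (-(n : ℤ))}) ∪
        (if n = 0 then {0} else ∅) := by
    ext x
    simp only [Set.mem_preimage, Set.mem_singleton_iff, Set.mem_union, Set.mem_inter_iff,
      Set.mem_ofPred_eq]
    by_cases hx : x = 0
    · subst hx
      by_cases hn : n = 0
      · simp [hn]
      · simp [hn, Ne.symm hn]
    · have h1 := PadicInt.norm_eq_zpow_neg_valuation hx
      constructor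
      · intro h2
        left
        refine ⟨hx, ?_⟩
        rw [h1, h2]
      · rintro (⟨_, h2⟩ | h2)
        · rw [h1] at h2
          have h3 := zpow_right_injective₀ (by norm_num : (0 : ℝ) < ((2 : ℕ) : ℝ))
            (by norm_num : ((2 : ℕ) : ℝ) ≠ 1) h2
          have h4 : (-(x.valuation : ℤ)) = -(n : ℤ) := h3
          omega
        · split_ifs at h2 with hn
          · exact absurd h2 hx
          · exact absurd h2 (by simp)
  rw [h]
  apply MeasurableSet.union
  · apply MeasurableSet.inter
    · exact (isOpen_ne).measurableSet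
    · exact (isClosed_eq continuous_norm continuous_const).measurableSet
  · split_ifs
    · exact isClosed_singleton.measurableSet
    · exact MeasurableSet.empty

theorem measurable_vv (i : ℤ) : Measurable (fun x : ℤ_[2] => vv x i) :=
  measurable_valuation.comp (measurable_add_const _)

theorem measurable_lv (a b : ℤ) : Measurable (fun x : ℤ_[2] => lv x a b) := by
  unfold lv
  generalize Finset.Icc a b = s
  classical
  induction s using Finset.induction_on with
  | empty => simp only [Finset.sup_empty]; exact measurable_const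
  | insert a s ha ih =>
    simp only [Finset.sup_insert]
    exact (measurable_vv a).sup ih

theorem measurable_lev (j : ℤ) : Measurable (fun x : ℤ_[2] => lev x j) := by
  unfold lev
  split_ifs
  · exact measurable_lv _ _
  · exact measurable_lv _ _

theorem measurable_cost (j : ℤ) : Measurable (fun x : ℤ_[2] => cost x j) :=
  (measurable_of_countable Gc).comp (measurable_lev j)

theorem measurableSet_gen : MeasurableSet {x : ℤ_[2] | Gen x} := by
  have h : (Set.range (Int.cast : ℤ → ℤ_[2])).Countable := Set.countable_range _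
  exact h.measurableSet.compl

theorem measurable_gen : Measurable gen := by
  classical
  unfold gen
  exact Measurable.ite measurableSet_gen measurable_id measurable_const

theorem measurable_bet (j : ℤ) : Measurable (bet j) :=
  Real.measurable_exp.comp ((measurable_cost j).comp measurable_gen).neg

theorem measurable_dl (j : ℤ) : Measurable (fun x => dl x j) :=
  (measurable_cost j).sub ((measurable_cost (j - 1)).comp (measurable_add_const _))

theorem measurable_BB (j : ℤ) : Measurable (fun x => BB x j) := by
  unfold BB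
  split_ifs
  · exact Finset.measurable_fun_sum _ fun i _ => measurable_dl i
  · exact Finset.measurable_fun_sum _ fun i _ => (measurable_dl i).neg

theorem measurable_bb (j : ℤ) : Measurable (bb j) := by
  classical
  unfold bb
  refine Measurable.ite measurableSet_gen ?_ measurable_const
  apply Real.measurable_exp.comp
  apply (measurable_BB j).sub
  exact (measurable_of_countable fun n : ℕ => (2 : ℝ) ^ n * Gc n).comp measurable_valuation

theorem bb_comm {x : ℤ_[2]} (hx : Gen x) (j : ℤ) :
    bb (j + 1) x * bet j x = bb j x * bet (j - 1) (x + 1) := by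
  unfold bb bet
  rw [if_pos hx, if_pos hx, gen_eq hx, gen_eq hx.add_one, BB_succ, ← Real.exp_add, ← Real.exp_add]
  congr 1
  unfold dl
  ring

end Crest.Agent.R113.Two
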