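import Crest.Prelude.Def_TwoAdicShift

/-!
Row 113, S0150, part (U): basic facts on the weighted shift on `ℓ²(ℤ)`.
-/

set_option autoImplicit false
open Filter Topology
open Crest.AnalysisR.TwoAdic

namespace Crest.Agent.R113.Uni

/-- cumulative function of a cost sequence. -/
noncomputable def gam (c : ℤ → ℝ) : ℤ → ℝ
  | (n : ℕ) => ∑ i ∈ Finset.range n, c i
  | Int.negSucc n => -∑ i ∈ Finset.range (n + 1), c (-(i : ℤ) - 1)

theorem gam_succ (c : ℤ → ℝ) (j : ℤ) : gam c (j + 1) = gam c j + c j := by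
  rcases j with n | n
  · have : (Int.ofNat n + 1 : ℤ) = ((n + 1 : ℕ) : ℤ) := by simp
    rw [this]
    show (∑ i ∈ Finset.range (n + 1), c i) = (∑ i ∈ Finset.range n, c i) + c n
    rw [Finset.sum_range_succ]
  · rcases n with _ | n
    · show gam c ((0 : ℕ) : ℤ) = -∑ i ∈ Finset.range (0 + 1), c (-(i : ℤ) - 1) + c (-1)
      simp [gam]
    · have : (Int.negSucc (n + 1) + 1 : ℤ) = Int.negSucc n := by
        simp [Int.negSucc_eq]
      rw [this]
      show -∑ i ∈ Finset.range (n + 1), c (-(i : ℤ) - 1)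
        = -∑ i ∈ Finset.range (n + 1 + 1), c (-(i : ℤ) - 1) + c (Int.negSucc (n + 1))
      rw [Finset.sum_range_succ _ (n + 1)]
      have h2 : (Int.negSucc (n + 1) : ℤ) = -((n + 1 : ℕ) : ℤ) - 1 := by
        simp [Int.negSucc_eq]; ring
      rw [h2]
      ring

theorem gam_le_of_le {c : ℤ → ℝ} {i j : ℤ} (hij : i ≤ j) {B : ℝ}
    (h : ∀ t, i ≤ t → t < j → c t ≤ B) : gam c j - gam c i ≤ B * ((j : ℝ) - i) := by
  induction j, hij using Int.leInduction with
  | base => simp
  | succ j hij ih =>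
    have h1 := ih (fun t h1 h2 => h t h1 (by linarith))
    have h2 := h j hij (by linarith)
    rw [gam_succ]
    push_cast
    linarith

theorem le_gam_of_le {c : ℤ → ℝ} {i j : ℤ} (hij : i ≤ j) {B : ℝ}
    (h : ∀ t, i ≤ t → t < j → B ≤ c t) : B * ((j : ℝ) - i) ≤ gam c j - gam c i := by
  induction j, hij using Int.leInduction with
  | base => simp
  | succ j hij ih =>
    have h1 := ih (fun t h1 h2 => h t h1 (by linarith))
    have h2 := h j hij (by linarith)
    rw [gam_succ]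
    push_cast
    linarith

theorem gam_mono {c : ℤ → ℝ} (hc : ∀ i, 0 ≤ c i) {i j : ℤ} (hij : i ≤ j) :
    gam c i ≤ gam c j := by
  have := le_gam_of_le (c := c) hij (B := 0) (fun t _ _ => hc t)
  linarith

theorem basisVec_apply (j i : ℤ) : (basisVec j : ℤ → ℂ) i = if i = j then 1 else 0 := by
  unfold basisVec
  rw [lp.single_apply]
  by_cases h : i = j
  · subst h; simp
  · simp [h]

/-- coordinate as a continuous linear functional. -/
theorem coord_eq (f : seqHilbert) (i : ℤ) : inner ℂ (basisVec i) f = (f : ℤ → ℂ) i := by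
  unfold basisVec
  rw [lp.inner_single_left]
  simp

theorem hasSum_basis (f : seqHilbert) : HasSum (fun j : ℤ => (f : ℤ → ℂ) j • basisVec j) f := by
  have h := lp.hasSum_single (p := 2) (by norm_num) f
  have e : (fun j : ℤ => (f : ℤ → ℂ) j • basisVec j) =
      fun j : ℤ => lp.single 2 j ((f : ℤ → ℂ) j) := by
    funext j
    unfold basisVec
    rw [← lp.single_smul]
    simp
  rw [e]
  exact h

/-- `S` is the weighted shift with costs `c`. -/
def IsShift (c : ℤ → ℝ) (S : seqHilbert →L[ℂ] seqHilbert) : Prop :=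
  ∀ j, S (basisVec j) = (Real.exp (-(c j)) : ℂ) • basisVec (j + 1)

theorem shift_apply {c : ℤ → ℝ} {S : seqHilbert →L[ℂ] seqHilbert} (hS : IsShift c S)
    (f : seqHilbert) (j : ℤ) :
    (S f : ℤ → ℂ) (j + 1) = (Real.exp (-(c j)) : ℂ) * (f : ℤ → ℂ) j := by
  have h1 : HasSum (fun i : ℤ => (f : ℤ → ℂ) i • S (basisVec i)) (S f) := by
    have := (hasSum_basis f).mapL S
    simpa using this
  have h2 : HasSum (fun i : ℤ => inner ℂ (basisVec (j + 1)) ((f : ℤ → ℂ) i • S (basisVec i)))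
      (inner ℂ (basisVec (j + 1)) (S f)) := by
    have := h1.mapL (innerSL ℂ (basisVec (j + 1)))
    simpa using this
  rw [coord_eq] at h2
  refine h2.unique ?_
  have e : (fun i : ℤ => inner ℂ (basisVec (j + 1)) ((f : ℤ → ℂ) i • S (basisVec i))) =
      fun i : ℤ => if i = j then (Real.exp (-(c j)) : ℂ) * (f : ℤ → ℂ) j else 0 := by
    funext i
    rw [hS i, inner_smul_right, inner_smul_right, coord_eq, basisVec_apply]
    by_cases h : i = j
    · subst h; simp [mul_comm]
    · have : ¬ (j + 1 = i + 1) := fun h' => h (by linarith)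
      simp [this, h]
  rw [e]
  exact hasSum_ite_eq j _

theorem shift_pow_apply {c : ℤ → ℝ} {S : seqHilbert →L[ℂ] seqHilbert} (hS : IsShift c S)
    (f : seqHilbert) (n : ℕ) (j : ℤ) :
    ((S ^ n) f : ℤ → ℂ) (j + n) =
      (Real.exp (-(gam c (j + n) - gam c j)) : ℂ) * (f : ℤ → ℂ) j := by
  induction n with
  | zero => simp
  | succ n ih =>
    rw [pow_succ', mul_apply_eq_comp]
    have : (j + ((n + 1 : ℕ) : ℤ)) = (j + n) + 1 := by push_cast; ring
    rw [this, shift_apply hS, ih, gam_succ, ← mul_assoc]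
    congr 1
    rw [← Complex.ofReal_mul, ← Real.exp_add]
    congr 2
    ring

theorem norm_sq_hasSum (f : seqHilbert) : HasSum (fun j : ℤ => ‖(f : ℤ → ℂ) j‖ ^ 2) (‖f‖ ^ 2) := by
  have := lp.hasSum_norm (p := 2) (by norm_num) f
  simpa using this

theorem norm_coord_le (f : seqHilbert) (j : ℤ) : ‖(f : ℤ → ℂ) j‖ ≤ ‖f‖ :=
  lp.norm_apply_le_norm (by norm_num) f j

/-- the inner product `⟪g, S^n f⟫` as a sum. -/
theorem hasSum_inner_pow {c : ℤ → ℝ} {S : seqHilbert →L[ℂ] seqHilbert} (hS : IsShift c S)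
    (f g : seqHilbert) (n : ℕ) :
    HasSum (fun j : ℤ => (starRingEnd ℂ) ((g : ℤ → ℂ) (j + n)) *
      ((Real.exp (-(gam c (j + n) - gam c j)) : ℂ) * (f : ℤ → ℂ) j))
      (inner ℂ g ((S ^ n) f)) := by
  have h := lp.hasSum_inner (𝕜 := ℂ) g ((S ^ n) f)
  have h2 := (Equiv.addRight (n : ℤ)).hasSum_iff.mpr h
  have e : (fun j : ℤ => (starRingEnd ℂ) ((g : ℤ → ℂ) (j + n)) *
      ((Real.exp (-(gam c (j + n) - gam c j)) : ℂ) * (f : ℤ → ℂ) j)) =
      (fun i : ℤ => inner ℂ ((g : ℤ → ℂ) i) (((S ^ n) f : ℤ → ℂ) i)) ∘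
        (Equiv.addRight (n : ℤ)) := by
    funext j
    simp only [Function.comp, Equiv.coe_addRight]
    rw [shift_pow_apply hS]
    simp [mul_comm]
  rw [e]
  exact h2

end Crest.Agent.R113.Uni
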