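import Crest.Agent.R113.UniBasic

/-!
Row 113, S0150, part (U): non-vanishing of `⟪g, S^n f⟫`.
-/

set_option autoImplicit false
open Filter Topology
open Crest.AnalysisR.TwoAdic

namespace Crest.Agent.R113.Uni

theorem exists_max_left (a : ℤ → ℝ) (k0 N : ℤ) (hN : N ≤ k0) (h : ∀ k, k < N → a k ≤ a k0) :
    ∃ k, N ≤ k ∧ k ≤ k0 ∧ ∀ j, j ≤ k0 → a j ≤ a k := by
  obtain ⟨k, hk, hk2⟩ := Finset.exists_max_image (Finset.Icc N k0) a ⟨k0, by simp [hN]⟩
  rw [Finset.mem_Icc] at hk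
  refine ⟨k, hk.1, hk.2, fun j hj => ?_⟩
  by_cases hjN : j < N
  · exact (h j hjN).trans (hk2 k0 (by simp [hN]))
  · exact hk2 j (by simp; omega)

theorem exists_max_right (a : ℤ → ℝ) (l0 N : ℤ) (hN : l0 ≤ N) (h : ∀ k, N < k → a k ≤ a l0) :
    ∃ k, k ≤ N ∧ l0 ≤ k ∧ ∀ j, l0 ≤ j → a j ≤ a k := by
  obtain ⟨k, hk, hk2⟩ := Finset.exists_max_image (Finset.Icc l0 N) a ⟨l0, by simp [hN]⟩
  rw [Finset.mem_Icc] at hk
  refine ⟨k, hk.2, hk.1, fun j hj => ?_⟩
  by_cases hjN : N < j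
  · exact (h j hjN).trans (hk2 l0 (by simp [hN]))
  · exact hk2 j (by simp; omega)

/-- tilted left weights. -/
noncomputable def wA (c F : ℤ → ℝ) (lam : ℝ) (k : ℤ) : ℝ :=
  F k * Real.exp (gam c k - lam * k)

/-- tilted right weights. -/
noncomputable def wB (c G : ℤ → ℝ) (lam : ℝ) (l : ℤ) : ℝ :=
  G l * Real.exp (-gam c l + lam * l)

theorem wA_far {c F : ℤ → ℝ} {L lam nF : ℝ} {P : ℕ} {k0 : ℤ} (hc0 : ∀ i, 0 ≤ c i)
    (hL : 0 < L) (hlam : lam ≤ 4 * L) (hlam0 : 0 ≤ lam)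
    (hP : ∀ i : ℤ, i < -(P : ℤ) → 16 * L ≤ c i)
    (hFn : ∀ j, F j ≤ nF) (hF0 : 0 ≤ F k0) (hnF : nF ≤ F k0 * Real.exp (12 * L)) (k : ℤ)
    (hk : k < -(2 * (|k0| + P))) : wA c F lam k ≤ wA c F lam k0 := by
  set K : ℤ := |k0| + P with hK
  have hk0 : |k0| ≤ K := by omega
  have hk0' := abs_le.mp hk0
  have hKnn : 0 ≤ K := (abs_nonneg k0).trans hk0
  have h1 : 16 * L * (((-K : ℤ) : ℝ) - k) ≤ gam c (-K) - gam c k := by
    refine le_gam_of_le (by omega) ?_
    intro t _ ht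
    apply hP
    have := abs_nonneg k0
    omega
  have h2 : gam c (-K) ≤ gam c k0 := gam_mono hc0 (by omega)
  have hkR : (k : ℝ) ≤ -(2 * (K : ℝ)) - 1 := by
    have : k + 1 ≤ -(2 * K) := by omega
    have : ((k + 1 : ℤ) : ℝ) ≤ ((-(2 * K) : ℤ) : ℝ) := by exact_mod_cast this
    push_cast at this
    linarith
  have hk0R : (k0 : ℝ) ≤ K := by exact_mod_cast hk0'.2
  have hKR : (0 : ℝ) ≤ K := by exact_mod_cast hKnn
  have h3 : 12 * L ≤ gam c k0 - gam c k - lam * (k0 - k) := by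
    have h4 : lam * ((k0 : ℝ) - k) ≤ 4 * L * ((K : ℝ) - k) := by
      have : (0 : ℝ) ≤ (K : ℝ) - k := by linarith
      calc lam * ((k0 : ℝ) - k) ≤ lam * ((K : ℝ) - k) := by
            apply mul_le_mul_of_nonneg_left _ hlam0; linarith
        _ ≤ 4 * L * ((K : ℝ) - k) := mul_le_mul_of_nonneg_right hlam this
    push_cast at h1
    nlinarith
  unfold wA
  calc F k * Real.exp (gam c k - lam * k) ≤ nF * Real.exp (gam c k - lam * k) :=
        mul_le_mul_of_nonneg_right (hFn k) (Real.exp_pos _).le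
    _ ≤ (F k0 * Real.exp (12 * L)) * Real.exp (gam c k - lam * k) :=
        mul_le_mul_of_nonneg_right hnF (Real.exp_pos _).le
    _ = F k0 * Real.exp (12 * L + (gam c k - lam * k)) := by rw [mul_assoc, ← Real.exp_add]
    _ ≤ F k0 * Real.exp (gam c k0 - lam * k0) := by
        apply mul_le_mul_of_nonneg_left _ hF0
        apply Real.exp_le_exp.mpr
        linarith

theorem wB_far {c G : ℤ → ℝ} {L lam nG : ℝ} {P : ℕ} {l0 : ℤ} (hc0 : ∀ i, 0 ≤ c i)
    (hL : 0 < L) (hlam : lam ≤ 4 * L) (hlam0 : 0 ≤ lam)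
    (hP : ∀ i : ℤ, (P : ℤ) ≤ i → 16 * L ≤ c i)
    (hGn : ∀ j, G j ≤ nG) (hG0 : 0 ≤ G l0) (hnG : nG ≤ G l0 * Real.exp (12 * L)) (l : ℤ)
    (hl : 2 * (|l0| + P) < l) : wB c G lam l ≤ wB c G lam l0 := by
  set K : ℤ := |l0| + P with hK
  have hl0 : |l0| ≤ K := by omega
  have hl0' := abs_le.mp hl0
  have hKnn : 0 ≤ K := (abs_nonneg l0).trans hl0
  have h1 : 16 * L * ((l : ℝ) - (K : ℝ)) ≤ gam c l - gam c K := by
    refine le_gam_of_le (by omega) ?_
    intro t ht _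
    apply hP
    have := abs_nonneg l0
    omega
  have h2 : gam c l0 ≤ gam c K := gam_mono hc0 (by omega)
  have hlR : 2 * (K : ℝ) + 1 ≤ l := by
    have : 2 * K + 1 ≤ l := by omega
    exact_mod_cast this
  have hl0R : -(K : ℝ) ≤ l0 := by exact_mod_cast hl0'.1
  have hKR : (0 : ℝ) ≤ K := by exact_mod_cast hKnn
  have h3 : 12 * L ≤ gam c l - gam c l0 - lam * (l - l0) := by
    have h4 : lam * ((l : ℝ) - l0) ≤ 4 * L * ((l : ℝ) + K) := by
      have : (0 : ℝ) ≤ (l : ℝ) + K := by linarith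
      calc lam * ((l : ℝ) - l0) ≤ lam * ((l : ℝ) + K) := by
            apply mul_le_mul_of_nonneg_left _ hlam0; linarith
        _ ≤ 4 * L * ((l : ℝ) + K) := mul_le_mul_of_nonneg_right hlam this
    nlinarith
  unfold wB
  calc G l * Real.exp (-gam c l + lam * l) ≤ nG * Real.exp (-gam c l + lam * l) :=
        mul_le_mul_of_nonneg_right (hGn l) (Real.exp_pos _).le
    _ ≤ (G l0 * Real.exp (12 * L)) * Real.exp (-gam c l + lam * l) :=
        mul_le_mul_of_nonneg_right hnG (Real.exp_pos _).le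
    _ = G l0 * Real.exp (12 * L + (-gam c l + lam * l)) := by rw [mul_assoc, ← Real.exp_add]
    _ ≤ G l0 * Real.exp (-gam c l0 + lam * l0) := by
        apply mul_le_mul_of_nonneg_left _ hG0
        apply Real.exp_le_exp.mpr
        linarith

/-- maximisers move to the left when `lam` grows. -/
theorem argmax_left_mono {c F : ℤ → ℝ} {k0 k k' : ℤ} {lam lam' : ℝ} (hl : lam < lam')
    (hk0 : 0 < F k0) (hk : k ≤ k0) (hk' : k' ≤ k0)
    (h : ∀ j, j ≤ k0 → wA c F lam j ≤ wA c F lam k)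
    (h' : ∀ j, j ≤ k0 → wA c F lam' j ≤ wA c F lam' k') : k' ≤ k := by
  have hpos : 0 < wA c F lam k := lt_of_lt_of_le (by unfold wA; positivity) (h k0 le_rfl)
  have e : ∀ j, wA c F lam' j = wA c F lam j * Real.exp (-(lam' - lam) * j) := by
    intro j
    unfold wA
    rw [mul_assoc, ← Real.exp_add]
    congr 2
    ring
  have h1 := h' k hk
  rw [e, e] at h1
  have h2 : wA c F lam k' * Real.exp (-(lam' - lam) * k') ≤
      wA c F lam k * Real.exp (-(lam' - lam) * k') :=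
    mul_le_mul_of_nonneg_right (h k' hk') (Real.exp_pos _).le
  have h3 : Real.exp (-(lam' - lam) * k) ≤ Real.exp (-(lam' - lam) * k') :=
    le_of_mul_le_mul_left (h1.trans h2) hpos
  have h4 := Real.exp_le_exp.mp h3
  have h5 : (k' : ℝ) ≤ k := by nlinarith
  exact_mod_cast h5

theorem argmax_right_mono {c G : ℤ → ℝ} {l0 l l' : ℤ} {lam lam' : ℝ} (hl : lam < lam')
    (hl0 : 0 < G l0) (hk : l0 ≤ l) (hk' : l0 ≤ l')
    (h : ∀ j, l0 ≤ j → wB c G lam j ≤ wB c G lam l)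
    (h' : ∀ j, l0 ≤ j → wB c G lam' j ≤ wB c G lam' l') : l ≤ l' := by
  have hpos : 0 < wB c G lam l := lt_of_lt_of_le (by unfold wB; positivity) (h l0 le_rfl)
  have e : ∀ j, wB c G lam' j = wB c G lam j * Real.exp ((lam' - lam) * j) := by
    intro j
    unfold wB
    rw [mul_assoc, ← Real.exp_add]
    congr 2
    ring
  have h1 := h' l hk
  rw [e, e] at h1
  have h2 : wB c G lam l' * Real.exp ((lam' - lam) * l') ≤
      wB c G lam l * Real.exp ((lam' - lam) * l') :=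
    mul_le_mul_of_nonneg_right (h l' hk') (Real.exp_pos _).le
  have h3 : Real.exp ((lam' - lam) * l) ≤ Real.exp ((lam' - lam) * l') :=
    le_of_mul_le_mul_left (h1.trans h2) hpos
  have h4 := Real.exp_le_exp.mp h3
  have h5 : (l : ℝ) ≤ l' := by nlinarith
  exact_mod_cast h5

/-- the absolute value of the `j`-th term of `⟪g, S^n f⟫`. -/
noncomputable def trm (c F G : ℤ → ℝ) (n j : ℤ) : ℝ :=
  F j * G (j + n) * Real.exp (-(gam c (j + n) - gam c j))

theorem trm_eq (c F G : ℤ → ℝ) (n j : ℤ) (lam lam' : ℝ) :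
    trm c F G n j = wA c F lam j * wB c G lam' (j + n) * Real.exp (lam * j - lam' * (j + n)) := by
  unfold trm wA wB
  have : F j * Real.exp (gam c j - lam * j) *
      (G (j + n) * Real.exp (-gam c (j + n) + lam' * ((j + n : ℤ) : ℝ))) *
      Real.exp (lam * j - lam' * (j + n)) =
      F j * G (j + n) * (Real.exp (gam c j - lam * j) *
        Real.exp (-gam c (j + n) + lam' * ((j + n : ℤ) : ℝ)) *
        Real.exp (lam * j - lam' * (j + n))) := by ring
  rw [this, ← Real.exp_add, ← Real.exp_add]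
  congr 2
  push_cast
  ring

section bounds
variable {c F G : ℤ → ℝ} {L lam1 lam2 nF nG : ℝ} {a b k0 l0 k l n : ℤ}

theorem wA_nonneg (hF : ∀ j, 0 ≤ F j) (lam : ℝ) (j : ℤ) : 0 ≤ wA c F lam j :=
  mul_nonneg (hF j) (Real.exp_pos _).le

theorem wB_nonneg (hG : ∀ j, 0 ≤ G j) (lam : ℝ) (j : ℤ) : 0 ≤ wB c G lam j :=
  mul_nonneg (hG j) (Real.exp_pos _).le

theorem trm_nonneg (hF : ∀ j, 0 ≤ F j) (hG : ∀ j, 0 ≤ G j) (n j : ℤ) : 0 ≤ trm c F G n j :=
  mul_nonneg (mul_nonneg (hF j) (hG _)) (Real.exp_pos _).le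

/-- middle terms to the right of the centre. -/
theorem bound_mid_right (hF : ∀ j, 0 ≤ F j) (hG : ∀ j, 0 ≤ G j) (hn : n = l - k)
    (hA1 : ∀ j, j ≤ k0 → wA c F lam1 j ≤ wA c F lam1 k)
    (hB2 : ∀ j, l0 ≤ j → wB c G lam2 j ≤ wB c G lam2 l) (j : ℤ) (hj : j ≤ k0)
    (hjn : l0 ≤ j + n) :
    trm c F G n j ≤ trm c F G n k * Real.exp (-(lam2 - lam1) * ((j : ℝ) - k)) := by
  have hkn : k + n = l := by omega
  rw [trm_eq c F G n j lam1 lam2, trm_eq c F G n k lam1 lam2, hkn]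
  have h1 : wA c F lam1 j * wB c G lam2 (j + n) ≤ wA c F lam1 k * wB c G lam2 l :=
    mul_le_mul (hA1 j hj) (hB2 _ hjn) (wB_nonneg hG _ _) (wA_nonneg hF _ _)
  calc _ ≤ wA c F lam1 k * wB c G lam2 l * Real.exp (lam1 * j - lam2 * (j + n)) :=
        mul_le_mul_of_nonneg_right h1 (Real.exp_pos _).le
    _ = _ := by
        rw [mul_assoc (wA c F lam1 k * wB c G lam2 l), ← Real.exp_add]
        congr 2
        have : (n : ℝ) = l - k := by rw [hn]; push_cast; ring
        rw [this]; ring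

theorem bound_mid_left (hF : ∀ j, 0 ≤ F j) (hG : ∀ j, 0 ≤ G j) (hn : n = l - k)
    (hA2 : ∀ j, j ≤ k0 → wA c F lam2 j ≤ wA c F lam2 k)
    (hB1 : ∀ j, l0 ≤ j → wB c G lam1 j ≤ wB c G lam1 l) (j : ℤ) (hj : j ≤ k0)
    (hjn : l0 ≤ j + n) :
    trm c F G n j ≤ trm c F G n k * Real.exp (-(lam2 - lam1) * ((k : ℝ) - j)) := by
  have hkn : k + n = l := by omega
  rw [trm_eq c F G n j lam2 lam1, trm_eq c F G n k lam2 lam1, hkn]
  have h1 : wA c F lam2 j * wB c G lam1 (j + n) ≤ wA c F lam2 k * wB c G lam1 l :=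
    mul_le_mul (hA2 j hj) (hB1 _ hjn) (wB_nonneg hG _ _) (wA_nonneg hF _ _)
  calc _ ≤ wA c F lam2 k * wB c G lam1 l * Real.exp (lam2 * j - lam1 * (j + n)) :=
        mul_le_mul_of_nonneg_right h1 (Real.exp_pos _).le
    _ = _ := by
        rw [mul_assoc (wA c F lam2 k * wB c G lam1 l), ← Real.exp_add]
        congr 2
        have : (n : ℝ) = l - k := by rw [hn]; push_cast; ring
        rw [this]; ring

/-- terms starting to the right of `k0` but inside of the low window. -/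
theorem bound_right_low (hlow : ∀ i, a ≤ i → i < b → c i ≤ L / 4) (hak : a ≤ k0)
    (hG : ∀ j, 0 ≤ G j) (hFn : ∀ j, F j ≤ nF) (hF : ∀ j, 0 ≤ F j)
    (hF0 : 0 < F k0) (hL : L ≤ lam2) (hn : n = l - k) (hkk : k ≤ k0)
    (hA2 : ∀ j, j ≤ k0 → wA c F lam2 j ≤ wA c F lam2 k)
    (hB2 : ∀ j, l0 ≤ j → wB c G lam2 j ≤ wB c G lam2 l) (hl : l0 ≤ l) (j : ℤ) (hj : k0 < j)
    (hjb : j ≤ b) :
    trm c F G n j ≤ trm c F G n k *
      (nF / F k0 * Real.exp (-(3 / 4 * L) * ((j : ℝ) - k0))) := by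
  have hkn : k + n = l := by omega
  have hjn : l0 ≤ j + n := by omega
  have hjk : (k0 : ℝ) < j := by exact_mod_cast hj
  have hn' : (n : ℝ) = l - k := by rw [hn]; push_cast; ring
  rw [trm_eq c F G n j lam2 lam2, trm_eq c F G n k lam2 lam2, hkn]
  have e1 : wA c F lam2 j ≤ wA c F lam2 k * (nF / F k0 *
      Real.exp (gam c j - gam c k0 - lam2 * (j - k0))) := by
    have h0 : wA c F lam2 k0 ≤ wA c F lam2 k := hA2 k0 le_rfl
    calc wA c F lam2 j ≤ nF * Real.exp (gam c j - lam2 * j) :=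
          mul_le_mul_of_nonneg_right (hFn j) (Real.exp_pos _).le
      _ = wA c F lam2 k0 * (nF / F k0 * Real.exp (gam c j - gam c k0 - lam2 * (j - k0))) := by
          unfold wA
          have : F k0 * Real.exp (gam c k0 - lam2 * k0) * (nF / F k0 *
              Real.exp (gam c j - gam c k0 - lam2 * (j - k0))) =
              nF * (Real.exp (gam c k0 - lam2 * k0) *
                Real.exp (gam c j - gam c k0 - lam2 * (j - k0))) := by
            field_simp
          rw [this, ← Real.exp_add]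
          congr 2
          ring
      _ ≤ _ := by
          apply mul_le_mul_of_nonneg_right h0
          have : 0 ≤ nF := (hF j).trans (hFn j)
          positivity
  have e2 : gam c j - gam c k0 ≤ L / 4 * ((j : ℝ) - k0) := by
    refine gam_le_of_le hj.le ?_
    intro t h1 h2
    exact hlow t (by omega) (by omega)
  have e3 : Real.exp (gam c j - gam c k0 - lam2 * (j - k0)) ≤
      Real.exp (-(3 / 4 * L) * ((j : ℝ) - k0)) := by
    apply Real.exp_le_exp.mpr
    nlinarith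
  have hnF : 0 ≤ nF := (hF j).trans (hFn j)
  have e4 : wA c F lam2 j ≤ wA c F lam2 k * (nF / F k0 *
      Real.exp (-(3 / 4 * L) * ((j : ℝ) - k0))) := by
    refine e1.trans ?_
    apply mul_le_mul_of_nonneg_left _ (wA_nonneg hF _ _)
    apply mul_le_mul_of_nonneg_left e3
    positivity
  have h1 : wA c F lam2 j * wB c G lam2 (j + n) ≤ (wA c F lam2 k * (nF / F k0 *
      Real.exp (-(3 / 4 * L) * ((j : ℝ) - k0)))) * wB c G lam2 l :=
    mul_le_mul e4 (hB2 _ hjn) (wB_nonneg hG _ _)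
      (mul_nonneg (wA_nonneg hF _ _) (by positivity))
  have e5 : Real.exp (lam2 * j - lam2 * (j + n)) = Real.exp (lam2 * k - lam2 * (k + n)) := by
    congr 1; ring
  calc _ ≤ (wA c F lam2 k * (nF / F k0 *
      Real.exp (-(3 / 4 * L) * ((j : ℝ) - k0)))) * wB c G lam2 l *
        Real.exp (lam2 * j - lam2 * (j + n)) :=
        mul_le_mul_of_nonneg_right h1 (Real.exp_pos _).le
    _ = _ := by rw [e5]; ring

/-- terms ending to the left of `l0` but inside of the low window. -/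
theorem bound_left_low (hlow : ∀ i, a ≤ i → i < b → c i ≤ L / 4) (hlb : l0 ≤ b)
    (hG : ∀ j, 0 ≤ G j) (hGn : ∀ j, G j ≤ nG) (hF : ∀ j, 0 ≤ F j)
    (hG0 : 0 < G l0) (hL : L ≤ lam2) (hn : n = l - k) (hkk : k ≤ k0)
    (hA2 : ∀ j, j ≤ k0 → wA c F lam2 j ≤ wA c F lam2 k)
    (hB2 : ∀ j, l0 ≤ j → wB c G lam2 j ≤ wB c G lam2 l) (hl : l0 ≤ l) (j : ℤ)
    (hj : j + n < l0) (hja : a ≤ j + n) :
    trm c F G n j ≤ trm c F G n k *
      (nG / G l0 * Real.exp (-(3 / 4 * L) * ((l0 : ℝ) - (j + n)))) := by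
  have hkn : k + n = l := by omega
  have hjk : ((j : ℝ) + n) < l0 := by exact_mod_cast hj
  have hjk0 : j ≤ k0 := by omega
  rw [trm_eq c F G n j lam2 lam2, trm_eq c F G n k lam2 lam2, hkn]
  have hnG : 0 ≤ nG := (hG j).trans (hGn j)
  have e1 : wB c G lam2 (j + n) ≤ wB c G lam2 l * (nG / G l0 *
      Real.exp (gam c l0 - gam c (j + n) - lam2 * (l0 - (j + n)))) := by
    have h0 : wB c G lam2 l0 ≤ wB c G lam2 l := hB2 l0 le_rfl
    calc wB c G lam2 (j + n) ≤ nG * Real.exp (-gam c (j + n) + lam2 * ((j + n : ℤ) : ℝ)) :=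
          mul_le_mul_of_nonneg_right (hGn _) (Real.exp_pos _).le
      _ = wB c G lam2 l0 * (nG / G l0 *
            Real.exp (gam c l0 - gam c (j + n) - lam2 * (l0 - (j + n)))) := by
          unfold wB
          have : G l0 * Real.exp (-gam c l0 + lam2 * l0) * (nG / G l0 *
              Real.exp (gam c l0 - gam c (j + n) - lam2 * (l0 - (j + n)))) =
              nG * (Real.exp (-gam c l0 + lam2 * l0) *
                Real.exp (gam c l0 - gam c (j + n) - lam2 * (l0 - (j + n)))) := by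
            field_simp
          rw [this, ← Real.exp_add]
          congr 2
          push_cast
          ring
      _ ≤ _ := by
          apply mul_le_mul_of_nonneg_right h0
          positivity
  have e2 : gam c l0 - gam c (j + n) ≤ L / 4 * ((l0 : ℝ) - ((j + n : ℤ) : ℝ)) := by
    refine gam_le_of_le hj.le ?_
    intro t h1 h2
    exact hlow t (by omega) (by omega)
  push_cast at e2
  have e3 : Real.exp (gam c l0 - gam c (j + n) - lam2 * (l0 - (j + n))) ≤
      Real.exp (-(3 / 4 * L) * ((l0 : ℝ) - (j + n))) := by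
    apply Real.exp_le_exp.mpr
    nlinarith
  have e4 : wB c G lam2 (j + n) ≤ wB c G lam2 l * (nG / G l0 *
      Real.exp (-(3 / 4 * L) * ((l0 : ℝ) - (j + n)))) := by
    refine e1.trans ?_
    apply mul_le_mul_of_nonneg_left _ (wB_nonneg hG _ _)
    apply mul_le_mul_of_nonneg_left e3
    positivity
  have h1 : wA c F lam2 j * wB c G lam2 (j + n) ≤ wA c F lam2 k * (wB c G lam2 l * (nG / G l0 *
      Real.exp (-(3 / 4 * L) * ((l0 : ℝ) - (j + n))))) :=
    mul_le_mul (hA2 j hjk0) e4 (wB_nonneg hG _ _) (wA_nonneg hF _ _)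
  have e5 : Real.exp (lam2 * j - lam2 * (j + n)) = Real.exp (lam2 * k - lam2 * (k + n)) := by
    congr 1; ring
  calc _ ≤ wA c F lam2 k * (wB c G lam2 l * (nG / G l0 *
      Real.exp (-(3 / 4 * L) * ((l0 : ℝ) - (j + n))))) *
        Real.exp (lam2 * j - lam2 * (j + n)) :=
        mul_le_mul_of_nonneg_right h1 (Real.exp_pos _).le
    _ = _ := by rw [e5]; ring

/-- terms whose window lies completely in the high region. -/
theorem bound_high (hF : ∀ j, 0 ≤ F j) (hG : ∀ j, 0 ≤ G j) (hn : 0 ≤ n) (j : ℤ)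
    (h : ∀ t, j ≤ t → t < j + n → 16 * L ≤ c t) :
    trm c F G n j ≤ Real.exp (-(16 * L) * n) * (F j * G (j + n)) := by
  have h1 : 16 * L * (((j + n : ℤ) : ℝ) - j) ≤ gam c (j + n) - gam c j :=
    le_gam_of_le (by omega) h
  push_cast at h1
  unfold trm
  rw [mul_comm (Real.exp (-(16 * L) * n))]
  apply mul_le_mul_of_nonneg_left _ (mul_nonneg (hF _) (hG _))
  apply Real.exp_le_exp.mpr
  linarith

end bounds

end Crest.Agent.R113.Uni
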