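import Crest.Agent.R113.TwoDefs
import Crest.Agent.R113.UniMain

/-!
Row 113, S0150, part (U): the unicellular lemma for a valley-shaped weighted shift.
-/

set_option autoImplicit false
open Filter Topology
open Crest.AnalysisR.TwoAdic
open Crest.Agent.R113.Uni

namespace Crest.Agent.R113.Two

/-- summable weight on `ℤ`. -/
theorem summable_ew : Summable fun d : ℤ => Real.exp (-|(d : ℝ)|) := by
  have h : Summable fun n : ℕ => Real.exp (-(n : ℝ)) := by
    have := Real.summable_exp_neg_nat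
    simpa using this
  refine Summable.of_nat_of_neg ?_ ?_
  · simpa using h
  · simpa using h

/-- the total weight. -/
noncomputable def WW : ℝ := ∑' d : ℤ, Real.exp (-|(d : ℝ)|)

theorem WW_nonneg : 0 ≤ WW := tsum_nonneg fun _ => (Real.exp_pos _).le

theorem hasSum_ew (t : ℤ) : HasSum (fun j : ℤ => Real.exp (-|(j : ℝ) - t|)) WW := by
  have h := (Equiv.addRight (-t)).hasSum_iff.mpr summable_ew.hasSum
  have e : (fun j : ℤ => Real.exp (-|(j : ℝ) - t|)) =
      (fun d : ℤ => Real.exp (-|(d : ℝ)|)) ∘ (Equiv.addRight (-t)) := by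
    funext j
    simp [sub_eq_add_neg]
  rw [e]
  exact h

theorem ew_le {mu : ℝ} (hmu : 1 ≤ mu) {x : ℝ} (hx : 1 ≤ |x|) :
    Real.exp (-mu * |x|) ≤ Real.exp (-(mu - 1)) * Real.exp (-|x|) := by
  rw [← Real.exp_add]
  apply Real.exp_le_exp.mpr
  nlinarith

theorem one_le_abs_of_ne {i j : ℤ} (h : i ≠ j) : 1 ≤ |(i : ℝ) - j| := by
  have h1 : 1 ≤ |i - j| := Int.one_le_abs (sub_ne_zero.mpr h)
  exact_mod_cast h1

section
variable {c F G : ℤ → ℝ} {L lam1 lam2 nF nG : ℝ} {a b k0 l0 k l n : ℤ}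

/-- the dominating function. -/
noncomputable def bdf (c F G : ℤ → ℝ) (L mu nF nG : ℝ) (k0 l0 k n j : ℤ) : ℝ :=
  trm c F G n k * (Real.exp (-(mu - 1)) * Real.exp (-|(j : ℝ) - k|) +
    nF / F k0 * (Real.exp (-(3 / 4 * L - 1)) * Real.exp (-|(j : ℝ) - k0|)) +
    nG / G l0 * (Real.exp (-(3 / 4 * L - 1)) * Real.exp (-|(j : ℝ) - (l0 - n : ℤ)|))) +
  Real.exp (-(16 * L) * n) * ((F j ^ 2 + G (j + n) ^ 2) / 2)

theorem trm_le_bdf {mu : ℝ} (hmu : 1 ≤ mu) (hlam : lam2 - lam1 = mu) (hL43 : 1 ≤ 3 / 4 * L)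
    (hlow : ∀ i, a ≤ i → i < b → c i ≤ L / 4)
    (hhigh : ∀ i, (i < a ∨ b ≤ i) → 16 * L ≤ c i)
    (hak : a ≤ k0) (hlb : l0 ≤ b) (hkl0 : k0 < l0)
    (hF : ∀ j, 0 ≤ F j) (hG : ∀ j, 0 ≤ G j) (hFn : ∀ j, F j ≤ nF) (hGn : ∀ j, G j ≤ nG)
    (hF0 : 0 < F k0) (hG0 : 0 < G l0) (hL : L ≤ lam2)
    (hkk : k ≤ k0) (hll : l0 ≤ l) (hn : n = l - k)
    (hA1 : ∀ j, j ≤ k0 → wA c F lam1 j ≤ wA c F lam1 k)
    (hA2 : ∀ j, j ≤ k0 → wA c F lam2 j ≤ wA c F lam2 k)
    (hB1 : ∀ j, l0 ≤ j → wB c G lam1 j ≤ wB c G lam1 l)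
    (hB2 : ∀ j, l0 ≤ j → wB c G lam2 j ≤ wB c G lam2 l) (j : ℤ) (hj : j ≠ k) :
    trm c F G n j ≤ bdf c F G L mu nF nG k0 l0 k n j := by
  have hT : 0 ≤ trm c F G n k := trm_nonneg hF hG n k
  have hnF : 0 ≤ nF := (hF j).trans (hFn j)
  have hnG : 0 ≤ nG := (hG j).trans (hGn j)
  have hFG : F j * G (j + n) ≤ (F j ^ 2 + G (j + n) ^ 2) / 2 := by
    nlinarith [sq_nonneg (F j - G (j + n))]
  have p1 : 0 ≤ Real.exp (-(mu - 1)) * Real.exp (-|(j : ℝ) - k|) := by positivity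
  have p2 : 0 ≤ nF / F k0 * (Real.exp (-(3 / 4 * L - 1)) * Real.exp (-|(j : ℝ) - k0|)) := by
    positivity
  have p3 : 0 ≤ nG / G l0 * (Real.exp (-(3 / 4 * L - 1)) *
      Real.exp (-|(j : ℝ) - (l0 - n : ℤ)|)) := by positivity
  have p4 : 0 ≤ Real.exp (-(16 * L) * n) * ((F j ^ 2 + G (j + n) ^ 2) / 2) := by positivity
  unfold bdf
  by_cases h1 : j ≤ k0
  · by_cases h2 : l0 ≤ j + n
    · -- middle terms
      have hkey : trm c F G n j ≤ trm c F G n k *
          (Real.exp (-(mu - 1)) * Real.exp (-|(j : ℝ) - k|)) := by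
        have h5 := one_le_abs_of_ne hj
        have h6 := ew_le hmu h5
        rcases lt_or_gt_of_ne hj with h3 | h3
        · have h4 := bound_mid_left hF hG hn hA2 hB1 j h1 h2
          rw [hlam] at h4
          have h7 : |(j : ℝ) - k| = (k : ℝ) - j := by
            rw [abs_of_neg]; · ring
            have : (j : ℝ) < k := by exact_mod_cast h3
            linarith
          rw [h7] at h6 ⊢
          exact h4.trans (mul_le_mul_of_nonneg_left h6 hT)
        · have h4 := bound_mid_right hF hG hn hA1 hB2 j h1 h2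
          rw [hlam] at h4
          have h7 : |(j : ℝ) - k| = (j : ℝ) - k := by
            rw [abs_of_pos]
            have : (k : ℝ) < j := by exact_mod_cast h3
            linarith
          rw [h7] at h6 ⊢
          exact h4.trans (mul_le_mul_of_nonneg_left h6 hT)
      have := mul_nonneg hT p2
      have := mul_nonneg hT p3
      nlinarith
    · push Not at h2
      by_cases h3 : a ≤ j + n
      · have h4 := bound_left_low hlow hlb hG hGn hF hG0 hL hn hkk hA2 hB2 hll j h2 h3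
        have h5 : 1 ≤ |(j : ℝ) - (l0 - n : ℤ)| := one_le_abs_of_ne (by omega)
        have h6 := ew_le hL43 h5
        have h7 : |(j : ℝ) - (l0 - n : ℤ)| = (l0 : ℝ) - (j + n) := by
          rw [abs_of_neg]; · push_cast; ring
          have : ((j : ℝ) + n) < l0 := by exact_mod_cast h2
          push_cast
          linarith
        have hkey : trm c F G n j ≤ trm c F G n k * (nG / G l0 *
            (Real.exp (-(3 / 4 * L - 1)) * Real.exp (-|(j : ℝ) - (l0 - n : ℤ)|))) := by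
          rw [h7] at h6 ⊢
          refine h4.trans (mul_le_mul_of_nonneg_left ?_ hT)
          exact mul_le_mul_of_nonneg_left h6 (by positivity)
        have := mul_nonneg hT p1
        have := mul_nonneg hT p2
        nlinarith
      · push Not at h3
        have h4 := bound_high (L := L) (c := c) hF hG (n := n) (by omega) j
          (fun t h5 h6 => hhigh t (Or.inl (by omega)))
        have h5 := mul_le_mul_of_nonneg_left hFG (Real.exp_pos (-(16 * L) * n)).le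
        have := mul_nonneg hT p1
        have := mul_nonneg hT p2
        have := mul_nonneg hT p3
        nlinarith
  · push Not at h1
    by_cases h3 : j ≤ b
    · have h4 := bound_right_low hlow hak hG hFn hF hF0 hL hn hkk hA2 hB2 hll j h1 h3
      have h5 : 1 ≤ |(j : ℝ) - k0| := one_le_abs_of_ne (by omega)
      have h6 := ew_le hL43 h5
      have h7 : |(j : ℝ) - k0| = (j : ℝ) - k0 := by
        rw [abs_of_pos]
        have : (k0 : ℝ) < j := by exact_mod_cast h1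
        linarith
      have hkey : trm c F G n j ≤ trm c F G n k * (nF / F k0 *
          (Real.exp (-(3 / 4 * L - 1)) * Real.exp (-|(j : ℝ) - k0|))) := by
        rw [h7] at h6 ⊢
        refine h4.trans (mul_le_mul_of_nonneg_left ?_ hT)
        exact mul_le_mul_of_nonneg_left h6 (by positivity)
      have := mul_nonneg hT p1
      have := mul_nonneg hT p3
      nlinarith
    · push Not at h3
      have h4 := bound_high (L := L) (c := c) hF hG (n := n) (by omega) j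
        (fun t h5 h6 => hhigh t (Or.inr (by omega)))
      have h5 := mul_le_mul_of_nonneg_left hFG (Real.exp_pos (-(16 * L) * n)).le
      have := mul_nonneg hT p1
      have := mul_nonneg hT p2
      have := mul_nonneg hT p3
      nlinarith

theorem bdf_nonneg {mu : ℝ} (hF : ∀ j, 0 ≤ F j) (hG : ∀ j, 0 ≤ G j) (hnF : 0 ≤ nF)
    (hnG : 0 ≤ nG) (j : ℤ) : 0 ≤ bdf c F G L mu nF nG k0 l0 k n j := by
  have hT : 0 ≤ trm c F G n k := trm_nonneg hF hG n k
  have := hF k0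
  have := hG l0
  unfold bdf
  positivity

theorem hasSum_bdf {mu : ℝ} {sF sG : ℝ} (hsF : HasSum (fun j => F j ^ 2) sF)
    (hsG : HasSum (fun j => G j ^ 2) sG) :
    HasSum (bdf c F G L mu nF nG k0 l0 k n)
      (trm c F G n k * (Real.exp (-(mu - 1)) * WW +
        nF / F k0 * (Real.exp (-(3 / 4 * L - 1)) * WW) +
        nG / G l0 * (Real.exp (-(3 / 4 * L - 1)) * WW)) +
      Real.exp (-(16 * L) * n) * ((sF + sG) / 2)) := by
  unfold bdf
  have h1 := (hasSum_ew k).mul_left (Real.exp (-(mu - 1)))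
  have h2 := ((hasSum_ew k0).mul_left (Real.exp (-(3 / 4 * L - 1)))).mul_left (nF / F k0)
  have h3 := ((hasSum_ew (l0 - n)).mul_left (Real.exp (-(3 / 4 * L - 1)))).mul_left (nG / G l0)
  have h4 : HasSum (fun j => G (j + n) ^ 2) sG := by
    have := (Equiv.addRight n).hasSum_iff.mpr hsG
    simpa [Function.comp_def] using this
  have h5 := ((hsF.add h4).div_const 2).mul_left (Real.exp (-(16 * L) * n))
  exact (((h1.add h2).add h3).mul_left (trm c F G n k)).add h5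

theorem centre_lower (hF0 : 0 < F k0) (hG0 : 0 < G l0) (hF : ∀ j, 0 ≤ F j)
    (hG : ∀ j, 0 ≤ G j) (hkl0 : k0 < l0)
    (hn : n = l - k) (hnn : 0 ≤ n) (hlam0 : 0 ≤ lam1) (hlam : lam1 ≤ 4 * L)
    (hA1 : ∀ j, j ≤ k0 → wA c F lam1 j ≤ wA c F lam1 k)
    (hB1 : ∀ j, l0 ≤ j → wB c G lam1 j ≤ wB c G lam1 l) :
    F k0 * G l0 * Real.exp (-(gam c l0 - gam c k0)) * Real.exp (-(4 * L) * n) ≤
      trm c F G n k := by
  have hkn : k + n = l := by omega
  rw [trm_eq c F G n k lam1 lam1, hkn]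
  have h1 : wA c F lam1 k0 * wB c G lam1 l0 ≤ wA c F lam1 k * wB c G lam1 l :=
    mul_le_mul (hA1 _ le_rfl) (hB1 _ le_rfl) (wB_nonneg hG _ _) (wA_nonneg hF _ _)
  refine le_trans ?_ (mul_le_mul_of_nonneg_right h1 (Real.exp_pos _).le)
  unfold wA wB
  have e : F k0 * Real.exp (gam c k0 - lam1 * k0) * (G l0 * Real.exp (-gam c l0 + lam1 * l0)) *
      Real.exp (lam1 * k - lam1 * (k + n)) = F k0 * G l0 * (Real.exp (gam c k0 - lam1 * k0) *
        Real.exp (-gam c l0 + lam1 * l0) * Real.exp (lam1 * k - lam1 * (k + n))) := by ring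
  rw [e, mul_assoc (F k0 * G l0), ← Real.exp_add, ← Real.exp_add, ← Real.exp_add]
  apply mul_le_mul_of_nonneg_left _ (by positivity)
  apply Real.exp_le_exp.mpr
  have h2 : (k0 : ℝ) < l0 := by exact_mod_cast hkl0
  have h3 : (0 : ℝ) ≤ n := by exact_mod_cast hnn
  nlinarith

/-- numerical end of the argument. -/
theorem total_lt {mu sF sG : ℝ} (hF : ∀ j, 0 ≤ F j) (hG : ∀ j, 0 ≤ G j)
    (hF0 : 0 < F k0) (hG0 : 0 < G l0)
    (hkl0 : k0 < l0) (hL0 : 0 < L)
    (hn : n = l - k) (hnn : 1 ≤ n) (hlam0 : 0 ≤ lam1) (hlam : lam1 ≤ 4 * L)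
    (hA1 : ∀ j, j ≤ k0 → wA c F lam1 j ≤ wA c F lam1 k)
    (hB1 : ∀ j, l0 ≤ j → wB c G lam1 j ≤ wB c G lam1 l)
    (h1 : WW * Real.exp (-(mu - 1)) ≤ 1 / 4)
    (h2 : WW * (nF / F k0 + nG / G l0) * Real.exp (-(3 / 4 * L - 1)) ≤ 1 / 4)
    (h3 : (sF + sG) / 2 ≤ 1 / 4 * (F k0 * G l0 * Real.exp (-(gam c l0 - gam c k0))) *
      Real.exp (12 * L)) :
    trm c F G n k * (Real.exp (-(mu - 1)) * WW +
        nF / F k0 * (Real.exp (-(3 / 4 * L - 1)) * WW) +
        nG / G l0 * (Real.exp (-(3 / 4 * L - 1)) * WW)) +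
      Real.exp (-(16 * L) * n) * ((sF + sG) / 2) < trm c F G n k := by
  have hc := centre_lower (L := L) (c := c) hF0 hG0 hF hG hkl0 hn (by omega) hlam0 hlam hA1 hB1
  set C0 := F k0 * G l0 * Real.exp (-(gam c l0 - gam c k0)) with hC0
  have hC0pos : 0 < C0 := by positivity
  have hT : 0 < trm c F G n k := lt_of_lt_of_le (by positivity) hc
  have hn1 : (1 : ℝ) ≤ n := by exact_mod_cast hnn
  have e1 : Real.exp (-(16 * L) * n) * ((sF + sG) / 2) ≤ 1 / 4 * trm c F G n k := by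
    calc Real.exp (-(16 * L) * n) * ((sF + sG) / 2)
        ≤ Real.exp (-(16 * L) * n) * (1 / 4 * C0 * Real.exp (12 * L)) :=
          mul_le_mul_of_nonneg_left h3 (Real.exp_pos _).le
      _ = 1 / 4 * (C0 * (Real.exp (-(16 * L) * n) * Real.exp (12 * L))) := by ring
      _ ≤ 1 / 4 * (C0 * Real.exp (-(4 * L) * n)) := by
          apply mul_le_mul_of_nonneg_left _ (by norm_num)
          apply mul_le_mul_of_nonneg_left _ hC0pos.le
          rw [← Real.exp_add]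
          apply Real.exp_le_exp.mpr
          nlinarith
      _ ≤ 1 / 4 * trm c F G n k := by
          apply mul_le_mul_of_nonneg_left hc (by norm_num)
  have e2 : trm c F G n k * (Real.exp (-(mu - 1)) * WW +
        nF / F k0 * (Real.exp (-(3 / 4 * L - 1)) * WW) +
        nG / G l0 * (Real.exp (-(3 / 4 * L - 1)) * WW)) ≤ trm c F G n k * (1 / 4 + 1 / 4) := by
    apply mul_le_mul_of_nonneg_left _ hT.le
    nlinarith
  linarith

end

/-- the central non-vanishing statement. -/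
theorem pair_ne_zero {c : ℤ → ℝ} {S : seqHilbert →L[ℂ] seqHilbert} (hS : IsShift c S)
    (f g : seqHilbert) {L lam1 lam2 mu : ℝ} {a b k0 l0 k l : ℤ}
    (hmu : 1 ≤ mu) (hlam : lam2 - lam1 = mu) (hL0 : 0 < L) (hL43 : 1 ≤ 3 / 4 * L)
    (hlow : ∀ i, a ≤ i → i < b → c i ≤ L / 4)
    (hhigh : ∀ i, (i < a ∨ b ≤ i) → 16 * L ≤ c i)
    (hak : a ≤ k0) (hlb : l0 ≤ b) (hkl0 : k0 < l0)
    (hf : (f : ℤ → ℂ) k0 ≠ 0) (hg : (g : ℤ → ℂ) l0 ≠ 0)
    (hL1 : 0 ≤ lam1) (hL2 : lam1 ≤ 4 * L) (hL : L ≤ lam2)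
    (hkk : k ≤ k0) (hll : l0 ≤ l)
    (hA1 : ∀ j, j ≤ k0 → wA c (fun j => ‖(f : ℤ → ℂ) j‖) lam1 j ≤
      wA c (fun j => ‖(f : ℤ → ℂ) j‖) lam1 k)
    (hA2 : ∀ j, j ≤ k0 → wA c (fun j => ‖(f : ℤ → ℂ) j‖) lam2 j ≤
      wA c (fun j => ‖(f : ℤ → ℂ) j‖) lam2 k)
    (hB1 : ∀ j, l0 ≤ j → wB c (fun j => ‖(g : ℤ → ℂ) j‖) lam1 j ≤
      wB c (fun j => ‖(g : ℤ → ℂ) j‖) lam1 l)
    (hB2 : ∀ j, l0 ≤ j → wB c (fun j => ‖(g : ℤ → ℂ) j‖) lam2 j ≤
      wB c (fun j => ‖(g : ℤ → ℂ) j‖) lam2 l)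
    (h1 : WW * Real.exp (-(mu - 1)) ≤ 1 / 4)
    (h2 : WW * (‖f‖ / ‖(f : ℤ → ℂ) k0‖ + ‖g‖ / ‖(g : ℤ → ℂ) l0‖) *
      Real.exp (-(3 / 4 * L - 1)) ≤ 1 / 4)
    (h3 : (‖f‖ ^ 2 + ‖g‖ ^ 2) / 2 ≤ 1 / 4 * (‖(f : ℤ → ℂ) k0‖ * ‖(g : ℤ → ℂ) l0‖ *
      Real.exp (-(gam c l0 - gam c k0))) * Real.exp (12 * L)) :
    inner ℂ g ((S ^ (l - k).toNat) f) ≠ 0 := by
  set F : ℤ → ℝ := fun j => ‖(f : ℤ → ℂ) j‖ with hFdef
  set G : ℤ → ℝ := fun j => ‖(g : ℤ → ℂ) j‖ with hGdef
  have hF : ∀ j, 0 ≤ F j := fun j => norm_nonneg _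
  have hG : ∀ j, 0 ≤ G j := fun j => norm_nonneg _
  have hFn : ∀ j, F j ≤ ‖f‖ := fun j => norm_coord_le f j
  have hGn : ∀ j, G j ≤ ‖g‖ := fun j => norm_coord_le g j
  have hF0 : 0 < F k0 := norm_pos_iff.mpr hf
  have hG0 : 0 < G l0 := norm_pos_iff.mpr hg
  set N : ℕ := (l - k).toNat with hN
  have hNn : (N : ℤ) = l - k := by omega
  intro hzero
  set z : ℤ → ℂ := fun j => (starRingEnd ℂ) ((g : ℤ → ℂ) (j + N)) *
      ((Real.exp (-(gam c (j + N) - gam c j)) : ℂ) * (f : ℤ → ℂ) j) with hz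
  have hsum : HasSum z 0 := by
    have := hasSum_inner_pow hS f g N
    rw [hzero] at this
    exact this
  have hznorm : ∀ j, ‖z j‖ = trm c F G N j := by
    intro j
    simp only [hz, norm_mul, RCLike.norm_conj]
    unfold trm
    have e : ‖((Real.exp (-(gam c (j + N) - gam c j)) : ℝ) : ℂ)‖ =
        Real.exp (-(gam c (j + N) - gam c j)) := by
      rw [Complex.norm_real, Real.norm_eq_abs, abs_of_pos (Real.exp_pos _)]
    rw [e]
    simp only [hFdef, hGdef]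
    ring
  have hsum2 : HasSum (fun j => z j - (if j = k then z k else 0)) (0 - z k) :=
    hsum.sub (hasSum_ite_eq k (z k))
  have hb := hasSum_bdf (c := c) (F := F) (G := G) (L := L) (nF := ‖f‖) (nG := ‖g‖)
    (k0 := k0) (l0 := l0) (k := k) (n := (N : ℤ)) (mu := mu)
    (norm_sq_hasSum f) (norm_sq_hasSum g)
  have hle := tsum_of_norm_bounded (f := fun j => z j - (if j = k then z k else 0)) hb (by
    intro j
    by_cases hj : j = k
    · subst hj
      simp only [if_true, sub_self, norm_zero]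
      exact bdf_nonneg hF hG (norm_nonneg _) (norm_nonneg _) _
    · simp only [hj, if_false, sub_zero]
      rw [hznorm]
      exact trm_le_bdf hmu hlam hL43 hlow hhigh hak hlb hkl0 hF hG hFn hGn hF0 hG0 hL hkk hll
        hNn hA1 hA2 hB1 hB2 j hj)
  have hlt := total_lt (c := c) (F := F) (G := G) (L := L) (nF := ‖f‖) (nG := ‖g‖)
    (k0 := k0) (l0 := l0) (k := k) (l := l) (n := (N : ℤ)) (mu := mu)
    hF hG hF0 hG0 hkl0 hL0 hNn (by omega) hL1 hL2 hA1 hB1 h1 h2 h3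
  rw [hsum2.tsum_eq, zero_sub, norm_neg, hznorm] at hle
  exact absurd hle (not_le.mpr hlt)

end Crest.Agent.R113.Two
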